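import Mathlib.Algebra.BigOperators.Fin
import Mathlib.Algebra.BigOperators.Ring.Finset
import Mathlib.Combinatorics.SimpleGraph.Hamiltonian
import Mathlib.Data.Fin.VecNotation
import Mathlib.Data.Fintype.BigOperators
import Mathlib.Data.Fintype.Pi
import Mathlib.Data.ZMod.Basic
import Mathlib.GroupTheory.Perm.Cycle.Basic
import Mathlib.Logic.Relation
import Mathlib.Tactic.LinearCombination
import Mathlib.Tactic.Ring
import Mathlib.Combinatorics.SimpleGraph.Acyclic
import Mathlib.Tactic.Linarith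
import Mathlib.Tactic.NormNum
import Mathlib.Combinatorics.SimpleGraph.Matching
import Mathlib.Data.Real.Basic
import Mathlib.LinearAlgebra.Dimension.Constructions
import Mathlib.LinearAlgebra.FiniteDimensional.Lemmas
import Mathlib.Tactic
import Mathlib.Algebra.Field.ZMod
import Mathlib.Combinatorics.SimpleGraph.Bipartite
import Mathlib.Combinatorics.SimpleGraph.Connectivity.Connected
import Mathlib.Combinatorics.SimpleGraph.Dart
import Mathlib.Combinatorics.SimpleGraph.Finite
import Mathlib.Combinatorics.SimpleGraph.Metric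
import Mathlib.LinearAlgebra.Matrix.Rank
import Mathlib.SetTheory.Cardinal.Finite
import Mathlib.Tactic.Abel
import Mathlib.Data.Set.Card
import Vale.Agent.P039.Sk.Defs
import Vale.Agent.P039.Defs
import Vale.Agent.P039.St.Defs

set_option linter.all false

section

namespace Vale.Agent.P039.Sk

variable {B W V : Type} {X : Web B W}

theorem f11 (j : Fin 3) : j + 1 + 1 = j + 2 := by revert j; decide
theorem f12 (j : Fin 3) : j + 1 + 2 = j := by revert j; decide
theorem f21 (j : Fin 3) : j + 2 + 1 = j := by revert j; decide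
theorem f22 (j : Fin 3) : j + 2 + 2 = j + 1 := by revert j; decide
theorem fcase (i j : Fin 3) : i = j ∨ i = j + 1 ∨ i = j + 2 := by revert i j; decide
theorem fne1 (j : Fin 3) : j + 1 ≠ j := by revert j; decide
theorem fne2 (j : Fin 3) : j + 2 ≠ j := by revert j; decide
theorem fne12 (j : Fin 3) : j + 1 ≠ j + 2 := by revert j; decide
theorem fne21 (j : Fin 3) : j + 2 ≠ j + 1 := by revert j; decide
theorem fne1' (j : Fin 3) : j ≠ j + 1 := by revert j; decide
theorem fne2' (j : Fin 3) : j ≠ j + 2 := by revert j; decide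

/-- A labelling of the faces of `X` by the elements of `V`: `c j b` is the face of class `j` at the
black vertex `b`. -/
structure Lab (X : Web B W) (V : Type) where
  c : Fin 3 → B → V
  step : ∀ j b b', X.e (j + 1) b' = X.e (j + 2) b → c j b' = c j b
  exact : ∀ j b b', c j b = c j b' →
    Relation.EqvGen (fun x y => X.e (j + 1) y = X.e (j + 2) x) b b'
  cls : ∀ j j' b b', c j b = c j' b' → j = j'
  surj : ∀ v, ∃ j b, c j b = v

/-- `h` is a height function. -/
def Lab.Valid (L : Lab X V) (h : V → ZMod 12) : Prop :=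
  ∀ i b, h (L.c (i + 2) b) = h (L.c (i + 1) b) + 1 ∨ h (L.c (i + 2) b) = h (L.c (i + 1) b) - 2

/-- The edges of the 2-factor given by `h`. -/
def Lab.HE (L : Lab X V) (h : V → ZMod 12) (x y : B ⊕ W) : Prop :=
  ∃ i b, h (L.c (i + 2) b) = h (L.c (i + 1) b) + 1 ∧ x = Sum.inl b ∧ y = Sum.inr (X.e i b)

def Lab.Conn (L : Lab X V) (h : V → ZMod 12) : Prop :=
  ∀ x y, Relation.EqvGen (L.HE h) x y

def Lab.Sol (L : Lab X V) (h : V → ZMod 12) : Prop := L.Valid h ∧ L.Conn h

/-- Reduction of heights modulo 4. -/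
def kap : ZMod 12 →+* ZMod 4 := ZMod.castHom (by decide) (ZMod 4)

def eps (a : ZMod 4) : ℤ := if a = 0 then 1 else if a = 2 then -1 else 0

theorem eps_add_two (a : ZMod 4) : eps (a + 2) = - eps a := by revert a; decide
theorem eps_neg (a : ZMod 4) : eps (-a) = eps a := by revert a; decide

/-- The exponent of the weight of `h`, for marks `m`. -/
def Lab.E [Fintype B] [Fintype V] (L : Lab X V) (m : V → ZMod 4) (h : V → ZMod 12) : ZMod 4 :=
  ∑ v, (3 + m v) * kap (h v) - ∑ b, ∑ j, kap (h (L.c j b))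

open Classical in
/-- The signed count. -/
noncomputable def Lab.S [Fintype B] [Fintype V] (L : Lab X V) (m : V → ZMod 4) : ℤ :=
  ∑ h : V → ZMod 12, if L.Sol h then eps (L.E m h) else 0

end Vale.Agent.P039.Sk
end

section

/-! Further definitions for the square rule, duality and digons. -/

namespace Vale.Agent.P039.Sk

variable {B W V B' W' : Type}

/-- Faces of the web after removing the 4-face: `s = L.c j b₁` disappears, `p' = L.c (j+1) b₂` is
merged into `p = L.c (j+1) b₁`. (`q' = L.c (j+2) b₁`, `q = L.c (j+2) b₂`.) -/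
abbrev Lab.V1 {Y : Web B W} (L : Lab Y V) (j : Fin 3) (b₁ b₂ : B) : Type :=
  {v : V // v ≠ L.c j b₁ ∧ v ≠ L.c (j + 1) b₂}

section
variable {Y : Web B W}

def Lab.type1 (L : Lab Y V) (j : Fin 3) (b₁ b₂ : B) (h : V → ZMod 12) : Prop :=
  h (L.c (j + 1) b₁) = h (L.c (j + 1) b₂) ∧
    h (L.c j b₁) + h (L.c (j + 1) b₁) = h (L.c (j + 2) b₁) + h (L.c (j + 2) b₂)

def Lab.type2 (L : Lab Y V) (j : Fin 3) (b₁ b₂ : B) (h : V → ZMod 12) : Prop :=
  h (L.c (j + 2) b₁) = h (L.c (j + 2) b₂) ∧
    h (L.c j b₁) + h (L.c (j + 2) b₁) = h (L.c (j + 1) b₁) + h (L.c (j + 1) b₂)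

/-- the marks on the smaller web -/
def Lab.m1 [DecidableEq V] (L : Lab Y V) (j : Fin 3) (b₁ b₂ : B) (m : V → ZMod 4) :
    L.V1 j b₁ b₂ → ZMod 4 :=
  fun v => if v.1 = L.c (j + 1) b₁ then m (L.c (j + 1) b₁) + m (L.c (j + 1) b₂) else m v.1

/-- both new edges of the smaller web lie in the perfect matching -/
def Lab.mono {X : Web B' W'} {V' : Type} (L' : Lab X V') (j : Fin 3) (β₁ β₂ : B')
    (h : V' → ZMod 12) : Prop :=
  h (L'.c (j + 2) β₁) = h (L'.c (j + 1) β₁) - 2 ∧ h (L'.c (j + 2) β₂) = h (L'.c (j + 1) β₂) - 2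

/-- height functions on the outside of the 4-face which have both new edges in the matching -/
def Lab.ZS (L : Lab Y V) (j : Fin 3) (b₁ b₂ : B) (h : V → ZMod 12) : Prop :=
  h (L.c j b₁) = 0 ∧ h (L.c (j + 1) b₂) = h (L.c (j + 1) b₁) ∧
  h (L.c (j + 2) b₁) = h (L.c (j + 1) b₁) - 2 ∧ h (L.c (j + 2) b₂) = h (L.c (j + 1) b₁) - 2 ∧
  (∀ i b, b ≠ b₁ → b ≠ b₂ →
    h (L.c (i + 2) b) = h (L.c (i + 1) b) + 1 ∨ h (L.c (i + 2) b) = h (L.c (i + 1) b) - 2) ∧
  ∀ x y : B ⊕ W, (x ≠ Sum.inl b₁ ∧ x ≠ Sum.inl b₂ ∧ x ≠ Sum.inr (Y.e (j + 2) b₁) ∧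
      x ≠ Sum.inr (Y.e (j + 2) b₂)) →
    (y ≠ Sum.inl b₁ ∧ y ≠ Sum.inl b₂ ∧ y ≠ Sum.inr (Y.e (j + 2) b₁) ∧
      y ≠ Sum.inr (Y.e (j + 2) b₂)) →
    Relation.EqvGen (fun x y => ∃ i b, b ≠ b₁ ∧ b ≠ b₂ ∧ Y.e i b ≠ Y.e (j + 2) b₁ ∧
      Y.e i b ≠ Y.e (j + 2) b₂ ∧ h (L.c (i + 2) b) = h (L.c (i + 1) b) + 1 ∧
      x = Sum.inl b ∧ y = Sum.inr (Y.e i b)) x y

variable [Fintype B] [Fintype V] [DecidableEq V]

open Classical in
noncomputable def Lab.T1 (L : Lab Y V) (j : Fin 3) (b₁ b₂ : B) (m : V → ZMod 4) : ℤ :=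
  ∑ h : V → ZMod 12, if L.Sol h ∧ L.type1 j b₁ b₂ h then eps (L.E m h) else 0

open Classical in
noncomputable def Lab.T2 (L : Lab Y V) (j : Fin 3) (b₁ b₂ : B) (m : V → ZMod 4) : ℤ :=
  ∑ h : V → ZMod 12, if L.Sol h ∧ L.type2 j b₁ b₂ h then eps (L.E m h) else 0

open Classical in
noncomputable def Lab.M1 (L : Lab Y V) (j : Fin 3) (b₁ b₂ : B) (m : V → ZMod 4) : ℤ :=
  ∑ h : V → ZMod 12, if L.ZS j b₁ b₂ h then eps (L.E m h + kap (h (L.c (j + 1) b₁))) else 0

end

/-- a 4-face `b₁ w₁ b₂ w₂` of class `j`, whose four outgoing edges do not end at the 4-face -/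
structure Sq4 (Y : Web B W) (j : Fin 3) (b₁ b₂ : B) : Prop where
  ne : b₁ ≠ b₂
  face : Y.e (j + 1) b₂ = Y.e (j + 2) b₁
  face' : Y.e (j + 1) b₁ = Y.e (j + 2) b₂
  n11 : Y.e j b₁ ≠ Y.e (j + 2) b₁
  n12 : Y.e j b₁ ≠ Y.e (j + 2) b₂
  n21 : Y.e j b₂ ≠ Y.e (j + 2) b₁
  n22 : Y.e j b₂ ≠ Y.e (j + 2) b₂

/-- `X` arises from `Y` by removing the digon at `b` (class `j`) -/
structure DgRel (Y : Web B W) (X : Web B' W') (f : B' → B) (g : W' → W) (j : Fin 3) (b : B) :
    Prop where
  fi : Function.Injective f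
  gi : Function.Injective g
  fr : ∀ b', (∃ a, f a = b') ↔ b' ≠ b
  gr : ∀ w, (∃ a, g a = w) ↔ w ≠ Y.e (j + 2) b
  face : Y.e (j + 1) b = Y.e (j + 2) b
  out : ∃ a, g a = Y.e j b
  other : ∀ i, i ≠ j → ∀ a, Y.e i (f a) = g (X.e i a)
  same : ∀ a, Y.e j (f a) ≠ Y.e (j + 2) b → Y.e j (f a) = g (X.e j a)
  out1 : ∀ a, Y.e j (f a) = Y.e (j + 2) b → g (X.e j a) = Y.e j b

end Vale.Agent.P039.Sk
end

section

/-! The labelling of the smaller web. -/

namespace Vale.Agent.P039.Sk

variable {B W V B' W' : Type}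

variable {Y : Web B W} {X : Web B' W'} {f : B' → B} {g : W' → W} {j : Fin 3} {b₁ b₂ : B}

theorem SqRel.ex_f (R : SqRel Y X f g j b₁ b₂) {b : B} (h1 : b ≠ b₁) (h2 : b ≠ b₂) :
    ∃ b', f b' = b := (R.fr b).2 ⟨h1, h2⟩

theorem SqRel.f_ne₁ (R : SqRel Y X f g j b₁ b₂) (b : B') : f b ≠ b₁ := ((R.fr _).1 ⟨b, rfl⟩).1

theorem SqRel.f_ne₂ (R : SqRel Y X f g j b₁ b₂) (b : B') : f b ≠ b₂ := ((R.fr _).1 ⟨b, rfl⟩).2

theorem SqRel.g_ne₁ (R : SqRel Y X f g j b₁ b₂) (w : W') : g w ≠ Y.e (j + 2) b₁ :=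
  ((R.gr _).1 ⟨w, rfl⟩).1

theorem SqRel.g_ne₂ (R : SqRel Y X f g j b₁ b₂) (w : W') : g w ≠ Y.e (j + 2) b₂ :=
  ((R.gr _).1 ⟨w, rfl⟩).2

/-- every black vertex is `b₁`, `b₂` or in the range of `f` -/
theorem SqRel.cases (R : SqRel Y X f g j b₁ b₂) (b : B) : b = b₁ ∨ b = b₂ ∨ ∃ a, b = f a := by
  by_cases h1 : b = b₁
  · exact Or.inl h1
  · by_cases h2 : b = b₂
    · exact Or.inr (Or.inl h2)
    · obtain ⟨a, ha⟩ := R.ex_f h1 h2
      exact Or.inr (Or.inr ⟨a, ha.symm⟩)

theorem SqRel.n11 (R : SqRel Y X f g j b₁ b₂) : Y.e j b₁ ≠ Y.e (j + 2) b₁ := by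
  obtain ⟨w, hw⟩ := R.o1
  rw [← hw]; exact R.g_ne₁ w

theorem SqRel.n12 (R : SqRel Y X f g j b₁ b₂) : Y.e j b₁ ≠ Y.e (j + 2) b₂ := by
  obtain ⟨w, hw⟩ := R.o1
  rw [← hw]; exact R.g_ne₂ w

theorem SqRel.n21 (R : SqRel Y X f g j b₁ b₂) : Y.e j b₂ ≠ Y.e (j + 2) b₁ := by
  obtain ⟨w, hw⟩ := R.o2
  rw [← hw]; exact R.g_ne₁ w

theorem SqRel.n22 (R : SqRel Y X f g j b₁ b₂) : Y.e j b₂ ≠ Y.e (j + 2) b₂ := by
  obtain ⟨w, hw⟩ := R.o2
  rw [← hw]; exact R.g_ne₂ w

theorem SqRel.sq4 (R : SqRel Y X f g j b₁ b₂) : Sq4 Y j b₁ b₂ :=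
  ⟨R.ne, R.face, R.face', R.n11, R.n12, R.n21, R.n22⟩

/-- the two new edges: `f β₁` was joined to `w₁`, `f β₂` to `w₂` -/
theorem SqRel.betas (R : SqRel Y X f g j b₁ b₂) : ∃ β₁ β₂ : B', β₁ ≠ β₂ ∧
    Y.e j (f β₁) = Y.e (j + 2) b₁ ∧ Y.e j (f β₂) = Y.e (j + 2) b₂ := by
  have key : ∀ w, w = Y.e (j + 2) b₁ ∨ w = Y.e (j + 2) b₂ → ∃ β : B', Y.e j (f β) = w := by
    intro w hw
    obtain ⟨b, hb⟩ := (Y.e j).surjective w
    rcases R.cases b with rfl | rfl | ⟨a, rfl⟩
    · rcases hw with rfl | rfl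
      · exact absurd hb R.n11
      · exact absurd hb R.n12
    · rcases hw with rfl | rfl
      · exact absurd hb R.n21
      · exact absurd hb R.n22
    · exact ⟨a, hb⟩
  obtain ⟨β₁, h1⟩ := key _ (Or.inl rfl)
  obtain ⟨β₂, h2⟩ := key _ (Or.inr rfl)
  refine ⟨β₁, β₂, ?_, h1, h2⟩
  rintro rfl
  rw [h1] at h2
  exact R.ne ((Y.e (j + 2)).injective h2)

theorem SqRel.c_s (R : SqRel Y X f g j b₁ b₂) (L : Lab Y V) : L.c j b₂ = L.c j b₁ :=
  L.step j b₁ b₂ R.face

theorem SqRel.c_only (R : SqRel Y X f g j b₁ b₂) (L : Lab Y V) {k : Fin 3} {b : B}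
    (h : L.c k b = L.c j b₁) : k = j ∧ (b = b₁ ∨ b = b₂) := by
  have hk : k = j := L.cls _ _ _ _ h
  subst hk
  refine ⟨rfl, ?_⟩
  have key : ∀ x y, Relation.EqvGen (fun x y => Y.e (k + 1) y = Y.e (k + 2) x) x y →
      ((x = b₁ ∨ x = b₂) ↔ (y = b₁ ∨ y = b₂)) := by
    intro x y hxy
    induction hxy with
    | rel x y h =>
      constructor
      · rintro (h1 | h1)
        · right
          rw [h1, ← R.face] at h
          exact (Y.e (k + 1)).injective h
        · left
          rw [h1, ← R.face'] at h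
          exact (Y.e (k + 1)).injective h
      · rintro (h1 | h1)
        · right
          rw [h1, R.face'] at h
          exact (Y.e (k + 2)).injective h.symm
        · left
          rw [h1, R.face] at h
          exact (Y.e (k + 2)).injective h.symm
    | refl x => exact Iff.rfl
    | symm x y _ ih => exact ih.symm
    | trans x y z _ _ ih1 ih2 => exact ih1.trans ih2
  exact (key b b₁ (L.exact k b b₁ h)).2 (Or.inl rfl)

theorem SqRel.c_ne_s (R : SqRel Y X f g j b₁ b₂) (L : Lab Y V) (k : Fin 3) (b : B') :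
    L.c k (f b) ≠ L.c j b₁ := by
  intro h
  rcases (R.c_only L h).2 with h1 | h1
  · exact R.f_ne₁ b h1
  · exact R.f_ne₂ b h1

theorem SqRel.c_β₁ (R : SqRel Y X f g j b₁ b₂) (L : Lab Y V) {β₁ : B'}
    (h : Y.e j (f β₁) = Y.e (j + 2) b₁) :
    L.c (j + 1) (f β₁) = L.c (j + 1) b₁ ∧ L.c (j + 2) (f β₁) = L.c (j + 2) b₂ := by
  constructor
  · refine (L.step (j + 1) (f β₁) b₁ ?_).symm
    rw [f11, f12, h]
  · refine L.step (j + 2) b₂ (f β₁) ?_
    rw [f21, f22, h, R.face]

theorem SqRel.c_β₂ (R : SqRel Y X f g j b₁ b₂) (L : Lab Y V) {β₂ : B'}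
    (h : Y.e j (f β₂) = Y.e (j + 2) b₂) :
    L.c (j + 1) (f β₂) = L.c (j + 1) b₂ ∧ L.c (j + 2) (f β₂) = L.c (j + 2) b₁ := by
  constructor
  · refine (L.step (j + 1) (f β₂) b₂ ?_).symm
    rw [f11, f12, h]
  · refine L.step (j + 2) b₁ (f β₂) ?_
    rw [f21, f22, h, R.face']

/-- steps around faces of class `j + 1` (in shifted form) -/
theorem Lab.step1 (L : Lab Y V) (j : Fin 3) {b b' : B} (h : Y.e (j + 2) b' = Y.e j b) :
    L.c (j + 1) b' = L.c (j + 1) b := by
  refine L.step (j + 1) b b' ?_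
  rw [f11, f12, h]

theorem Lab.step2 (L : Lab Y V) (j : Fin 3) {b b' : B} (h : Y.e j b' = Y.e (j + 1) b) :
    L.c (j + 2) b' = L.c (j + 2) b := by
  refine L.step (j + 2) b b' ?_
  rw [f21, f22, h]

section
variable (R : SqRel Y X f g j b₁ b₂)
include R

theorem SqRel.X_of_j {a a' : B'} (h : Y.e (j + 1) (f a') = Y.e (j + 2) (f a)) :
    X.e (j + 1) a' = X.e (j + 2) a := by
  rw [R.other _ (fne1 j), R.other _ (fne2 j)] at h
  exact R.gi h

theorem SqRel.Y_of_j {a a' : B'} (h : X.e (j + 1) a' = X.e (j + 2) a) :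
    Y.e (j + 1) (f a') = Y.e (j + 2) (f a) := by
  rw [R.other _ (fne1 j), R.other _ (fne2 j), h]

theorem SqRel.same' {a : B'} {w : W'} (h : Y.e j (f a) = g w) : X.e j a = w := by
  have h1 := R.same a (by rw [h]; exact R.g_ne₁ w) (by rw [h]; exact R.g_ne₂ w)
  exact R.gi (h1.symm.trans h)

end

theorem SqRel.eqv_β [Finite B] (R : SqRel Y X f g j b₁ b₂) (L : Lab Y V)
    (hp : L.c (j + 1) b₁ ≠ L.c (j + 1) b₂) {β₁ β₂ : B'}
    (h₁ : Y.e j (f β₁) = Y.e (j + 2) b₁) (h₂ : Y.e j (f β₂) = Y.e (j + 2) b₂) :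
    Relation.EqvGen (fun x y => X.e (j + 1 + 1) y = X.e (j + 1 + 2) x) β₁ β₂ := by
  have : Finite B' := Finite.of_injective f R.fi
  by_contra hne
  set ρ : Equiv.Perm B' := X.rho (j + 1) with hρ
  have hstep : ∀ x, X.e (j + 2) (ρ x) = X.e j x := by
    intro x
    simp only [hρ, Web.rho, f11, f12, Equiv.trans_apply, Equiv.apply_symm_apply]
  have hrel : ∀ x, Relation.EqvGen (fun x y => X.e (j + 1 + 1) y = X.e (j + 1 + 2) x) x (ρ x) := by
    intro x
    refine Relation.EqvGen.rel _ _ ?_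
    rw [f11, f12, hstep]
  have key : ∀ k : ℕ, L.c (j + 1) (f ((ρ ^ (k + 1)) β₁)) = L.c (j + 1) b₂ ∧
      Relation.EqvGen (fun x y => X.e (j + 1 + 1) y = X.e (j + 1 + 2) x) β₁ ((ρ ^ (k + 1)) β₁) := by
    intro k
    induction k with
    | zero =>
      refine ⟨?_, by simpa using hrel β₁⟩
      refine L.step1 j ?_
      rw [R.other _ (fne2 j), zero_add, pow_one, hstep, R.out1 _ h₁]
    | succ k ih =>
      obtain ⟨ih1, ih2⟩ := ih
      set x := (ρ ^ (k + 1)) β₁ with hx
      have hx' : (ρ ^ (k + 1 + 1)) β₁ = ρ x := by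
        rw [pow_succ', Equiv.Perm.mul_apply]
      rw [hx']
      refine ⟨?_, ih2.trans _ _ _ (hrel x)⟩
      rw [← ih1]
      refine L.step1 j ?_
      rw [R.other _ (fne2 j), hstep]
      refine (R.same x ?_ ?_).symm
      · intro hc
        have : f x = f β₁ := (Y.e j).injective (hc.trans h₁.symm)
        rw [this, (R.c_β₁ L h₁).1] at ih1
        exact hp ih1
      · intro hc
        have : f x = f β₂ := (Y.e j).injective (hc.trans h₂.symm)
        have := R.fi this
        rw [this] at ih2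
        exact hne ih2
  have hpos : 0 < orderOf ρ := orderOf_pos ρ
  obtain ⟨k, hk⟩ : ∃ k, orderOf ρ = k + 1 := ⟨orderOf ρ - 1, by omega⟩
  have h1 := (key k).1
  rw [← hk, pow_orderOf_eq_one, Equiv.Perm.one_apply, (R.c_β₁ L h₁).1] at h1
  exact hp h1

/-- equivalences along faces descend to the smaller web -/
theorem SqRel.collapse [Finite B] (R : SqRel Y X f g j b₁ b₂) (L : Lab Y V)
    (hp : L.c (j + 1) b₁ ≠ L.c (j + 1) b₂) {β₁ β₂ : B'}
    (h₁ : Y.e j (f β₁) = Y.e (j + 2) b₁) (h₂ : Y.e j (f β₂) = Y.e (j + 2) b₂) (k : Fin 3) :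
    ∃ φ : B → B', (∀ a, φ (f a) = a) ∧ (k = j + 1 → φ b₁ = β₁ ∧ φ b₂ = β₂) ∧
      ∀ x y, Relation.EqvGen (fun x y => Y.e (k + 1) y = Y.e (k + 2) x) x y →
        Relation.EqvGen (fun x y => X.e (k + 1) y = X.e (k + 2) x) (φ x) (φ y) := by
  classical
  -- a map with prescribed values at b₁, b₂
  have hφ : ∀ γ₁ γ₂ : B', ∃ φ : B → B', (∀ a, φ (f a) = a) ∧ φ b₁ = γ₁ ∧ φ b₂ = γ₂ := by
    intro γ₁ γ₂
    refine ⟨fun b => if b = b₁ then γ₁ else if b = b₂ then γ₂ else
      if h : ∃ a, f a = b then h.choose else γ₁, ?_, ?_, ?_⟩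
    · intro a
      have hex : ∃ a', f a' = f a := ⟨a, rfl⟩
      simp only [R.f_ne₁ a, R.f_ne₂ a, if_false]
      rw [dif_pos hex]
      exact R.fi hex.choose_spec
    · simp
    · simp [R.ne.symm]
  have lift : ∀ φ : B → B', (∀ x y, Y.e (k + 1) y = Y.e (k + 2) x →
      Relation.EqvGen (fun x y => X.e (k + 1) y = X.e (k + 2) x) (φ x) (φ y)) →
      ∀ x y, Relation.EqvGen (fun x y => Y.e (k + 1) y = Y.e (k + 2) x) x y →
        Relation.EqvGen (fun x y => X.e (k + 1) y = X.e (k + 2) x) (φ x) (φ y) := by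
    intro φ hφ x y hxy
    induction hxy with
    | rel x y h => exact hφ x y h
    | refl x => exact Relation.EqvGen.refl _
    | symm x y _ ih => exact ih.symm
    | trans x y z _ _ ih1 ih2 => exact ih1.trans _ _ _ ih2
  rcases fcase k j with rfl | rfl | rfl
  · -- class j
    obtain ⟨φ, hf, hb1, hb2⟩ := hφ β₁ β₁
    refine ⟨φ, hf, fun h => absurd h (fne1' _), lift φ ?_⟩
    intro x y hxy
    rcases R.cases x with rfl | rfl | ⟨a, rfl⟩
    · have : y = b₂ := by
        rw [← R.face] at hxy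
        exact (Y.e _).injective hxy
      rw [this, hb1, hb2]
      exact Relation.EqvGen.refl _
    · have : y = b₁ := by
        rw [← R.face'] at hxy
        exact (Y.e _).injective hxy
      rw [this, hb1, hb2]
      exact Relation.EqvGen.refl _
    · rcases R.cases y with rfl | rfl | ⟨a', rfl⟩
      · rw [R.face'] at hxy
        exact absurd ((Y.e _).injective hxy).symm (R.f_ne₂ a)
      · rw [R.face] at hxy
        exact absurd ((Y.e _).injective hxy).symm (R.f_ne₁ a)
      · rw [hf, hf]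
        exact Relation.EqvGen.rel _ _ (R.X_of_j hxy)
  · -- class j + 1
    have hβ := R.eqv_β L hp h₁ h₂
    obtain ⟨φ, hf, hb1, hb2⟩ := hφ β₁ β₂
    refine ⟨φ, hf, fun _ => ⟨hb1, hb2⟩, lift φ ?_⟩
    intro x y hxy
    have hxy' : Y.e (j + 2) y = Y.e j x := by rw [f11, f12] at hxy; exact hxy
    rcases R.cases x with rfl | rfl | ⟨a, rfl⟩
    · rcases R.cases y with rfl | rfl | ⟨a', rfl⟩
      · exact absurd hxy'.symm R.n11
      · exact absurd hxy'.symm R.n12
      · rw [hb1, hf]
        refine hβ.trans _ _ _ (Relation.EqvGen.rel _ _ ?_)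
        rw [f11, f12]
        refine R.gi ?_
        rw [← R.other _ (fne2 j), hxy', R.out2 _ h₂]
    · rcases R.cases y with rfl | rfl | ⟨a', rfl⟩
      · exact absurd hxy'.symm R.n21
      · exact absurd hxy'.symm R.n22
      · rw [hb2, hf]
        refine hβ.symm.trans _ _ _ (Relation.EqvGen.rel _ _ ?_)
        rw [f11, f12]
        refine R.gi ?_
        rw [← R.other _ (fne2 j), hxy', R.out1 _ h₁]
    · rcases R.cases y with rfl | rfl | ⟨a', rfl⟩
      · have : f a = f β₁ := (Y.e j).injective (hxy'.symm.trans h₁.symm)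
        rw [R.fi this, hf, hb1]
        exact Relation.EqvGen.refl _
      · have : f a = f β₂ := (Y.e j).injective (hxy'.symm.trans h₂.symm)
        rw [R.fi this, hf, hb2]
        exact Relation.EqvGen.refl _
      · rw [hf, hf]
        refine Relation.EqvGen.rel _ _ ?_
        rw [f11, f12]
        refine (R.same' ?_).symm
        rw [← R.other _ (fne2 j), hxy']
  · -- class j + 2
    obtain ⟨φ, hf, hb1, hb2⟩ := hφ β₂ β₁
    refine ⟨φ, hf, fun h => absurd h (fne21 _), lift φ ?_⟩
    intro x y hxy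
    have hxy' : Y.e j y = Y.e (j + 1) x := by rw [f21, f22] at hxy; exact hxy
    rcases R.cases x with rfl | rfl | ⟨a, rfl⟩
    · have : y = f β₂ := by
        refine (Y.e j).injective ?_
        rw [hxy', h₂, R.face']
      rw [this, hf, hb1]
      exact Relation.EqvGen.refl _
    · have : y = f β₁ := by
        refine (Y.e j).injective ?_
        rw [hxy', h₁, R.face]
      rw [this, hf, hb2]
      exact Relation.EqvGen.refl _
    · rcases R.cases y with rfl | rfl | ⟨a', rfl⟩
      · rw [hf, hb1]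
        refine Relation.EqvGen.rel _ _ ?_
        rw [f21, f22]
        refine R.gi ?_
        rw [R.out2 _ h₂, hxy', R.other _ (fne1 j)]
      · rw [hf, hb2]
        refine Relation.EqvGen.rel _ _ ?_
        rw [f21, f22]
        refine R.gi ?_
        rw [R.out1 _ h₁, hxy', R.other _ (fne1 j)]
      · rw [hf, hf]
        refine Relation.EqvGen.rel _ _ ?_
        rw [f21, f22]
        refine R.same' ?_
        rw [hxy', R.other _ (fne1 j)]

theorem SqRel.exists_lab [Finite B] [DecidableEq V] (R : SqRel Y X f g j b₁ b₂) (L : Lab Y V)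
    (hp : L.c (j + 1) b₁ ≠ L.c (j + 1) b₂) :
    ∃ L' : Lab X (L.V1 j b₁ b₂), ∀ k b, ((L'.c k b : L.V1 j b₁ b₂) : V) =
      if L.c k (f b) = L.c (j + 1) b₂ then L.c (j + 1) b₁ else L.c k (f b) := by
  obtain ⟨β₁, β₂, hβ, h₁, h₂⟩ := R.betas
  have hps : L.c (j + 1) b₁ ≠ L.c j b₁ := fun h => fne1 j (L.cls _ _ _ _ h)
  -- the values
  have hval : ∀ k b, (if L.c k (f b) = L.c (j + 1) b₂ then L.c (j + 1) b₁ else L.c k (f b)) ≠
      L.c j b₁ ∧
      (if L.c k (f b) = L.c (j + 1) b₂ then L.c (j + 1) b₁ else L.c k (f b)) ≠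
        L.c (j + 1) b₂ := by
    intro k b
    split_ifs with h
    · exact ⟨hps, hp⟩
    · exact ⟨R.c_ne_s L k b, h⟩
  have hcls : ∀ k b, ∃ b', (if L.c k (f b) = L.c (j + 1) b₂ then L.c (j + 1) b₁
      else L.c k (f b)) = L.c k b' := by
    intro k b
    split_ifs with h
    · have := L.cls _ _ _ _ h
      subst this
      exact ⟨b₁, rfl⟩
    · exact ⟨f b, rfl⟩
  refine ⟨⟨fun k b => ⟨if L.c k (f b) = L.c (j + 1) b₂ then L.c (j + 1) b₁ else L.c k (f b),
    hval k b⟩, ?_, ?_, ?_, ?_⟩, fun k b => rfl⟩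
  · -- step
    intro k b b' h
    apply Subtype.ext
    show (if L.c k (f b') = L.c (j + 1) b₂ then L.c (j + 1) b₁ else L.c k (f b')) =
      (if L.c k (f b) = L.c (j + 1) b₂ then L.c (j + 1) b₁ else L.c k (f b))
    rcases fcase k j with rfl | rfl | rfl
    · rw [L.step k (f b) (f b') (R.Y_of_j h)]
    · have h' : X.e (j + 2) b' = X.e j b := by rw [f11, f12] at h; exact h
      by_cases c1 : Y.e j (f b) = Y.e (j + 2) b₁
      · have e1 : L.c (j + 1) (f b') = L.c (j + 1) b₂ := by
          refine L.step1 j ?_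
          rw [R.other _ (fne2 j), h', R.out1 _ c1]
        rw [e1, (R.c_β₁ L c1).1, if_pos rfl, if_neg hp]
      · by_cases c2 : Y.e j (f b) = Y.e (j + 2) b₂
        · have e1 : L.c (j + 1) (f b') = L.c (j + 1) b₁ := by
            refine L.step1 j ?_
            rw [R.other _ (fne2 j), h', R.out2 _ c2]
          rw [e1, (R.c_β₂ L c2).1, if_pos rfl, if_neg hp]
        · have e1 : L.c (j + 1) (f b') = L.c (j + 1) (f b) := by
            refine L.step1 j ?_
            rw [R.other _ (fne2 j), h', R.same _ c1 c2]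
          rw [e1]
    · have h' : X.e j b' = X.e (j + 1) b := by rw [f21, f22] at h; exact h
      have e1 : L.c (j + 2) (f b') = L.c (j + 2) (f b) := by
        by_cases c1 : Y.e j (f b') = Y.e (j + 2) b₁
        · rw [(R.c_β₁ L c1).2]
          refine L.step2 j ?_
          rw [R.other _ (fne1 j), ← h', R.out1 _ c1]
        · by_cases c2 : Y.e j (f b') = Y.e (j + 2) b₂
          · rw [(R.c_β₂ L c2).2]
            refine L.step2 j ?_
            rw [R.other _ (fne1 j), ← h', R.out2 _ c2]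
          · refine L.step2 j ?_
            rw [R.other _ (fne1 j), ← h', R.same _ c1 c2]
      rw [e1]
  · -- exact
    intro k b b' h
    have h := congrArg Subtype.val h
    change (if L.c k (f b) = L.c (j + 1) b₂ then L.c (j + 1) b₁ else L.c k (f b)) =
      (if L.c k (f b') = L.c (j + 1) b₂ then L.c (j + 1) b₁ else L.c k (f b')) at h
    obtain ⟨φ, hf, hb, hφ⟩ := R.collapse L hp h₁ h₂ k
    by_cases c1 : L.c k (f b) = L.c (j + 1) b₂
    · have hk := L.cls _ _ _ _ c1
      subst hk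
      obtain ⟨hb1, hb2⟩ := hb rfl
      by_cases c2 : L.c (j + 1) (f b') = L.c (j + 1) b₂
      · have := hφ _ _ (L.exact _ _ _ (c1.trans c2.symm))
        rwa [hf, hf] at this
      · rw [if_pos c1, if_neg c2] at h
        have e1 := hφ _ _ (L.exact _ _ _ c1)
        have e2 := hφ _ _ (L.exact _ _ _ h)
        rw [hf, hb2] at e1
        rw [hf, hb1] at e2
        exact (e1.trans _ _ _ (R.eqv_β L hp h₁ h₂).symm).trans _ _ _ e2
    · by_cases c2 : L.c k (f b') = L.c (j + 1) b₂
      · have hk := L.cls _ _ _ _ c2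
        subst hk
        obtain ⟨hb1, hb2⟩ := hb rfl
        rw [if_neg c1, if_pos c2] at h
        have e1 := hφ _ _ (L.exact _ _ _ c2)
        have e2 := hφ _ _ (L.exact _ _ _ h)
        rw [hf, hb2] at e1
        rw [hf, hb1] at e2
        exact (e2.trans _ _ _ (R.eqv_β L hp h₁ h₂)).trans _ _ _ e1.symm
      · rw [if_neg c1, if_neg c2] at h
        have := hφ _ _ (L.exact _ _ _ h)
        rwa [hf, hf] at this
  · -- cls
    intro k k' b b' h
    have h := congrArg Subtype.val h
    change (if L.c k (f b) = L.c (j + 1) b₂ then L.c (j + 1) b₁ else L.c k (f b)) =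
      (if L.c k' (f b') = L.c (j + 1) b₂ then L.c (j + 1) b₁ else L.c k' (f b')) at h
    obtain ⟨x, hx⟩ := hcls k b
    obtain ⟨x', hx'⟩ := hcls k' b'
    rw [hx, hx'] at h
    exact L.cls _ _ _ _ h
  · -- surj
    rintro ⟨v, hv1, hv2⟩
    have fin : ∀ k a, L.c k (f a) = v → ∃ j' b, (⟨if L.c j' (f b) = L.c (j + 1) b₂ then
        L.c (j + 1) b₁ else L.c j' (f b), hval j' b⟩ : L.V1 j b₁ b₂) = ⟨v, hv1, hv2⟩ := by
      intro k a ha
      refine ⟨k, a, Subtype.ext ?_⟩
      show (if L.c k (f a) = L.c (j + 1) b₂ then L.c (j + 1) b₁ else L.c k (f a)) = v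
      rw [ha, if_neg hv2]
    obtain ⟨k, b, hb⟩ := L.surj v
    rcases R.cases b with rfl | rfl | ⟨a, rfl⟩
    · rcases fcase k j with rfl | rfl | rfl
      · exact absurd hb.symm hv1
      · exact fin (j + 1) β₁ (by rw [(R.c_β₁ L h₁).1, hb])
      · exact fin (j + 2) β₂ (by rw [(R.c_β₂ L h₂).2, hb])
    · rcases fcase k j with rfl | rfl | rfl
      · exact absurd (hb.symm.trans (R.c_s L)) hv1
      · exact absurd hb.symm hv2
      · exact fin (j + 2) β₁ (by rw [(R.c_β₁ L h₁).2, hb])
    · exact fin k a hb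

theorem SqRel.card_B [Fintype B] [Fintype B'] (R : SqRel Y X f g j b₁ b₂) :
    Fintype.card B = Fintype.card B' + 2 := by
  classical
  have h1 : (Finset.univ.image f) = Finset.univ \ {b₁, b₂} := by
    ext b
    simp only [Finset.mem_image, Finset.mem_univ, true_and, Finset.mem_sdiff, Finset.mem_insert,
      Finset.mem_singleton, not_or]
    exact R.fr b
  have h2 := congrArg Finset.card h1
  rw [Finset.card_image_of_injective _ R.fi, Finset.card_sdiff_of_subset (Finset.subset_univ _),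
    Finset.card_pair R.ne, Finset.card_univ, Finset.card_univ] at h2
  have h3 : 2 ≤ Fintype.card B := by
    rw [← Finset.card_pair R.ne]
    exact Finset.card_le_univ _
  omega

theorem SqRel.card_V [Fintype V] [DecidableEq V] (R : SqRel Y X f g j b₁ b₂) (L : Lab Y V)
    (hp : L.c (j + 1) b₁ ≠ L.c (j + 1) b₂) :
    Fintype.card V = Fintype.card (L.V1 j b₁ b₂) + 2 := by
  have hne : L.c j b₁ ≠ L.c (j + 1) b₂ := fun h => fne1' j (L.cls _ _ _ _ h)
  have h1 : (Finset.univ.filter fun v => v ≠ L.c j b₁ ∧ v ≠ L.c (j + 1) b₂) =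
      Finset.univ \ {L.c j b₁, L.c (j + 1) b₂} := by
    ext v
    simp
  have h2 := congrArg Finset.card h1
  rw [Finset.card_sdiff_of_subset (Finset.subset_univ _),
    Finset.card_pair hne, Finset.card_univ] at h2
  have h3 : 2 ≤ Fintype.card V := by
    rw [← Finset.card_pair hne]
    exact Finset.card_le_univ _
  rw [Fintype.card_subtype]
  omega

end Vale.Agent.P039.Sk
end

section

/-! The two partial sums of the square rule. -/

namespace Vale.Agent.P039.Sk

variable {B W V B' W' : Type}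

open Relation

theorem conn_transfer {A A' : Type} {r : A → A → Prop} {r' : A' → A' → Prop} (ι : A' → A)
    (ψ : A → A') (h1 : ∀ x y, r x y → EqvGen r' (ψ x) (ψ y))
    (h2 : ∀ x y, r' x y → EqvGen r (ι x) (ι y)) (h3 : ∀ x, EqvGen r x (ι (ψ x)))
    (h4 : ∀ x, ψ (ι x) = x) : (∀ x y, EqvGen r x y) ↔ (∀ x y, EqvGen r' x y) := by
  have l1 : ∀ x y, EqvGen r x y → EqvGen r' (ψ x) (ψ y) := by
    intro x y h
    induction h with
    | rel x y h => exact h1 x y h
    | refl x => exact EqvGen.refl _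
    | symm x y _ ih => exact ih.symm
    | trans x y z _ _ ih1 ih2 => exact ih1.trans _ _ _ ih2
  have l2 : ∀ x y, EqvGen r' x y → EqvGen r (ι x) (ι y) := by
    intro x y h
    induction h with
    | rel x y h => exact h2 x y h
    | refl x => exact EqvGen.refl _
    | symm x y _ ih => exact ih.symm
    | trans x y z _ _ ih1 ih2 => exact ih1.trans _ _ _ ih2
  constructor
  · intro h x y
    have := l1 _ _ (h (ι x) (ι y))
    rwa [h4, h4] at this
  · intro h x y
    exact ((h3 x).trans _ _ _ (l2 _ _ (h _ _))).trans _ _ _ (h3 y).symm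

variable {Y : Web B W} {X : Web B' W'} {f : B' → B} {g : W' → W} {j : Fin 3} {b₁ b₂ : B}

theorem Lab.he0 (L : Lab Y V) (j : Fin 3) {h : V → ZMod 12} {b : B}
    (e : h (L.c (j + 2) b) = h (L.c (j + 1) b) + 1) : L.HE h (Sum.inl b) (Sum.inr (Y.e j b)) :=
  ⟨j, b, e, rfl, rfl⟩

theorem Lab.he1 (L : Lab Y V) (j : Fin 3) {h : V → ZMod 12} {b : B}
    (e : h (L.c j b) = h (L.c (j + 2) b) + 1) :
    L.HE h (Sum.inl b) (Sum.inr (Y.e (j + 1) b)) :=
  ⟨j + 1, b, by rw [f12, f11]; exact e, rfl, rfl⟩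

theorem Lab.he2 (L : Lab Y V) (j : Fin 3) {h : V → ZMod 12} {b : B}
    (e : h (L.c (j + 1) b) = h (L.c j b) + 1) :
    L.HE h (Sum.inl b) (Sum.inr (Y.e (j + 2) b)) :=
  ⟨j + 2, b, by rw [f22, f21]; exact e, rfl, rfl⟩

theorem Lab.he_elim (L : Lab Y V) (j : Fin 3) {h : V → ZMod 12} {x y : B ⊕ W} (e : L.HE h x y) :
    ∃ b, x = Sum.inl b ∧
      ((y = Sum.inr (Y.e j b) ∧ h (L.c (j + 2) b) = h (L.c (j + 1) b) + 1) ∨
       (y = Sum.inr (Y.e (j + 1) b) ∧ h (L.c j b) = h (L.c (j + 2) b) + 1) ∨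
       (y = Sum.inr (Y.e (j + 2) b) ∧ h (L.c (j + 1) b) = h (L.c j b) + 1)) := by
  obtain ⟨i, b, e, rfl, rfl⟩ := e
  refine ⟨b, rfl, ?_⟩
  rcases fcase i j with rfl | rfl | rfl
  · exact Or.inl ⟨rfl, e⟩
  · rw [f12, f11] at e
    exact Or.inr (Or.inl ⟨rfl, e⟩)
  · rw [f22, f21] at e
    exact Or.inr (Or.inr ⟨rfl, e⟩)

theorem Lab.valid_iff (L : Lab Y V) (j : Fin 3) {h : V → ZMod 12} : L.Valid h ↔ ∀ b,
      (h (L.c (j + 2) b) = h (L.c (j + 1) b) + 1 ∨ h (L.c (j + 2) b) = h (L.c (j + 1) b) - 2) ∧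
      (h (L.c j b) = h (L.c (j + 2) b) + 1 ∨ h (L.c j b) = h (L.c (j + 2) b) - 2) ∧
      (h (L.c (j + 1) b) = h (L.c j b) + 1 ∨ h (L.c (j + 1) b) = h (L.c j b) - 2) := by
  constructor
  · intro hv b
    refine ⟨hv j b, ?_, ?_⟩
    · have := hv (j + 1) b
      rwa [f12, f11] at this
    · have := hv (j + 2) b
      rwa [f22, f21] at this
  · intro hv i b
    rcases fcase i j with rfl | rfl | rfl
    · exact (hv b).1
    · rw [f12, f11]; exact (hv b).2.1
    · rw [f22, f21]; exact (hv b).2.2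

/-- a map back from the larger web, with prescribed values at the 4-face -/
theorem SqRel.exists_psi (R : SqRel Y X f g j b₁ b₂) (z₁ z₂ z₃ z₄ : B' ⊕ W') :
    ∃ ψ : B ⊕ W → B' ⊕ W', (∀ a, ψ (Sum.inl (f a)) = Sum.inl a) ∧
      (∀ w, ψ (Sum.inr (g w)) = Sum.inr w) ∧ ψ (Sum.inl b₁) = z₁ ∧ ψ (Sum.inl b₂) = z₂ ∧
      ψ (Sum.inr (Y.e (j + 2) b₁)) = z₃ ∧ ψ (Sum.inr (Y.e (j + 2) b₂)) = z₄ := by
  classical
  have hww : Y.e (j + 2) b₂ ≠ Y.e (j + 2) b₁ := fun h => R.ne ((Y.e _).injective h).symm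
  refine ⟨Sum.elim
    (fun b => if b = b₁ then z₁ else if b = b₂ then z₂ else
      if h : ∃ a, f a = b then Sum.inl h.choose else z₁)
    (fun w => if w = Y.e (j + 2) b₁ then z₃ else if w = Y.e (j + 2) b₂ then z₄ else
      if h : ∃ a, g a = w then Sum.inr h.choose else z₁), ?_, ?_, ?_, ?_, ?_, ?_⟩
  · intro a
    have hex : ∃ a', f a' = f a := ⟨a, rfl⟩
    simp only [Sum.elim_inl, R.f_ne₁ a, R.f_ne₂ a, if_false]
    rw [dif_pos hex]
    exact congrArg Sum.inl (R.fi hex.choose_spec)
  · intro a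
    have hex : ∃ a', g a' = g a := ⟨a, rfl⟩
    simp only [Sum.elim_inr, R.g_ne₁ a, R.g_ne₂ a, if_false]
    rw [dif_pos hex]
    exact congrArg Sum.inr (R.gi hex.choose_spec)
  · simp
  · simp [R.ne.symm]
  · simp
  · simp [hww]

/-- every white vertex is `w₁`, `w₂` or in the range of `g` -/
theorem SqRel.casesW (R : SqRel Y X f g j b₁ b₂) (w : W) :
    w = Y.e (j + 2) b₁ ∨ w = Y.e (j + 2) b₂ ∨ ∃ a, w = g a := by
  by_cases h1 : w = Y.e (j + 2) b₁
  · exact Or.inl h1
  · by_cases h2 : w = Y.e (j + 2) b₂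
    · exact Or.inr (Or.inl h2)
    · obtain ⟨a, ha⟩ := (R.gr w).2 ⟨h1, h2⟩
      exact Or.inr (Or.inr ⟨a, ha.symm⟩)

section main

variable {V' : Type} {v : V' → V}

/-- the skeleton of the connectivity argument -/
theorem conn_iff (R : SqRel Y X f g j b₁ b₂) (L : Lab Y V) (L' : Lab X V')
    {β₁ β₂ : B'} (h₁ : Y.e j (f β₁) = Y.e (j + 2) b₁) (h₂ : Y.e j (f β₂) = Y.e (j + 2) b₂)
    {h : V → ZMod 12} {h' : V' → ZMod 12} (hh : ∀ k a, h' (L'.c k a) = h (L.c k (f a)))
    (z₁ z₂ z₃ z₄ : B' ⊕ W')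
    (e1 : h (L.c (j + 2) b₁) = h (L.c (j + 1) b₁) + 1 →
      EqvGen (L'.HE h') z₁ (Sum.inr (X.e j β₂)))
    (e2 : h (L.c j b₁) = h (L.c (j + 2) b₁) + 1 → EqvGen (L'.HE h') z₁ z₄)
    (e3 : h (L.c (j + 1) b₁) = h (L.c j b₁) + 1 → EqvGen (L'.HE h') z₁ z₃)
    (e4 : h (L.c (j + 2) b₂) = h (L.c (j + 1) b₂) + 1 →
      EqvGen (L'.HE h') z₂ (Sum.inr (X.e j β₁)))
    (e5 : h (L.c j b₂) = h (L.c (j + 2) b₂) + 1 → EqvGen (L'.HE h') z₂ z₃)
    (e6 : h (L.c (j + 1) b₂) = h (L.c j b₂) + 1 → EqvGen (L'.HE h') z₂ z₄)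
    (e7 : h (L.c (j + 2) (f β₁)) = h (L.c (j + 1) (f β₁)) + 1 →
      EqvGen (L'.HE h') (Sum.inl β₁) z₃)
    (e8 : h (L.c (j + 2) (f β₂)) = h (L.c (j + 1) (f β₂)) + 1 →
      EqvGen (L'.HE h') (Sum.inl β₂) z₄)
    (l1 : h (L.c (j + 2) (f β₁)) = h (L.c (j + 1) (f β₁)) + 1 →
      EqvGen (L.HE h) (Sum.inl (f β₁)) (Sum.inr (Y.e j b₂)))
    (l2 : h (L.c (j + 2) (f β₂)) = h (L.c (j + 1) (f β₂)) + 1 →
      EqvGen (L.HE h) (Sum.inl (f β₂)) (Sum.inr (Y.e j b₁)))
    (r1 : EqvGen (L.HE h) (Sum.inl b₁) (Sum.map f g z₁))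
    (r2 : EqvGen (L.HE h) (Sum.inl b₂) (Sum.map f g z₂))
    (r3 : EqvGen (L.HE h) (Sum.inr (Y.e (j + 2) b₁)) (Sum.map f g z₃))
    (r4 : EqvGen (L.HE h) (Sum.inr (Y.e (j + 2) b₂)) (Sum.map f g z₄)) :
    L.Conn h ↔ L'.Conn h' := by
  obtain ⟨ψ, pf, pg, p1, p2, p3, p4⟩ := R.exists_psi z₁ z₂ z₃ z₄
  refine conn_transfer (Sum.map f g) ψ ?_ ?_ ?_ ?_
  · -- edges of Y
    intro x y hxy
    obtain ⟨b, rfl, hb⟩ := L.he_elim j hxy
    rcases R.cases b with rfl | rfl | ⟨a, rfl⟩
    · rcases hb with ⟨rfl, hb⟩ | ⟨rfl, hb⟩ | ⟨rfl, hb⟩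
      · rw [p1, ← R.out2 _ h₂, pg]; exact e1 hb
      · rw [p1, R.face', p4]; exact e2 hb
      · rw [p1, p3]; exact e3 hb
    · rcases hb with ⟨rfl, hb⟩ | ⟨rfl, hb⟩ | ⟨rfl, hb⟩
      · rw [p2, ← R.out1 _ h₁, pg]; exact e4 hb
      · rw [p2, R.face, p3]; exact e5 hb
      · rw [p2, p4]; exact e6 hb
    · rw [pf]
      rcases hb with ⟨rfl, hb⟩ | ⟨rfl, hb⟩ | ⟨rfl, hb⟩
      · by_cases c1 : Y.e j (f a) = Y.e (j + 2) b₁
        · have ha : a = β₁ := R.fi ((Y.e j).injective (c1.trans h₁.symm))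
          subst ha
          rw [c1, p3]; exact e7 hb
        · by_cases c2 : Y.e j (f a) = Y.e (j + 2) b₂
          · have ha : a = β₂ := R.fi ((Y.e j).injective (c2.trans h₂.symm))
            subst ha
            rw [c2, p4]; exact e8 hb
          · rw [R.same _ c1 c2, pg]
            exact EqvGen.rel _ _ (L'.he0 j (by rw [hh, hh]; exact hb))
      · rw [R.other _ (fne1 j), pg]
        exact EqvGen.rel _ _ (L'.he1 j (by rw [hh, hh]; exact hb))
      · rw [R.other _ (fne2 j), pg]
        exact EqvGen.rel _ _ (L'.he2 j (by rw [hh, hh]; exact hb))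
  · -- edges of X
    intro x y hxy
    obtain ⟨a, rfl, hb⟩ := L'.he_elim j hxy
    rw [Sum.map_inl]
    rcases hb with ⟨rfl, hb⟩ | ⟨rfl, hb⟩ | ⟨rfl, hb⟩
    · rw [hh, hh] at hb
      rw [Sum.map_inr]
      by_cases c1 : Y.e j (f a) = Y.e (j + 2) b₁
      · have ha : a = β₁ := R.fi ((Y.e j).injective (c1.trans h₁.symm))
        subst ha
        rw [R.out1 _ c1]; exact l1 hb
      · by_cases c2 : Y.e j (f a) = Y.e (j + 2) b₂
        · have ha : a = β₂ := R.fi ((Y.e j).injective (c2.trans h₂.symm))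
          subst ha
          rw [R.out2 _ c2]; exact l2 hb
        · rw [← R.same _ c1 c2]
          exact EqvGen.rel _ _ (L.he0 j hb)
    · rw [hh, hh] at hb
      rw [Sum.map_inr, ← R.other _ (fne1 j)]
      exact EqvGen.rel _ _ (L.he1 j hb)
    · rw [hh, hh] at hb
      rw [Sum.map_inr, ← R.other _ (fne2 j)]
      exact EqvGen.rel _ _ (L.he2 j hb)
  · -- all vertices of Y
    rintro (b | w)
    · rcases R.cases b with rfl | rfl | ⟨a, rfl⟩
      · rw [p1]; exact r1
      · rw [p2]; exact r2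
      · rw [pf]; exact EqvGen.refl _
    · rcases R.casesW w with rfl | rfl | ⟨a, rfl⟩
      · rw [p3]; exact r3
      · rw [p4]; exact r4
      · rw [pg]; exact EqvGen.refl _
  · rintro (a | w)
    · rw [Sum.map_inl, pf]
    · rw [Sum.map_inr, pg]

theorem z12_a (t : ZMod 12) : t - 2 ≠ t + 1 := by revert t; decide
theorem z12_b (t : ZMod 12) : t ≠ t + 2 + 1 := by revert t; decide
theorem z12_c (t : ZMod 12) : t - 1 ≠ t + 1 + 1 := by revert t; decide

/-- connectivity for the solutions of type 1 -/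
theorem conn_type1 (R : SqRel Y X f g j b₁ b₂) (L : Lab Y V) (L' : Lab X V')
    {β₁ β₂ : B'} (h₁ : Y.e j (f β₁) = Y.e (j + 2) b₁) (h₂ : Y.e j (f β₂) = Y.e (j + 2) b₂)
    {h : V → ZMod 12} {h' : V' → ZMod 12} (hh : ∀ k a, h' (L'.c k a) = h (L.c k (f a)))
    (ht : L.type1 j b₁ b₂ h)
    (ha : h (L.c (j + 2) b₂) = h (L.c (j + 1) b₁) + 1 ∨
      h (L.c (j + 2) b₂) = h (L.c (j + 1) b₁) - 2)
    (hb : h (L.c (j + 2) b₁) = h (L.c (j + 1) b₁) + 1 ∨
      h (L.c (j + 2) b₁) = h (L.c (j + 1) b₁) - 2)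
    (hn : ¬ (h (L.c (j + 2) b₂) = h (L.c (j + 1) b₁) - 2 ∧
      h (L.c (j + 2) b₁) = h (L.c (j + 1) b₁) - 2)) :
    L.Conn h ↔ L'.Conn h' := by
  obtain ⟨hpp, hsum⟩ := ht
  have hs2 : L.c j b₂ = L.c j b₁ := R.c_s L
  obtain ⟨cβ1, cβ1'⟩ := R.c_β₁ L h₁
  obtain ⟨cβ2, cβ2'⟩ := R.c_β₂ L h₂
  set t := h (L.c (j + 1) b₁) with ht
  -- the edges in X
  have x1 : h (L.c (j + 2) b₂) = t + 1 →
      L'.HE h' (Sum.inl β₁) (Sum.inr (X.e j β₁)) := by
    intro e
    refine L'.he0 j ?_
    rw [hh, hh, cβ1, cβ1', e]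
  have x2 : h (L.c (j + 2) b₁) = t + 1 →
      L'.HE h' (Sum.inl β₂) (Sum.inr (X.e j β₂)) := by
    intro e
    refine L'.he0 j ?_
    rw [hh, hh, cβ2, cβ2', e, ← hpp]
  -- the edges in Y
  have y1 : h (L.c (j + 2) b₂) = t + 1 →
      L.HE h (Sum.inl (f β₁)) (Sum.inr (Y.e (j + 2) b₁)) := by
    intro e
    rw [← h₁]
    refine L.he0 j ?_
    rw [cβ1, cβ1', e]
  have y2 : h (L.c (j + 2) b₁) = t + 1 →
      L.HE h (Sum.inl (f β₂)) (Sum.inr (Y.e (j + 2) b₂)) := by
    intro e
    rw [← h₂]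
    refine L.he0 j ?_
    rw [cβ2, cβ2', e, ← hpp]
  rcases ha with ha | ha <;> rcases hb with hb | hb
  · -- both on the other side
    have hs : h (L.c j b₁) = t + 2 := by
      rw [ha, hb] at hsum
      linear_combination hsum
    have k1 : L.HE h (Sum.inl b₁) (Sum.inr (Y.e j b₁)) := L.he0 j (by rw [hb])
    have k2 : L.HE h (Sum.inl b₁) (Sum.inr (Y.e (j + 1) b₁)) :=
      L.he1 j (by rw [hb, hs]; ring)
    rw [R.face'] at k2
    have k4 : L.HE h (Sum.inl b₂) (Sum.inr (Y.e j b₂)) := L.he0 j (by rw [ha, ← hpp])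
    have k5 : L.HE h (Sum.inl b₂) (Sum.inr (Y.e (j + 1) b₂)) :=
      L.he1 j (by rw [ha, hs2, hs]; ring)
    rw [R.face] at k5
    have c3 : ¬ h (L.c (j + 1) b₁) = h (L.c j b₁) + 1 := by
      rw [hs]; exact z12_b t
    have c6 : ¬ h (L.c (j + 1) b₂) = h (L.c j b₂) + 1 := by
      rw [← hpp, hs2, hs]; exact z12_b t
    refine conn_iff R L L' h₁ h₂ hh (Sum.inl β₂) (Sum.inl β₁) (Sum.inl β₁) (Sum.inl β₂)
      (fun _ => EqvGen.rel _ _ (x2 hb)) (fun _ => EqvGen.refl _) (fun h => absurd h c3)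
      (fun _ => EqvGen.rel _ _ (x1 ha)) (fun _ => EqvGen.refl _) (fun h => absurd h c6)
      (fun _ => EqvGen.refl _) (fun _ => EqvGen.refl _) ?_ ?_ ?_ ?_ ?_ ?_
    · intro _
      exact ((EqvGen.rel _ _ (y1 ha)).trans _ _ _ (EqvGen.rel _ _ k5).symm).trans _ _ _
        (EqvGen.rel _ _ k4)
    · intro _
      exact ((EqvGen.rel _ _ (y2 hb)).trans _ _ _ (EqvGen.rel _ _ k2).symm).trans _ _ _
        (EqvGen.rel _ _ k1)
    · exact (EqvGen.rel _ _ k2).trans _ _ _ (EqvGen.rel _ _ (y2 hb)).symm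
    · exact (EqvGen.rel _ _ k5).trans _ _ _ (EqvGen.rel _ _ (y1 ha)).symm
    · exact (EqvGen.rel _ _ (y1 ha)).symm
    · exact (EqvGen.rel _ _ (y2 hb)).symm
  · -- q with s, β₁ - w₁ - b₁ - w₂ - b₂ - ω₂
    have hs : h (L.c j b₁) = t - 1 := by
      rw [ha, hb] at hsum
      linear_combination hsum
    have k2 : L.HE h (Sum.inl b₁) (Sum.inr (Y.e (j + 1) b₁)) :=
      L.he1 j (by rw [hb, hs]; ring)
    rw [R.face'] at k2
    have k3 : L.HE h (Sum.inl b₁) (Sum.inr (Y.e (j + 2) b₁)) :=
      L.he2 j (by rw [hs, ← ht]; ring)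
    have k4 : L.HE h (Sum.inl b₂) (Sum.inr (Y.e j b₂)) := L.he0 j (by rw [ha, ← hpp])
    have k6 : L.HE h (Sum.inl b₂) (Sum.inr (Y.e (j + 2) b₂)) :=
      L.he2 j (by rw [hs2, hs, ← hpp]; ring)
    have c1 : ¬ h (L.c (j + 2) b₁) = h (L.c (j + 1) b₁) + 1 := by
      rw [hb]; exact z12_a t
    have c5 : ¬ h (L.c j b₂) = h (L.c (j + 2) b₂) + 1 := by
      rw [hs2, hs, ha]; exact z12_c t
    have c8 : ¬ h (L.c (j + 2) (f β₂)) = h (L.c (j + 1) (f β₂)) + 1 := by
      rw [cβ2, cβ2', hb, ← hpp]; exact z12_a t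
    have q1 : EqvGen (L.HE h) (Sum.inl b₁) (Sum.inl (f β₁)) :=
      (EqvGen.rel _ _ k3).trans _ _ _ (EqvGen.rel _ _ (y1 ha)).symm
    have q4 : EqvGen (L.HE h) (Sum.inr (Y.e (j + 2) b₂)) (Sum.inl (f β₁)) :=
      (EqvGen.rel _ _ k2).symm.trans _ _ _ q1
    have q2 : EqvGen (L.HE h) (Sum.inl b₂) (Sum.inl (f β₁)) :=
      (EqvGen.rel _ _ k6).trans _ _ _ q4
    refine conn_iff R L L' h₁ h₂ hh (Sum.inl β₁) (Sum.inl β₁) (Sum.inl β₁) (Sum.inl β₁)
      (fun h => absurd h c1) (fun _ => EqvGen.refl _) (fun _ => EqvGen.refl _)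
      (fun _ => EqvGen.rel _ _ (x1 ha)) (fun h => absurd h c5) (fun _ => EqvGen.refl _)
      (fun _ => EqvGen.refl _) (fun h => absurd h c8) ?_ (fun h => absurd h c8) q1 q2
      (EqvGen.rel _ _ (y1 ha)).symm q4
    intro _
    exact q2.symm.trans _ _ _ (EqvGen.rel _ _ k4)
  · -- q' with s, β₂ - w₂ - b₂ - w₁ - b₁ - ω₁
    have hs : h (L.c j b₁) = t - 1 := by
      rw [ha, hb] at hsum
      linear_combination hsum
    have k1 : L.HE h (Sum.inl b₁) (Sum.inr (Y.e j b₁)) := L.he0 j (by rw [hb])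
    have k3 : L.HE h (Sum.inl b₁) (Sum.inr (Y.e (j + 2) b₁)) :=
      L.he2 j (by rw [hs, ← ht]; ring)
    have k5 : L.HE h (Sum.inl b₂) (Sum.inr (Y.e (j + 1) b₂)) :=
      L.he1 j (by rw [hs2, ha, hs]; ring)
    rw [R.face] at k5
    have k6 : L.HE h (Sum.inl b₂) (Sum.inr (Y.e (j + 2) b₂)) :=
      L.he2 j (by rw [hs2, hs, ← hpp]; ring)
    have c4 : ¬ h (L.c (j + 2) b₂) = h (L.c (j + 1) b₂) + 1 := by
      rw [ha, ← hpp]; exact z12_a t
    have c2 : ¬ h (L.c j b₁) = h (L.c (j + 2) b₁) + 1 := by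
      rw [hs, hb]; exact z12_c t
    have c7 : ¬ h (L.c (j + 2) (f β₁)) = h (L.c (j + 1) (f β₁)) + 1 := by
      rw [cβ1, cβ1', ha]; exact z12_a t
    have q2 : EqvGen (L.HE h) (Sum.inl b₂) (Sum.inl (f β₂)) :=
      (EqvGen.rel _ _ k6).trans _ _ _ (EqvGen.rel _ _ (y2 hb)).symm
    have q3 : EqvGen (L.HE h) (Sum.inr (Y.e (j + 2) b₁)) (Sum.inl (f β₂)) :=
      (EqvGen.rel _ _ k5).symm.trans _ _ _ q2
    have q1 : EqvGen (L.HE h) (Sum.inl b₁) (Sum.inl (f β₂)) :=
      (EqvGen.rel _ _ k3).trans _ _ _ q3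
    refine conn_iff R L L' h₁ h₂ hh (Sum.inl β₂) (Sum.inl β₂) (Sum.inl β₂) (Sum.inl β₂)
      (fun _ => EqvGen.rel _ _ (x2 hb)) (fun h => absurd h c2) (fun _ => EqvGen.refl _)
      (fun h => absurd h c4) (fun _ => EqvGen.refl _) (fun _ => EqvGen.refl _)
      (fun h => absurd h c7) (fun _ => EqvGen.refl _) (fun h => absurd h c7) ?_ q1 q2 q3
      (EqvGen.rel _ _ (y2 hb)).symm
    intro _
    exact q1.symm.trans _ _ _ (EqvGen.rel _ _ k1)
  · exact absurd ⟨ha, hb⟩ hn

end main

section sums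

variable [Fintype B] [Fintype V] [DecidableEq V] [Fintype B']

/-- extension of a function from the smaller labelling; `a` is the value at the 4-face -/
def Lab.ext (L : Lab Y V) (j : Fin 3) (b₁ b₂ : B) (pv : L.V1 j b₁ b₂) (a : ZMod 12)
    (h' : L.V1 j b₁ b₂ → ZMod 12) (v : V) : ZMod 12 :=
  if hv : v ≠ L.c j b₁ ∧ v ≠ L.c (j + 1) b₂ then h' ⟨v, hv⟩
  else if v = L.c j b₁ then a else h' pv

omit [Fintype B] [Fintype V] [Fintype B'] in
theorem Lab.ext_val (L : Lab Y V) (pv : L.V1 j b₁ b₂) (a : ZMod 12)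
    (h' : L.V1 j b₁ b₂ → ZMod 12) (v : L.V1 j b₁ b₂) : L.ext j b₁ b₂ pv a h' v.1 = h' v := by
  unfold Lab.ext
  rw [dif_pos v.2]

omit [Fintype B] [Fintype V] [Fintype B'] in
theorem Lab.ext_s (L : Lab Y V) (pv : L.V1 j b₁ b₂) (a : ZMod 12)
    (h' : L.V1 j b₁ b₂ → ZMod 12) : L.ext j b₁ b₂ pv a h' (L.c j b₁) = a := by
  unfold Lab.ext
  rw [dif_neg (by simp), if_pos rfl]

omit [Fintype B] [Fintype V] [Fintype B'] in
theorem Lab.ext_p' (L : Lab Y V) (pv : L.V1 j b₁ b₂) (a : ZMod 12)
    (h' : L.V1 j b₁ b₂ → ZMod 12) : L.ext j b₁ b₂ pv a h' (L.c (j + 1) b₂) = h' pv := by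
  unfold Lab.ext
  rw [dif_neg (by simp), if_neg (fun h => fne1 j (L.cls _ _ _ _ h))]

omit [Fintype B] [Fintype V] [Fintype B'] in
theorem Lab.ext_res (L : Lab Y V) (pv : L.V1 j b₁ b₂) (h : V → ZMod 12)
    (hpv : h pv.1 = h (L.c (j + 1) b₂)) :
    L.ext j b₁ b₂ pv (h (L.c j b₁)) (fun v => h v.1) = h := by
  funext v
  unfold Lab.ext
  split_ifs with h1 h2
  · rfl
  · rw [h2]
  · have : v = L.c (j + 1) b₂ := by
      by_contra h3
      exact h1 ⟨h2, h3⟩
    rw [this]
    exact hpv

omit [Fintype B] [Fintype B'] in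
theorem sumV (L : Lab Y V) (j : Fin 3) (b₁ b₂ : B) (F : V → ZMod 4) :
    ∑ v, F v = (∑ v : L.V1 j b₁ b₂, F v.1) + (F (L.c j b₁) + F (L.c (j + 1) b₂)) := by
  have hne : L.c j b₁ ≠ L.c (j + 1) b₂ := fun h => fne1' j (L.cls _ _ _ _ h)
  rw [← Finset.sum_filter_add_sum_filter_not Finset.univ
    (fun v => v ≠ L.c j b₁ ∧ v ≠ L.c (j + 1) b₂)]
  congr 1
  · exact (Finset.sum_subtype _ (by simp) _)
  · rw [← Finset.sum_pair hne]
    apply Finset.sum_congr _ (fun _ _ => rfl)
    ext v
    simp only [Finset.mem_filter, Finset.mem_univ, true_and, Finset.mem_insert,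
      Finset.mem_singleton]
    tauto

omit [Fintype V] [DecidableEq V] in
theorem sumB (R : SqRel Y X f g j b₁ b₂) (G : B → ZMod 4) :
    ∑ b, G b = (∑ b, G (f b)) + (G b₁ + G b₂) := by
  classical
  have h1 : (Finset.univ.image f) = Finset.univ \ {b₁, b₂} := by
    ext b
    simp only [Finset.mem_image, Finset.mem_univ, true_and, Finset.mem_sdiff, Finset.mem_insert,
      Finset.mem_singleton, not_or]
    exact R.fr b
  rw [← Finset.sum_sdiff (Finset.subset_univ {b₁, b₂}), ← h1, Finset.sum_pair R.ne,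
    Finset.sum_image (fun x _ y _ h => R.fi h)]

theorem sum3 (j : Fin 3) (F : Fin 3 → ZMod 4) : ∑ k, F k = F j + F (j + 1) + F (j + 2) := by
  rw [Fin.sum_univ_three]
  fin_cases j <;> simp <;> ring

theorem E_diff (R : SqRel Y X f g j b₁ b₂) (L : Lab Y V)
    (hp : L.c (j + 1) b₁ ≠ L.c (j + 1) b₂) (L' : Lab X (L.V1 j b₁ b₂))
    (hL' : ∀ k b, ((L'.c k b : L.V1 j b₁ b₂) : V) =
      if L.c k (f b) = L.c (j + 1) b₂ then L.c (j + 1) b₁ else L.c k (f b))
    (m : V → ZMod 4) (hm : m (L.c j b₁) = 0) (h : V → ZMod 12)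
    (hpp : h (L.c (j + 1) b₁) = h (L.c (j + 1) b₂)) :
    L.E m h = L'.E (L.m1 j b₁ b₂ m) (fun v => h v.1) + (kap (h (L.c j b₁)) +
      kap (h (L.c (j + 1) b₁)) - kap (h (L.c (j + 2) b₁)) - kap (h (L.c (j + 2) b₂))) := by
  have hps : L.c (j + 1) b₁ ≠ L.c j b₁ := fun h => fne1 j (L.cls _ _ _ _ h)
  let pv : L.V1 j b₁ b₂ := ⟨L.c (j + 1) b₁, hps, hp⟩
  have hval : ∀ k a, h ((L'.c k a : L.V1 j b₁ b₂) : V) = h (L.c k (f a)) := by
    intro k a
    rw [hL']
    split_ifs with h1
    · rw [h1, hpp]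
    · rfl
  unfold Lab.E
  rw [sumV L j b₁ b₂, sumB R]
  have e1 : ∑ v : L.V1 j b₁ b₂, (3 + L.m1 j b₁ b₂ m v) * kap (h v.1) =
      (∑ v : L.V1 j b₁ b₂, (3 + m v.1) * kap (h v.1)) +
        m (L.c (j + 1) b₂) * kap (h (L.c (j + 1) b₁)) := by
    have e2 : ∀ v : L.V1 j b₁ b₂, (3 + L.m1 j b₁ b₂ m v) * kap (h v.1) =
        (3 + m v.1) * kap (h v.1) +
          if v = pv then m (L.c (j + 1) b₂) * kap (h (L.c (j + 1) b₁)) else 0 := by
      intro v
      unfold Lab.m1
      by_cases hv : v = pv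
      · subst hv
        simp only [pv, if_true]
        ring
      · have hv' : v.1 ≠ L.c (j + 1) b₁ := fun h => hv (Subtype.ext h)
        rw [if_neg hv', if_neg hv, add_zero]
    rw [Finset.sum_congr rfl (fun v _ => e2 v), Finset.sum_add_distrib, Finset.sum_ite_eq']
    simp
  have e3 : ∑ b, ∑ k, kap (h ((L'.c k b : L.V1 j b₁ b₂) : V)) =
      ∑ b, ∑ k, kap (h (L.c k (f b))) := by
    refine Finset.sum_congr rfl fun b _ => Finset.sum_congr rfl fun k _ => ?_
    rw [hval]
  rw [e1, e3, sum3 j, sum3 j, R.c_s L, hm, ← hpp]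
  generalize kap (h (L.c j b₁)) = s
  generalize kap (h (L.c (j + 1) b₁)) = p
  generalize kap (h (L.c (j + 2) b₁)) = q'
  generalize kap (h (L.c (j + 2) b₂)) = q
  generalize m (L.c (j + 1) b₂) = μ
  ring_nf

end sums

section

variable {V' : Type}

theorem z12_d (t : ZMod 12) : t ≠ t - 4 + 1 := by revert t; decide
theorem z12_e (t : ZMod 12) : t ≠ t - 4 - 2 := by revert t; decide

/-- the solutions of type 1 are the non-mono solutions of the smaller web -/
theorem sol_type1 (R : SqRel Y X f g j b₁ b₂) (L : Lab Y V) (L' : Lab X V')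
    {β₁ β₂ : B'} (h₁ : Y.e j (f β₁) = Y.e (j + 2) b₁) (h₂ : Y.e j (f β₂) = Y.e (j + 2) b₂)
    {h : V → ZMod 12} {h' : V' → ZMod 12} (hh : ∀ k a, h' (L'.c k a) = h (L.c k (f a)))
    (ht : L.type1 j b₁ b₂ h) : L.Sol h ↔ L'.Sol h' ∧ ¬ L'.mono j β₁ β₂ h' := by
  obtain ⟨hpp, hsum⟩ := id ht
  have hs2 : L.c j b₂ = L.c j b₁ := R.c_s L
  obtain ⟨cβ1, cβ1'⟩ := R.c_β₁ L h₁
  obtain ⟨cβ2, cβ2'⟩ := R.c_β₂ L h₂
  have hmono : L'.mono j β₁ β₂ h' ↔ (h (L.c (j + 2) b₂) = h (L.c (j + 1) b₁) - 2 ∧
      h (L.c (j + 2) b₁) = h (L.c (j + 1) b₁) - 2) := by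
    unfold Lab.mono
    rw [hh, hh, hh, hh, cβ1, cβ1', cβ2, cβ2', ← hpp]
  have hvalid : L.Valid h ↔ L'.Valid h' ∧ ¬ L'.mono j β₁ β₂ h' := by
    rw [hmono, L.valid_iff j, L'.valid_iff j]
    constructor
    · intro hv
      refine ⟨fun a => ?_, ?_⟩
      · simp only [hh]
        exact hv (f a)
      · rintro ⟨ha, hb⟩
        have hs : h (L.c j b₁) = h (L.c (j + 1) b₁) - 4 := by
          rw [ha, hb] at hsum
          linear_combination hsum
        have := (hv b₁).2.2
        rw [hs] at this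
        rcases this with h3 | h3
        · exact z12_d _ h3
        · exact z12_e _ h3
    · rintro ⟨hv, hn⟩ b
      have hb1 := (hv β₁).1
      have hb2 := (hv β₂).1
      rw [hh, hh, cβ1, cβ1'] at hb1
      rw [hh, hh, cβ2, cβ2', ← hpp] at hb2
      rcases R.cases b with rfl | rfl | ⟨a, rfl⟩
      · refine ⟨hb2, ?_, ?_⟩
        · rcases hb1 with h3 | h3
          · left; rw [h3] at hsum; linear_combination hsum
          · right; rw [h3] at hsum; linear_combination hsum
        · rcases hb1 with h3 | h3 <;> rcases hb2 with h4 | h4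
          · right; rw [h3, h4] at hsum; linear_combination - hsum
          · left; rw [h3, h4] at hsum; linear_combination - hsum
          · left; rw [h3, h4] at hsum; linear_combination - hsum
          · exact absurd ⟨h3, h4⟩ hn
      · rw [hs2, ← hpp]
        refine ⟨hb1, ?_, ?_⟩
        · rcases hb2 with h3 | h3
          · left; rw [h3] at hsum; linear_combination hsum
          · right; rw [h3] at hsum; linear_combination hsum
        · rcases hb1 with h3 | h3 <;> rcases hb2 with h4 | h4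
          · right; rw [h3, h4] at hsum; linear_combination - hsum
          · left; rw [h3, h4] at hsum; linear_combination - hsum
          · left; rw [h3, h4] at hsum; linear_combination - hsum
          · exact absurd ⟨h3, h4⟩ hn
      · have := hv a
        simp only [hh] at this
        exact this
  unfold Lab.Sol
  rw [hvalid]
  constructor
  · rintro ⟨⟨hv, hn⟩, hc⟩
    refine ⟨⟨hv, ?_⟩, hn⟩
    have hb1 := ((L'.valid_iff j).1 hv β₁).1
    have hb2 := ((L'.valid_iff j).1 hv β₂).1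
    rw [hh, hh, cβ1, cβ1'] at hb1
    rw [hh, hh, cβ2, cβ2', ← hpp] at hb2
    exact (conn_type1 R L L' h₁ h₂ hh ht hb1 hb2 (hmono.not.1 hn)).1 hc
  · rintro ⟨⟨hv, hc⟩, hn⟩
    refine ⟨⟨hv, hn⟩, ?_⟩
    have hb1 := ((L'.valid_iff j).1 hv β₁).1
    have hb2 := ((L'.valid_iff j).1 hv β₂).1
    rw [hh, hh, cβ1, cβ1'] at hb1
    rw [hh, hh, cβ2, cβ2', ← hpp] at hb2
    exact (conn_type1 R L L' h₁ h₂ hh ht hb1 hb2 (hmono.not.1 hn)).2 hc

/-- the outside parts correspond to the mono solutions of the smaller web -/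
theorem sol_mono (R : SqRel Y X f g j b₁ b₂) (L : Lab Y V) (L' : Lab X V')
    {β₁ β₂ : B'} (h₁ : Y.e j (f β₁) = Y.e (j + 2) b₁) (h₂ : Y.e j (f β₂) = Y.e (j + 2) b₂)
    {h : V → ZMod 12} {h' : V' → ZMod 12} (hh : ∀ k a, h' (L'.c k a) = h (L.c k (f a)))
    (hs : h (L.c j b₁) = 0) (hpp : h (L.c (j + 1) b₁) = h (L.c (j + 1) b₂)) :
    L.ZS j b₁ b₂ h ↔ L'.Sol h' ∧ L'.mono j β₁ β₂ h' := by
  obtain ⟨cβ1, cβ1'⟩ := R.c_β₁ L h₁
  obtain ⟨cβ2, cβ2'⟩ := R.c_β₂ L h₂
  have hmono : L'.mono j β₁ β₂ h' ↔ (h (L.c (j + 2) b₂) = h (L.c (j + 1) b₁) - 2 ∧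
      h (L.c (j + 2) b₁) = h (L.c (j + 1) b₁) - 2) := by
    unfold Lab.mono
    rw [hh, hh, hh, hh, cβ1, cβ1', cβ2, cβ2', ← hpp]
  have hvalid : (∀ i b, b ≠ b₁ → b ≠ b₂ →
      h (L.c (i + 2) b) = h (L.c (i + 1) b) + 1 ∨ h (L.c (i + 2) b) = h (L.c (i + 1) b) - 2) ↔
      L'.Valid h' := by
    constructor
    · intro hv i a
      rw [hh, hh]
      exact hv i (f a) (R.f_ne₁ a) (R.f_ne₂ a)
    · intro hv i b hb1 hb2
      obtain ⟨a, rfl⟩ := R.ex_f hb1 hb2
      have := hv i a
      rwa [hh, hh] at this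
  have hconn : L'.mono j β₁ β₂ h' → ((∀ x y : B ⊕ W, (x ≠ Sum.inl b₁ ∧ x ≠ Sum.inl b₂ ∧
        x ≠ Sum.inr (Y.e (j + 2) b₁) ∧ x ≠ Sum.inr (Y.e (j + 2) b₂)) →
      (y ≠ Sum.inl b₁ ∧ y ≠ Sum.inl b₂ ∧ y ≠ Sum.inr (Y.e (j + 2) b₁) ∧
        y ≠ Sum.inr (Y.e (j + 2) b₂)) →
      Relation.EqvGen (fun x y => ∃ i b, b ≠ b₁ ∧ b ≠ b₂ ∧ Y.e i b ≠ Y.e (j + 2) b₁ ∧
        Y.e i b ≠ Y.e (j + 2) b₂ ∧ h (L.c (i + 2) b) = h (L.c (i + 1) b) + 1 ∧
        x = Sum.inl b ∧ y = Sum.inr (Y.e i b)) x y) ↔ L'.Conn h') := by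
    rintro ⟨m1, m2⟩
    set r : B ⊕ W → B ⊕ W → Prop := fun x y => ∃ i b, b ≠ b₁ ∧ b ≠ b₂ ∧
        Y.e i b ≠ Y.e (j + 2) b₁ ∧
        Y.e i b ≠ Y.e (j + 2) b₂ ∧ h (L.c (i + 2) b) = h (L.c (i + 1) b) + 1 ∧
        x = Sum.inl b ∧ y = Sum.inr (Y.e i b) with hr
    have hxe : ∀ i a, Y.e i (f a) ≠ Y.e (j + 2) b₁ → Y.e i (f a) ≠ Y.e (j + 2) b₂ →
        Y.e i (f a) = g (X.e i a) := by
      intro i a n1 n2
      by_cases hi : i = j
      · subst hi
        exact R.same a n1 n2
      · exact R.other i hi a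
    obtain ⟨ψ, pf, pg, -, -, -, -⟩ := R.exists_psi (Sum.inl β₁) (Sum.inl β₁) (Sum.inl β₁)
      (Sum.inl β₁)
    have d1 : ∀ x y, r x y → EqvGen (L'.HE h') (ψ x) (ψ y) := by
      rintro x y ⟨i, b, n1, n2, n3, n4, he, rfl, rfl⟩
      obtain ⟨a, rfl⟩ := R.ex_f n1 n2
      rw [hxe i a n3 n4, pf, pg]
      refine EqvGen.rel _ _ ⟨i, a, ?_, rfl, rfl⟩
      rw [hh, hh]
      exact he
    have d1' : ∀ x y, EqvGen r x y → EqvGen (L'.HE h') (ψ x) (ψ y) := by
      intro x y h
      induction h with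
      | rel x y h => exact d1 x y h
      | refl x => exact EqvGen.refl _
      | symm x y _ ih => exact ih.symm
      | trans x y z _ _ ih1 ih2 => exact ih1.trans _ _ _ ih2
    have d2 : ∀ x y, L'.HE h' x y → EqvGen r (Sum.map f g x) (Sum.map f g y) := by
      rintro x y ⟨i, a, he, rfl, rfl⟩
      have n3 : Y.e i (f a) ≠ Y.e (j + 2) b₁ := by
        intro hc
        by_cases hi : i = j
        · subst hi
          have ha : a = β₁ := R.fi ((Y.e _).injective (hc.trans h₁.symm))
          subst ha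
          rw [m1] at he
          exact z12_a _ he
        · rw [R.other i hi] at hc
          exact R.g_ne₁ _ hc
      have n4 : Y.e i (f a) ≠ Y.e (j + 2) b₂ := by
        intro hc
        by_cases hi : i = j
        · subst hi
          have ha : a = β₂ := R.fi ((Y.e _).injective (hc.trans h₂.symm))
          subst ha
          rw [m2] at he
          exact z12_a _ he
        · rw [R.other i hi] at hc
          exact R.g_ne₂ _ hc
      refine EqvGen.rel _ _ ⟨i, f a, R.f_ne₁ a, R.f_ne₂ a, n3, n4, ?_, rfl, ?_⟩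
      · rw [hh, hh] at he
        exact he
      · rw [Sum.map_inr, hxe i a n3 n4]
    have d2' : ∀ x y, EqvGen (L'.HE h') x y → EqvGen r (Sum.map f g x) (Sum.map f g y) := by
      intro x y h
      induction h with
      | rel x y h => exact d2 x y h
      | refl x => exact EqvGen.refl _
      | symm x y _ ih => exact ih.symm
      | trans x y z _ _ ih1 ih2 => exact ih1.trans _ _ _ ih2
    have d3 : ∀ x : B' ⊕ W', (Sum.map f g x) ≠ Sum.inl b₁ ∧ (Sum.map f g x) ≠ Sum.inl b₂ ∧
        (Sum.map f g x) ≠ Sum.inr (Y.e (j + 2) b₁) ∧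
        (Sum.map f g x) ≠ Sum.inr (Y.e (j + 2) b₂) := by
      rintro (a | a)
      · simp only [Sum.map_inl, ne_eq, Sum.inl.injEq, reduceCtorEq, not_false_eq_true, and_true]
        exact ⟨R.f_ne₁ a, R.f_ne₂ a⟩
      · simp only [Sum.map_inr, ne_eq, Sum.inr.injEq, reduceCtorEq, not_false_eq_true, true_and]
        exact ⟨R.g_ne₁ a, R.g_ne₂ a⟩
    have d4 : ∀ x : B' ⊕ W', ψ (Sum.map f g x) = x := by
      rintro (a | a)
      · exact pf a
      · exact pg a
    have d5 : ∀ x : B ⊕ W, (x ≠ Sum.inl b₁ ∧ x ≠ Sum.inl b₂ ∧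
        x ≠ Sum.inr (Y.e (j + 2) b₁) ∧ x ≠ Sum.inr (Y.e (j + 2) b₂)) →
        ∃ x' : B' ⊕ W', x = Sum.map f g x' := by
      rintro (b | w) ⟨n1, n2, n3, n4⟩
      · obtain ⟨a, rfl⟩ := R.ex_f (b := b) (fun h => n1 (by rw [h])) (fun h => n2 (by rw [h]))
        exact ⟨Sum.inl a, rfl⟩
      · obtain ⟨a, rfl⟩ := (R.gr w).2 ⟨fun h => n3 (by rw [h]), fun h => n4 (by rw [h])⟩
        exact ⟨Sum.inr a, rfl⟩
    constructor
    · intro hc x y
      have := d1' _ _ (hc _ _ (d3 x) (d3 y))
      rwa [d4, d4] at this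
    · intro hc x y hx hy
      obtain ⟨x', rfl⟩ := d5 x hx
      obtain ⟨y', rfl⟩ := d5 y hy
      exact d2' _ _ (hc x' y')
  constructor
  · rintro ⟨-, -, hb, ha, hv, hc⟩
    have hm : L'.mono j β₁ β₂ h' := hmono.2 ⟨ha, hb⟩
    exact ⟨⟨hvalid.1 hv, (hconn hm).1 hc⟩, hm⟩
  · rintro ⟨⟨hv, hc⟩, hm⟩
    obtain ⟨ha, hb⟩ := hmono.1 hm
    exact ⟨hs, hpp.symm, hb, ha, hvalid.2 hv, (hconn hm).2 hc⟩

end

variable [Fintype B] [Fintype V] [DecidableEq V] [Fintype B']

theorem eps_shift (a b c : ZMod 4) (h : a = b + c) (hc : c = 0) : eps a = eps b := by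
  rw [h, hc, add_zero]

open Classical in
/-- B1 -/
theorem sum_nonmono (R : SqRel Y X f g j b₁ b₂) (L : Lab Y V)
    (hp : L.c (j + 1) b₁ ≠ L.c (j + 1) b₂) (L' : Lab X (L.V1 j b₁ b₂))
    (hL' : ∀ k b, ((L'.c k b : L.V1 j b₁ b₂) : V) =
      if L.c k (f b) = L.c (j + 1) b₂ then L.c (j + 1) b₁ else L.c k (f b))
    {β₁ β₂ : B'} (h₁ : Y.e j (f β₁) = Y.e (j + 2) b₁) (h₂ : Y.e j (f β₂) = Y.e (j + 2) b₂)
    (m : V → ZMod 4) (hm : m (L.c j b₁) = 0) :
    L.T1 j b₁ b₂ m = ∑ h : L.V1 j b₁ b₂ → ZMod 12,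
      if L'.Sol h ∧ ¬ L'.mono j β₁ β₂ h then eps (L'.E (L.m1 j b₁ b₂ m) h) else 0 := by
  have hps : L.c (j + 1) b₁ ≠ L.c j b₁ := fun h => fne1 j (L.cls _ _ _ _ h)
  have hqs : ∀ b, L.c (j + 2) b ≠ L.c j b₁ := fun b h => fne2 j (L.cls _ _ _ _ h)
  have hqp : ∀ b, L.c (j + 2) b ≠ L.c (j + 1) b₂ := fun b h => fne21 j (L.cls _ _ _ _ h)
  let pv : L.V1 j b₁ b₂ := ⟨L.c (j + 1) b₁, hps, hp⟩
  let qv : L.V1 j b₁ b₂ := ⟨L.c (j + 2) b₂, hqs _, hqp _⟩
  let qv' : L.V1 j b₁ b₂ := ⟨L.c (j + 2) b₁, hqs _, hqp _⟩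
  have hh : ∀ h : V → ZMod 12, h (L.c (j + 1) b₁) = h (L.c (j + 1) b₂) → ∀ k a,
      (fun v : L.V1 j b₁ b₂ => h v.1) (L'.c k a) = h (L.c k (f a)) := by
    intro h hpp k a
    show h ((L'.c k a : L.V1 j b₁ b₂) : V) = _
    rw [hL']
    split_ifs with h1
    · rw [h1, hpp]
    · rfl
  have key : ∀ h : V → ZMod 12, L.type1 j b₁ b₂ h → (L.Sol h ↔
      L'.Sol (fun v => h v.1) ∧ ¬ L'.mono j β₁ β₂ (fun v => h v.1)) :=
    fun h ht => sol_type1 R L L' h₁ h₂ (hh h ht.1) ht
  unfold Lab.T1
  rw [← Finset.sum_filter, ← Finset.sum_filter]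
  have hres : ∀ h' : L.V1 j b₁ b₂ → ZMod 12, (fun v : L.V1 j b₁ b₂ =>
      L.ext j b₁ b₂ pv (h' qv + h' qv' - h' pv) h' v.1) = h' := by
    intro h'
    funext v
    exact L.ext_val pv _ h' v
  have htype : ∀ h' : L.V1 j b₁ b₂ → ZMod 12, L.type1 j b₁ b₂
      (L.ext j b₁ b₂ pv (h' qv + h' qv' - h' pv) h') := by
    intro h'
    have v1 := L.ext_val pv (h' qv + h' qv' - h' pv) h' pv
    have v2 := L.ext_val pv (h' qv + h' qv' - h' pv) h' qv
    have v3 := L.ext_val pv (h' qv + h' qv' - h' pv) h' qv'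
    have v4 := L.ext_s pv (h' qv + h' qv' - h' pv) h'
    have v5 := L.ext_p' pv (h' qv + h' qv' - h' pv) h'
    refine ⟨?_, ?_⟩
    · rw [v5]; exact v1
    · rw [v4]
      change _ + L.ext j b₁ b₂ pv (h' qv + h' qv' - h' pv) h' pv.1 =
        L.ext j b₁ b₂ pv (h' qv + h' qv' - h' pv) h' qv'.1 +
        L.ext j b₁ b₂ pv (h' qv + h' qv' - h' pv) h' qv.1
      rw [v1, v2, v3]
      ring
  refine Finset.sum_nbij' (fun h v => h v.1)
    (fun h' => L.ext j b₁ b₂ pv (h' qv + h' qv' - h' pv) h') ?_ ?_ ?_ ?_ ?_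
  · intro h hh'
    simp only [Finset.mem_filter, Finset.mem_univ, true_and] at hh' ⊢
    exact (key h hh'.2).1 hh'.1
  · intro h' hh'
    simp only [Finset.mem_filter, Finset.mem_univ, true_and] at hh' ⊢
    refine ⟨(key _ (htype h')).2 ?_, htype h'⟩
    rw [hres]
    exact hh'
  · intro h hh'
    simp only [Finset.mem_filter, Finset.mem_univ, true_and] at hh'
    have e1 : h (L.c j b₁) = (fun v : L.V1 j b₁ b₂ => h v.1) qv +
        (fun v : L.V1 j b₁ b₂ => h v.1) qv' - (fun v : L.V1 j b₁ b₂ => h v.1) pv := by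
      have := hh'.2.2
      show h (L.c j b₁) = h (L.c (j + 2) b₂) + h (L.c (j + 2) b₁) - h (L.c (j + 1) b₁)
      linear_combination this
    have := L.ext_res pv h hh'.2.1
    rw [e1] at this
    exact this
  · intro h' _
    exact hres h'
  · intro h hh'
    simp only [Finset.mem_filter, Finset.mem_univ, true_and] at hh'
    refine eps_shift _ _ _ (E_diff R L hp L' hL' m hm h hh'.2.1) ?_
    have := congrArg kap hh'.2.2
    rw [map_add, map_add] at this
    linear_combination this

open Classical in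
/-- B2 -/
theorem sum_mono (R : SqRel Y X f g j b₁ b₂) (L : Lab Y V)
    (hp : L.c (j + 1) b₁ ≠ L.c (j + 1) b₂) (L' : Lab X (L.V1 j b₁ b₂))
    (hL' : ∀ k b, ((L'.c k b : L.V1 j b₁ b₂) : V) =
      if L.c k (f b) = L.c (j + 1) b₂ then L.c (j + 1) b₁ else L.c k (f b))
    {β₁ β₂ : B'} (h₁ : Y.e j (f β₁) = Y.e (j + 2) b₁) (h₂ : Y.e j (f β₂) = Y.e (j + 2) b₂)
    (m : V → ZMod 4) (hm : m (L.c j b₁) = 0) :
    L.M1 j b₁ b₂ m = ∑ h : L.V1 j b₁ b₂ → ZMod 12,
      if L'.Sol h ∧ L'.mono j β₁ β₂ h then eps (L'.E (L.m1 j b₁ b₂ m) h) else 0 := by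
  have hps : L.c (j + 1) b₁ ≠ L.c j b₁ := fun h => fne1 j (L.cls _ _ _ _ h)
  let pv : L.V1 j b₁ b₂ := ⟨L.c (j + 1) b₁, hps, hp⟩
  have hh : ∀ h : V → ZMod 12, h (L.c (j + 1) b₁) = h (L.c (j + 1) b₂) → ∀ k a,
      (fun v : L.V1 j b₁ b₂ => h v.1) (L'.c k a) = h (L.c k (f a)) := by
    intro h hpp k a
    show h ((L'.c k a : L.V1 j b₁ b₂) : V) = _
    rw [hL']
    split_ifs with h1
    · rw [h1, hpp]
    · rfl
  have key : ∀ h : V → ZMod 12, h (L.c j b₁) = 0 →
      h (L.c (j + 1) b₁) = h (L.c (j + 1) b₂) → (L.ZS j b₁ b₂ h ↔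
      L'.Sol (fun v => h v.1) ∧ L'.mono j β₁ β₂ (fun v => h v.1)) :=
    fun h hs hpp => sol_mono R L L' h₁ h₂ (hh h hpp) hs hpp
  unfold Lab.M1
  rw [← Finset.sum_filter, ← Finset.sum_filter]
  have hres : ∀ h' : L.V1 j b₁ b₂ → ZMod 12, (fun v : L.V1 j b₁ b₂ =>
      L.ext j b₁ b₂ pv 0 h' v.1) = h' := by
    intro h'
    funext v
    exact L.ext_val pv _ h' v
  refine Finset.sum_nbij' (fun h v => h v.1) (fun h' => L.ext j b₁ b₂ pv 0 h') ?_ ?_ ?_ ?_ ?_
  · intro h hh'
    simp only [Finset.mem_filter, Finset.mem_univ, true_and] at hh' ⊢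
    exact (key h hh'.1 hh'.2.1.symm).1 hh'
  · intro h' hh'
    simp only [Finset.mem_filter, Finset.mem_univ, true_and] at hh' ⊢
    refine (key _ (L.ext_s pv 0 h') ?_).2 ?_
    · rw [L.ext_p' pv 0 h']
      exact L.ext_val pv 0 h' pv
    · rw [hres]
      exact hh'
  · intro h hh'
    simp only [Finset.mem_filter, Finset.mem_univ, true_and] at hh'
    have := L.ext_res pv h hh'.2.1.symm
    rw [hh'.1] at this
    exact this
  · intro h' _
    exact hres h'
  · intro h hh'
    simp only [Finset.mem_filter, Finset.mem_univ, true_and] at hh'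
    obtain ⟨z1, z2, z3, z4, -, -⟩ := hh'
    congr 1
    rw [E_diff R L hp L' hL' m hm h z2.symm, z1, z3, z4, map_sub, map_zero]
    have h2 : (kap 2 : ZMod 4) = 2 := by decide
    rw [h2]
    generalize kap (h (L.c (j + 1) b₁)) = t
    have : (4 : ZMod 4) = 0 := by decide
    linear_combination this

/-- B3 (from B1 and B2) -/
theorem T1_add_M1 (R : SqRel Y X f g j b₁ b₂) (L : Lab Y V)
    (hp : L.c (j + 1) b₁ ≠ L.c (j + 1) b₂) (L' : Lab X (L.V1 j b₁ b₂))
    (hL' : ∀ k b, ((L'.c k b : L.V1 j b₁ b₂) : V) =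
      if L.c k (f b) = L.c (j + 1) b₂ then L.c (j + 1) b₁ else L.c k (f b))
    (m : V → ZMod 4) (hm : m (L.c j b₁) = 0) :
    L.T1 j b₁ b₂ m + L.M1 j b₁ b₂ m = L'.S (L.m1 j b₁ b₂ m) := by
  classical
  obtain ⟨β₁, β₂, -, h₁, h₂⟩ := R.betas
  rw [sum_nonmono R L hp L' hL' h₁ h₂ m hm, sum_mono R L hp L' hL' h₁ h₂ m hm]
  unfold Lab.S
  rw [← Finset.sum_add_distrib]
  refine Finset.sum_congr (by ext; simp) fun h _ => ?_
  by_cases h1 : L'.Sol h <;> by_cases h2 : L'.mono j β₁ β₂ h <;> simp [h1, h2]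

end Vale.Agent.P039.Sk
end

section

/-! Exchanging black and white. -/

namespace Vale.Agent.P039.Sk

variable {B W V B' W' : Type}

theorem Web.dual_dual (X : Web B W) : X.dual.dual = X := by
  cases X with
  | mk e =>
    unfold Web.dual
    congr 1
    funext i
    simp only [Equiv.symm_symm, neg_neg]

variable {X : Web B W}

/-- transport of generated equivalences -/
theorem dual_eqvGen {α β : Type} {R : α → α → Prop} {S : β → β → Prop} (f : α → β)
    (hf : ∀ x y, R x y → S (f x) (f y) ∨ S (f y) (f x)) {x y : α}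
    (h : Relation.EqvGen R x y) : Relation.EqvGen S (f x) (f y) := by
  induction h with
  | rel x y h =>
    rcases hf x y h with h1 | h1
    · exact .rel _ _ h1
    · exact .symm _ _ (.rel _ _ h1)
  | refl x => exact .refl _
  | symm x y _ ih => exact .symm _ _ ih
  | trans x y z _ _ ih1 ih2 => exact .trans _ _ _ ih1 ih2

theorem dual_n1 (j : Fin 3) : -(j + 1) = -j + 2 := by revert j; decide
theorem dual_n2 (j : Fin 3) : -(j + 2) = -j + 1 := by revert j; decide
theorem dual_m1 (j : Fin 3) : -(-j + 1) = j + 2 := by revert j; decide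
theorem dual_m2 (j : Fin 3) : -(-j + 2) = j + 1 := by revert j; decide

theorem dual_e (i : Fin 3) (w : W) : X.dual.e i w = (X.e (-i)).symm w := rfl

theorem dual_e1 (j : Fin 3) (w : W) : X.dual.e (j + 1) w = (X.e (-j + 2)).symm w := by
  rw [dual_e, dual_n1]

theorem dual_e2 (j : Fin 3) (w : W) : X.dual.e (j + 2) w = (X.e (-j + 1)).symm w := by
  rw [dual_e, dual_n2]

/-- the white vertex `w` has the same corners as its black neighbours -/
def Lab.dual (L : Lab X V) : Lab X.dual V where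
  c j w := L.c (-j) ((X.e (-j + 1)).symm w)
  step := by
    intro j w w' h
    rw [dual_e1, dual_e2] at h
    rw [← h]
    refine L.step (-j) _ _ ?_
    rw [Equiv.apply_symm_apply, Equiv.apply_symm_apply]
  exact := by
    intro j w w' h
    have h1 := dual_eqvGen (S := fun x y => X.dual.e (j + 1) y = X.dual.e (j + 2) x)
      (X.e (-j + 1)) (fun x y hxy => Or.inl (by
        rw [dual_e1, dual_e2, Equiv.symm_apply_apply, hxy, Equiv.symm_apply_apply]))
      (L.exact _ _ _ h)
    rwa [Equiv.apply_symm_apply, Equiv.apply_symm_apply] at h1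
  cls := by
    intro j j' w w' h
    exact neg_injective (L.cls _ _ _ _ h)
  surj := by
    intro v
    obtain ⟨j, b, hb⟩ := L.surj v
    refine ⟨-j, X.e (j + 1) b, ?_⟩
    rw [neg_neg, Equiv.symm_apply_apply, hb]

theorem Lab.dual_c (L : Lab X V) (j : Fin 3) (w : W) :
    L.dual.c j w = L.c (-j) ((X.e (-j + 1)).symm w) := rfl

/-- an edge whose colour is not `j` has the same corner of class `j` at both ends -/
theorem Lab.dual_edge (L : Lab X V) {i j : Fin 3} (hij : i ≠ j) (b : B) :
    L.dual.c (-j) (X.e i b) = L.c j b := by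
  rw [L.dual_c, neg_neg]
  rcases fcase i j with h | h | h
  · exact absurd h hij
  · rw [h, Equiv.symm_apply_apply]
  · rw [h]
    refine L.step j _ _ ?_
    rw [Equiv.apply_symm_apply]

theorem Lab.dual_edge1 (L : Lab X V) (k : Fin 3) (b : B) :
    L.dual.c (-k + 1) (X.e k b) = L.c (k + 2) b := by
  rw [← dual_n2]
  exact L.dual_edge (fne2' k) b

theorem Lab.dual_edge2 (L : Lab X V) (k : Fin 3) (b : B) :
    L.dual.c (-k + 2) (X.e k b) = L.c (k + 1) b := by
  rw [← dual_n1]
  exact L.dual_edge (fne1' k) b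

theorem dual_forall {P : Fin 3 → W → Prop} :
    (∀ i w, P i w) ↔ ∀ k b, P (-k) (X.e k b) := by
  refine ⟨fun h k b => h _ _, fun h i w => ?_⟩
  have h1 := h (-i) ((X.e (-i)).symm w)
  rwa [neg_neg, Equiv.apply_symm_apply] at h1

theorem dual_valid_at (L : Lab X V) (h : V → ZMod 12) (k : Fin 3) (b : B) :
    (- h (L.dual.c (-k + 2) (X.e k b)) = - h (L.dual.c (-k + 1) (X.e k b)) + 1 ∨
      - h (L.dual.c (-k + 2) (X.e k b)) = - h (L.dual.c (-k + 1) (X.e k b)) - 2) ↔
    (h (L.c (k + 2) b) = h (L.c (k + 1) b) + 1 ∨ h (L.c (k + 2) b) = h (L.c (k + 1) b) - 2) := by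
  rw [L.dual_edge1, L.dual_edge2]
  constructor
  · rintro (h1 | h1)
    · left; linear_combination h1
    · right; linear_combination h1
  · rintro (h1 | h1)
    · left; linear_combination h1
    · right; linear_combination h1

theorem dual_valid (L : Lab X V) (h : V → ZMod 12) : L.dual.Valid (fun v => - h v) ↔ L.Valid h := by
  unfold Lab.Valid
  rw [dual_forall (X := X)]
  exact forall_congr' fun k => forall_congr' fun b => dual_valid_at L h k b

theorem dual_HE (L : Lab X V) (h : V → ZMod 12) (x y : W ⊕ B) :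
    L.dual.HE (fun v => - h v) x y ↔ L.HE h y.swap x.swap := by
  unfold Lab.HE
  constructor
  · rintro ⟨i, w, h1, rfl, rfl⟩
    refine ⟨-i, (X.e (-i)).symm w, ?_, rfl, ?_⟩
    · have h2 := L.dual_edge1 (-i) ((X.e (-i)).symm w)
      have h3 := L.dual_edge2 (-i) ((X.e (-i)).symm w)
      rw [neg_neg, Equiv.apply_symm_apply] at h2 h3
      simp only at h1
      rw [h2, h3] at h1
      linear_combination h1
    · rw [Equiv.apply_symm_apply]
      rfl
  · rintro ⟨k, b, h1, h2, h3⟩
    refine ⟨-k, X.e k b, ?_, ?_, ?_⟩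
    · simp only
      rw [L.dual_edge1, L.dual_edge2]
      linear_combination h1
    · rw [← Sum.swap_swap x, h3]
      rfl
    · rw [← Sum.swap_swap y, h2, dual_e, neg_neg, Equiv.symm_apply_apply]
      rfl

theorem dual_conn (L : Lab X V) (h : V → ZMod 12) (hv : L.Valid h) :
    L.dual.Conn (fun v => - h v) ↔ L.Conn h := by
  clear hv
  unfold Lab.Conn
  constructor
  · intro H x y
    have h1 := dual_eqvGen (S := L.HE h) Sum.swap (fun a b hab => Or.inr
      ((dual_HE L h a b).1 hab)) (H x.swap y.swap)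
    rwa [Sum.swap_swap, Sum.swap_swap] at h1
  · intro H x y
    have h1 := dual_eqvGen (S := L.dual.HE fun v => - h v) Sum.swap (fun a b hab => Or.inr
      ((dual_HE L h b.swap a.swap).2 (by rwa [Sum.swap_swap, Sum.swap_swap])))
      (H x.swap y.swap)
    rwa [Sum.swap_swap, Sum.swap_swap] at h1

theorem dual_sol (L : Lab X V) (h : V → ZMod 12) :
    L.dual.Sol (fun v => - h v) ↔ L.Sol h := by
  unfold Lab.Sol
  rw [dual_valid]
  exact and_congr_right fun hv => dual_conn L h hv

variable [Fintype B] [Fintype W] [Fintype V] [DecidableEq V]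

theorem dual_E (L : Lab X V) (m : V → ZMod 4) (h : V → ZMod 12) :
    L.dual.E m (fun v => - h v) = - L.E m h := by
  have h1 : ∑ w, ∑ j, kap (h (L.dual.c j w)) = ∑ b, ∑ j, kap (h (L.c j b)) := by
    rw [Finset.sum_comm, Finset.sum_comm (f := fun b j => kap (h (L.c j b)))]
    rw [← Equiv.sum_comp (Equiv.neg (Fin 3)) fun j => ∑ b, kap (h (L.c j b))]
    refine Finset.sum_congr rfl fun j _ => ?_
    rw [← Equiv.sum_comp (X.e (-j + 1)).symm fun b => kap (h (L.c (Equiv.neg (Fin 3) j) b))]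
    rfl
  unfold Lab.E
  simp only [map_neg, mul_neg, Finset.sum_neg_distrib]
  rw [h1]
  ring

omit [Fintype B] [Fintype W] [Fintype V] [DecidableEq V] in
theorem dual_sum {_ : Fintype (V → ZMod 12)} (F : (V → ZMod 12) → ℤ) :
    ∑ h, F h = ∑ h, F (Equiv.neg (V → ZMod 12) h) :=
  (Equiv.sum_comp (Equiv.neg (V → ZMod 12)) F).symm

theorem dual_S (L : Lab X V) (m : V → ZMod 4) : L.dual.S m = L.S m := by
  unfold Lab.S
  refine (dual_sum _).trans ?_
  refine Finset.sum_congr rfl fun h _ => ?_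
  have e1 : (Equiv.neg (V → ZMod 12)) h = fun v => - h v := rfl
  rw [e1, dual_E, eps_neg]
  by_cases hs : L.Sol h
  · rw [if_pos hs, if_pos ((dual_sol L h).2 hs)]
  · rw [if_neg hs, if_neg fun hs' => hs ((dual_sol L h).1 hs')]

/-- the same 4-face in the dual; `-j` is its class there -/
theorem Sq4.dual {j : Fin 3} {b₁ b₂ : B} (Q : Sq4 X j b₁ b₂) :
    Sq4 X.dual (-j) (X.e (j + 2) b₁) (X.e (j + 2) b₂) where
  ne := fun h => Q.ne ((X.e (j + 2)).injective h)
  face := by
    rw [dual_e, dual_e, dual_m1, dual_m2, Equiv.symm_apply_apply, ← Q.face,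
      Equiv.symm_apply_apply]
  face' := by
    rw [dual_e, dual_e, dual_m1, dual_m2, Equiv.symm_apply_apply, ← Q.face',
      Equiv.symm_apply_apply]
  n11 := by
    rw [dual_e, dual_e, dual_m2, neg_neg, ← Q.face, Equiv.symm_apply_apply, Q.face]
    intro h
    rw [Equiv.symm_apply_eq] at h
    exact Q.n21 h.symm
  n12 := by
    rw [dual_e, dual_e, dual_m2, neg_neg, ← Q.face', Equiv.symm_apply_apply]
    intro h
    rw [Equiv.symm_apply_eq] at h
    exact Q.n11 h.symm
  n21 := by
    rw [dual_e, dual_e, dual_m2, neg_neg, ← Q.face, Equiv.symm_apply_apply]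
    intro h
    rw [Equiv.symm_apply_eq] at h
    exact Q.n22 h.symm
  n22 := by
    rw [dual_e, dual_e, dual_m2, neg_neg, ← Q.face', Equiv.symm_apply_apply, Q.face']
    intro h
    rw [Equiv.symm_apply_eq] at h
    exact Q.n12 h.symm

/-- corners of the dual 4-face -/
theorem Sq4.dual_c' {j : Fin 3} {b₁ b₂ : B} (Q : Sq4 X j b₁ b₂) (L : Lab X V) :
    L.dual.c (-j) (X.e (j + 2) b₁) = L.c j b₁ ∧
    L.dual.c (-j + 1) (X.e (j + 2) b₁) = L.c (j + 2) b₂ ∧
    L.dual.c (-j + 1) (X.e (j + 2) b₂) = L.c (j + 2) b₁ ∧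
    L.dual.c (-j + 2) (X.e (j + 2) b₁) = L.c (j + 1) b₁ ∧
    L.dual.c (-j + 2) (X.e (j + 2) b₂) = L.c (j + 1) b₂ := by
  refine ⟨L.dual_edge (fne2 j) b₁, ?_, ?_, ?_, ?_⟩
  · rw [← Q.face, ← dual_n2]
    exact L.dual_edge (fne12 j) b₂
  · rw [← Q.face', ← dual_n2]
    exact L.dual_edge (fne12 j) b₁
  · rw [← dual_n1]
    exact L.dual_edge (fne21 j) b₁
  · rw [← dual_n1]
    exact L.dual_edge (fne21 j) b₂

theorem dual_type1 {j : Fin 3} {b₁ b₂ : B} (Q : Sq4 X j b₁ b₂) (L : Lab X V)
    (h : V → ZMod 12) :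
    L.dual.type1 (-j) (X.e (j + 2) b₁) (X.e (j + 2) b₂) (fun v => - h v) ↔
      L.type2 j b₁ b₂ h := by
  obtain ⟨c0, c1, c2, c3, c4⟩ := Q.dual_c' L
  unfold Lab.type1 Lab.type2
  simp only
  rw [c0, c1, c2, c3, c4]
  constructor
  · rintro ⟨h1, h2⟩
    exact ⟨by linear_combination h1, by linear_combination h1 - h2⟩
  · rintro ⟨h1, h2⟩
    exact ⟨by linear_combination h1, by linear_combination h1 - h2⟩

theorem dual_T1 {j : Fin 3} {b₁ b₂ : B} (Q : Sq4 X j b₁ b₂) (L : Lab X V) (m : V → ZMod 4) :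
    L.dual.T1 (-j) (X.e (j + 2) b₁) (X.e (j + 2) b₂) m = L.T2 j b₁ b₂ m := by
  unfold Lab.T1 Lab.T2
  refine (Equiv.sum_comp (Equiv.neg (V → ZMod 12)) _).symm.trans ?_
  refine Finset.sum_congr rfl fun h _ => ?_
  have e1 : (Equiv.neg (V → ZMod 12)) h = fun v => - h v := rfl
  rw [e1, dual_E, eps_neg]
  have hiff := and_congr (dual_sol L h) (dual_type1 Q L h)
  by_cases hs : L.Sol h ∧ L.type2 j b₁ b₂ h
  · rw [if_pos hs, if_pos (hiff.2 hs)]
  · rw [if_neg hs, if_neg fun hs' => hs (hiff.1 hs')]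

theorem dual_ZS {j : Fin 3} {b₁ b₂ : B} (Q : Sq4 X j b₁ b₂) (L : Lab X V) (h : V → ZMod 12) :
    L.dual.ZS (-j) (X.e (j + 2) b₁) (X.e (j + 2) b₂) (fun v => - h v) ↔ L.ZS j b₁ b₂ h := by
  obtain ⟨c0, c1, c2, c3, c4⟩ := Q.dual_c' L
  have d1 : X.dual.e (-j + 2) (X.e (j + 2) b₁) = b₂ := by
    rw [dual_e, dual_m2, ← Q.face, Equiv.symm_apply_apply]
  have d2 : X.dual.e (-j + 2) (X.e (j + 2) b₂) = b₁ := by
    rw [dual_e, dual_m2, ← Q.face', Equiv.symm_apply_apply]
  unfold Lab.ZS
  simp only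
  rw [c0, c1, c2, c3, c4, d1, d2]
  -- the first four conditions
  have hA : (- h (L.c j b₁) = 0 ∧ - h (L.c (j + 2) b₁) = - h (L.c (j + 2) b₂) ∧
      - h (L.c (j + 1) b₁) = - h (L.c (j + 2) b₂) - 2 ∧
      - h (L.c (j + 1) b₂) = - h (L.c (j + 2) b₂) - 2) ↔
      (h (L.c j b₁) = 0 ∧ h (L.c (j + 1) b₂) = h (L.c (j + 1) b₁) ∧
      h (L.c (j + 2) b₁) = h (L.c (j + 1) b₁) - 2 ∧
      h (L.c (j + 2) b₂) = h (L.c (j + 1) b₁) - 2) := by
    constructor
    · rintro ⟨h0, h1, h2, h3⟩
      exact ⟨by linear_combination - h0, by linear_combination h2 - h3,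
        by linear_combination h2 - h1, by linear_combination h2⟩
    · rintro ⟨h0, h1, h2, h3⟩
      exact ⟨by linear_combination - h0, by linear_combination h3 - h2,
        by linear_combination h3, by linear_combination h3 - h1⟩
  -- validity
  have hB : (h (L.c (j + 1) b₂) = h (L.c (j + 1) b₁) ∧
      h (L.c (j + 2) b₁) = h (L.c (j + 1) b₁) - 2 ∧
      h (L.c (j + 2) b₂) = h (L.c (j + 1) b₁) - 2) →
      ((∀ i w, w ≠ X.e (j + 2) b₁ → w ≠ X.e (j + 2) b₂ →
        - h (L.dual.c (i + 2) w) = - h (L.dual.c (i + 1) w) + 1 ∨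
        - h (L.dual.c (i + 2) w) = - h (L.dual.c (i + 1) w) - 2) ↔
      (∀ i b, b ≠ b₁ → b ≠ b₂ →
        h (L.c (i + 2) b) = h (L.c (i + 1) b) + 1 ∨
        h (L.c (i + 2) b) = h (L.c (i + 1) b) - 2)) := by
    rintro ⟨h1, h2, h3⟩
    rw [dual_forall (X := X)]
    constructor
    · intro H k b hb1 hb2
      by_cases hw1 : X.e k b = X.e (j + 2) b₁
      · -- the edge ends at `w₁`
        have hk : k = j := by
          rcases fcase k j with hk | hk | hk
          · exact hk
          · exfalso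
            rw [hk, ← Q.face] at hw1
            exact hb2 ((X.e (j + 1)).injective hw1)
          · exfalso
            rw [hk] at hw1
            exact hb1 ((X.e (j + 2)).injective hw1)
        subst hk
        right
        rw [← L.dual_edge1, ← L.dual_edge2, hw1, c1, c3]
        exact h3
      · by_cases hw2 : X.e k b = X.e (j + 2) b₂
        · have hk : k = j := by
            rcases fcase k j with hk | hk | hk
            · exact hk
            · exfalso
              rw [hk, ← Q.face'] at hw2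
              exact hb1 ((X.e (j + 1)).injective hw2)
            · exfalso
              rw [hk] at hw2
              exact hb2 ((X.e (j + 2)).injective hw2)
          subst hk
          right
          rw [← L.dual_edge1, ← L.dual_edge2, hw2, c2, c4, h1]
          exact h2
        · exact (dual_valid_at L h k b).1 (H k b hw1 hw2)
    · intro H k b hw1 hw2
      rw [dual_valid_at]
      by_cases hb1 : b = b₁
      · have hk : k = j := by
          rcases fcase k j with hk | hk | hk
          · exact hk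
          · exfalso
            rw [hk, hb1] at hw2
            exact hw2 Q.face'
          · exfalso
            rw [hk, hb1] at hw1
            exact hw1 rfl
        rw [hk, hb1]
        right
        exact h2
      · by_cases hb2 : b = b₂
        · have hk : k = j := by
            rcases fcase k j with hk | hk | hk
            · exact hk
            · exfalso
              rw [hk, hb2] at hw1
              exact hw1 Q.face
            · exfalso
              rw [hk, hb2] at hw2
              exact hw2 rfl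
          rw [hk, hb2]
          right
          rw [h1]
          exact h3
        · exact H k b hb1 hb2
  -- connectivity
  have hC : (∀ x y : W ⊕ B, (x ≠ Sum.inl (X.e (j + 2) b₁) ∧ x ≠ Sum.inl (X.e (j + 2) b₂) ∧
        x ≠ Sum.inr b₂ ∧ x ≠ Sum.inr b₁) →
      (y ≠ Sum.inl (X.e (j + 2) b₁) ∧ y ≠ Sum.inl (X.e (j + 2) b₂) ∧
        y ≠ Sum.inr b₂ ∧ y ≠ Sum.inr b₁) →
      Relation.EqvGen (fun x y => ∃ i w, w ≠ X.e (j + 2) b₁ ∧ w ≠ X.e (j + 2) b₂ ∧
        X.dual.e i w ≠ b₂ ∧ X.dual.e i w ≠ b₁ ∧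
        - h (L.dual.c (i + 2) w) = - h (L.dual.c (i + 1) w) + 1 ∧
        x = Sum.inl w ∧ y = Sum.inr (X.dual.e i w)) x y) ↔
      (∀ x y : B ⊕ W, (x ≠ Sum.inl b₁ ∧ x ≠ Sum.inl b₂ ∧ x ≠ Sum.inr (X.e (j + 2) b₁) ∧
        x ≠ Sum.inr (X.e (j + 2) b₂)) →
      (y ≠ Sum.inl b₁ ∧ y ≠ Sum.inl b₂ ∧ y ≠ Sum.inr (X.e (j + 2) b₁) ∧
        y ≠ Sum.inr (X.e (j + 2) b₂)) →
      Relation.EqvGen (fun x y => ∃ i b, b ≠ b₁ ∧ b ≠ b₂ ∧ X.e i b ≠ X.e (j + 2) b₁ ∧
        X.e i b ≠ X.e (j + 2) b₂ ∧ h (L.c (i + 2) b) = h (L.c (i + 1) b) + 1 ∧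
        x = Sum.inl b ∧ y = Sum.inr (X.e i b)) x y) := by
    have hs1 : ∀ x : B ⊕ W, (x ≠ Sum.inl b₁ ∧ x ≠ Sum.inl b₂ ∧ x ≠ Sum.inr (X.e (j + 2) b₁) ∧
        x ≠ Sum.inr (X.e (j + 2) b₂)) ↔ (x.swap ≠ Sum.inl (X.e (j + 2) b₁) ∧
        x.swap ≠ Sum.inl (X.e (j + 2) b₂) ∧ x.swap ≠ Sum.inr b₂ ∧ x.swap ≠ Sum.inr b₁) := by
      rintro (x | x)
      · simp only [Sum.swap_inl, ne_eq, Sum.inl.injEq, Sum.inr.injEq, reduceCtorEq,
          not_false_eq_true, true_and, and_true]
        exact and_comm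
      · simp only [Sum.swap_inr, ne_eq, Sum.inl.injEq, Sum.inr.injEq, reduceCtorEq,
          not_false_eq_true, true_and, and_true]
    constructor
    · intro H x y hx hy
      have h1 := H x.swap y.swap ((hs1 x).1 hx) ((hs1 y).1 hy)
      have h2 := dual_eqvGen (S := fun x y => ∃ i b, b ≠ b₁ ∧ b ≠ b₂ ∧
        X.e i b ≠ X.e (j + 2) b₁ ∧ X.e i b ≠ X.e (j + 2) b₂ ∧
        h (L.c (i + 2) b) = h (L.c (i + 1) b) + 1 ∧
        x = Sum.inl b ∧ y = Sum.inr (X.e i b)) Sum.swap ?_ h1
      · rwa [Sum.swap_swap, Sum.swap_swap] at h2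
      · rintro x y ⟨i, w, g1, g2, g3, g4, g5, rfl, rfl⟩
        right
        refine ⟨-i, (X.e (-i)).symm w, g4, g3, ?_, ?_, ?_, rfl, ?_⟩
        · rw [Equiv.apply_symm_apply]; exact g1
        · rw [Equiv.apply_symm_apply]; exact g2
        · have e1 := L.dual_edge1 (-i) ((X.e (-i)).symm w)
          have e2 := L.dual_edge2 (-i) ((X.e (-i)).symm w)
          rw [neg_neg, Equiv.apply_symm_apply] at e1 e2
          rw [e1, e2] at g5
          linear_combination g5
        · rw [Equiv.apply_symm_apply]; rfl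
    · intro H x y hx hy
      have hx' := (hs1 x.swap).2 (by rwa [Sum.swap_swap])
      have hy' := (hs1 y.swap).2 (by rwa [Sum.swap_swap])
      have h1 := H x.swap y.swap hx' hy'
      have h2 := dual_eqvGen (S := fun x y => ∃ i w, w ≠ X.e (j + 2) b₁ ∧ w ≠ X.e (j + 2) b₂ ∧
        X.dual.e i w ≠ b₂ ∧ X.dual.e i w ≠ b₁ ∧
        - h (L.dual.c (i + 2) w) = - h (L.dual.c (i + 1) w) + 1 ∧
        x = Sum.inl w ∧ y = Sum.inr (X.dual.e i w)) Sum.swap ?_ h1
      · rwa [Sum.swap_swap, Sum.swap_swap] at h2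
      · rintro x y ⟨k, b, g1, g2, g3, g4, g5, rfl, rfl⟩
        right
        have e3 : X.dual.e (-k) (X.e k b) = b := by
          rw [dual_e, neg_neg, Equiv.symm_apply_apply]
        refine ⟨-k, X.e k b, g3, g4, ?_, ?_, ?_, rfl, ?_⟩
        · rw [e3]; exact g2
        · rw [e3]; exact g1
        · rw [L.dual_edge1, L.dual_edge2]
          linear_combination g5
        · rw [e3]; rfl
  constructor
  · rintro ⟨a0, a1, a2, a3, a4, a5⟩
    obtain ⟨b0, b1, b2, b3⟩ := hA.1 ⟨a0, a1, a2, a3⟩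
    exact ⟨b0, b1, b2, b3, (hB ⟨b1, b2, b3⟩).1 a4, hC.1 a5⟩
  · rintro ⟨b0, b1, b2, b3, b4, b5⟩
    obtain ⟨a0, a1, a2, a3⟩ := hA.2 ⟨b0, b1, b2, b3⟩
    exact ⟨a0, a1, a2, a3, (hB ⟨b1, b2, b3⟩).2 b4, hC.2 b5⟩

theorem dual_M1 {j : Fin 3} {b₁ b₂ : B} (Q : Sq4 X j b₁ b₂) (L : Lab X V) (m : V → ZMod 4)
    (hm : m (L.c j b₁) = 0) :
    L.dual.M1 (-j) (X.e (j + 2) b₁) (X.e (j + 2) b₂) m = - L.M1 j b₁ b₂ m := by
  unfold Lab.M1
  rw [← Finset.sum_neg_distrib]
  refine (Equiv.sum_comp (Equiv.neg (V → ZMod 12)) _).symm.trans ?_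
  refine Finset.sum_congr rfl fun h _ => ?_
  have e1 : (Equiv.neg (V → ZMod 12)) h = fun v => - h v := rfl
  rw [e1, dual_E]
  by_cases hz : L.ZS j b₁ b₂ h
  · rw [if_pos hz, if_pos ((dual_ZS Q L h).2 hz), (Q.dual_c' L).2.1]
    simp only
    rw [hz.2.2.2.1]
    have e2 : - L.E m h + kap (-(h (L.c (j + 1) b₁) - 2)) =
        -(L.E m h + kap (h (L.c (j + 1) b₁))) + 2 := by
      rw [map_neg, map_sub]
      have : kap 2 = 2 := by decide
      rw [this]
      ring
    rw [e2, eps_add_two, eps_neg]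
  · rw [if_neg hz, if_neg fun hz' => hz ((dual_ZS Q L h).1 hz'), neg_zero]

/-- corners of the dual 4-face -/
theorem Sq4.dual_c {j : Fin 3} {b₁ b₂ : B} (Q : Sq4 X j b₁ b₂) (L : Lab X V) :
    L.dual.c (-j) (X.e (j + 2) b₁) = L.c j b₁ ∧
    L.dual.c (-j + 1) (X.e (j + 2) b₁) = L.c (j + 2) b₂ ∧
    L.dual.c (-j + 1) (X.e (j + 2) b₂) = L.c (j + 2) b₁ ∧
    L.dual.c (-j + 2) (X.e (j + 2) b₁) = L.c (j + 1) b₁ ∧
    L.dual.c (-j + 2) (X.e (j + 2) b₂) = L.c (j + 1) b₂ := Q.dual_c' L

end Vale.Agent.P039.Sk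
end

section

/-! Smaller webs exist. -/

namespace Vale.Agent.P039.Sk

variable {B W V B' W' : Type}

variable [DecidableEq B] [DecidableEq W]

theorem Sq4.exists_rel {Y : Web B W} {j : Fin 3} {b₁ b₂ : B} (Q : Sq4 Y j b₁ b₂) :
    ∃ X : Web {b : B // b ≠ b₁ ∧ b ≠ b₂} {w : W // w ≠ Y.e (j + 2) b₁ ∧ w ≠ Y.e (j + 2) b₂},
      SqRel Y X Subtype.val Subtype.val j b₁ b₂ := by
  classical
  set w1 := Y.e (j + 2) b₁ with hw1
  set w2 := Y.e (j + 2) b₂ with hw2
  have hww : w1 ≠ w2 := fun h => Q.ne ((Y.e (j + 2)).injective h)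
  have hjj : Y.e j b₁ ≠ Y.e j b₂ := fun h => Q.ne ((Y.e j).injective h)
  have n11 : Y.e j b₁ ≠ w1 := Q.n11
  have n12 : Y.e j b₁ ≠ w2 := Q.n12
  have n21 : Y.e j b₂ ≠ w1 := Q.n21
  have n22 : Y.e j b₂ ≠ w2 := Q.n22
  let σ : B ≃ W := ((Y.e j).trans (Equiv.swap w1 (Y.e j b₂))).trans (Equiv.swap w2 (Y.e j b₁))
  have hσ : ∀ b, σ b = Equiv.swap w2 (Y.e j b₁) (Equiv.swap w1 (Y.e j b₂) (Y.e j b)) :=
    fun b => rfl
  have hσ1 : σ b₁ = w2 := by
    rw [hσ, Equiv.swap_apply_of_ne_of_ne n11 hjj, Equiv.swap_apply_right]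
  have hσ2 : σ b₂ = w1 := by
    rw [hσ, Equiv.swap_apply_right, Equiv.swap_apply_of_ne_of_ne hww n11.symm]
  let e' : Fin 3 → (B ≃ W) := Function.update Y.e j σ
  have hej : e' j = σ := Function.update_self _ _ _
  have hei : ∀ i, i ≠ j → e' i = Y.e i := fun i hi => Function.update_of_ne hi _ _
  have H : ∀ i a, (a ≠ b₁ ∧ a ≠ b₂) ↔ (e' i a ≠ w1 ∧ e' i a ≠ w2) := by
    intro i a
    rcases fcase i j with rfl | rfl | rfl
    · rw [hej]
      constructor
      · rintro ⟨h1, h2⟩
        exact ⟨fun h => h2 (σ.injective (h.trans hσ2.symm)),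
          fun h => h1 (σ.injective (h.trans hσ1.symm))⟩
      · rintro ⟨h1, h2⟩
        exact ⟨fun h => h2 (h ▸ hσ1), fun h => h1 (h ▸ hσ2)⟩
    · rw [hei _ (fne1 j)]
      constructor
      · rintro ⟨h1, h2⟩
        exact ⟨fun h => h2 ((Y.e (j + 1)).injective (h.trans Q.face.symm)),
          fun h => h1 ((Y.e (j + 1)).injective (h.trans Q.face'.symm))⟩
      · rintro ⟨h1, h2⟩
        exact ⟨fun h => h2 (h ▸ Q.face'), fun h => h1 (h ▸ Q.face)⟩
    · rw [hei _ (fne2 j)]
      constructor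
      · rintro ⟨h1, h2⟩
        exact ⟨fun h => h1 ((Y.e (j + 2)).injective h), fun h => h2 ((Y.e (j + 2)).injective h)⟩
      · rintro ⟨h1, h2⟩
        exact ⟨fun h => h1 (h ▸ rfl), fun h => h2 (h ▸ rfl)⟩
  let X : Web {b : B // b ≠ b₁ ∧ b ≠ b₂} {w : W // w ≠ w1 ∧ w ≠ w2} :=
    ⟨fun i => (e' i).subtypeEquiv (H i)⟩
  have hX : ∀ i b, ((X.e i b : {w : W // w ≠ w1 ∧ w ≠ w2}) : W) = e' i b.1 := fun i b => rfl
  refine ⟨X, ?_⟩
  exact
  { fi := Subtype.val_injective
    gi := Subtype.val_injective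
    ne := Q.ne
    fr := fun b => ⟨fun ⟨b', hb⟩ => hb ▸ b'.2, fun h => ⟨⟨b, h⟩, rfl⟩⟩
    gr := fun w => ⟨fun ⟨w', hw⟩ => hw ▸ w'.2, fun h => ⟨⟨w, h⟩, rfl⟩⟩
    face := Q.face
    face' := Q.face'
    o1 := ⟨⟨Y.e j b₁, n11, n12⟩, rfl⟩
    o2 := ⟨⟨Y.e j b₂, n21, n22⟩, rfl⟩
    other := fun i hi b => by rw [hX, hei i hi]
    same := fun b h1 h2 => by
      have h3 : Y.e j b.1 ≠ Y.e j b₂ := fun h => b.2.2 ((Y.e j).injective h)
      have h4 : Y.e j b.1 ≠ Y.e j b₁ := fun h => b.2.1 ((Y.e j).injective h)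
      rw [hX, hej, hσ, Equiv.swap_apply_of_ne_of_ne h1 h3, Equiv.swap_apply_of_ne_of_ne h2 h4]
    out1 := fun b h => by
      rw [hX, hej, hσ, h, Equiv.swap_apply_left, Equiv.swap_apply_of_ne_of_ne n22 hjj.symm]
    out2 := fun b h => by
      rw [hX, hej, hσ, h, Equiv.swap_apply_of_ne_of_ne hww.symm n22.symm, Equiv.swap_apply_left] }

theorem exists_dg {Y : Web B W} {j : Fin 3} {b : B} (hf : Y.e (j + 1) b = Y.e (j + 2) b)
    (hne : Y.e j b ≠ Y.e (j + 2) b) :
    ∃ X : Web {a : B // a ≠ b} {w : W // w ≠ Y.e (j + 2) b},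
      DgRel Y X Subtype.val Subtype.val j b := by
  classical
  set w := Y.e (j + 2) b with hw
  let σ : B ≃ W := (Y.e j).trans (Equiv.swap w (Y.e j b))
  have hσ : ∀ a, σ a = Equiv.swap w (Y.e j b) (Y.e j a) := fun a => rfl
  have hσ1 : σ b = w := by rw [hσ, Equiv.swap_apply_right]
  let e' : Fin 3 → (B ≃ W) := Function.update Y.e j σ
  have hej : e' j = σ := Function.update_self _ _ _
  have hei : ∀ i, i ≠ j → e' i = Y.e i := fun i hi => Function.update_of_ne hi _ _
  have hb : ∀ i, e' i b = w := by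
    intro i
    rcases fcase i j with rfl | rfl | rfl
    · rw [hej]; exact hσ1
    · rw [hei _ (fne1 j)]; exact hf
    · rw [hei _ (fne2 j)]
  have H : ∀ i a, a ≠ b ↔ e' i a ≠ w := by
    intro i a
    constructor
    · exact fun h h' => h ((e' i).injective (h'.trans (hb i).symm))
    · exact fun h h' => h (h' ▸ hb i)
  let X : Web {a : B // a ≠ b} {x : W // x ≠ w} := ⟨fun i => (e' i).subtypeEquiv (H i)⟩
  have hX : ∀ i a, ((X.e i a : {x : W // x ≠ w}) : W) = e' i a.1 := fun i a => rfl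
  refine ⟨X, ?_⟩
  exact
  { fi := Subtype.val_injective
    gi := Subtype.val_injective
    fr := fun b => ⟨fun ⟨b', hb⟩ => hb ▸ b'.2, fun h => ⟨⟨b, h⟩, rfl⟩⟩
    gr := fun w => ⟨fun ⟨w', hw⟩ => hw ▸ w'.2, fun h => ⟨⟨w, h⟩, rfl⟩⟩
    face := hf
    out := ⟨⟨Y.e j b, hne⟩, rfl⟩
    other := fun i hi a => by rw [hX, hei i hi]
    same := fun a h1 => by
      have h3 : Y.e j a.1 ≠ Y.e j b := fun h => a.2 ((Y.e j).injective h)
      rw [hX, hej, hσ, Equiv.swap_apply_of_ne_of_ne h1 h3]
    out1 := fun a h => by rw [hX, hej, hσ, h, Equiv.swap_apply_left] }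

end Vale.Agent.P039.Sk
end

section

/-! The matching edges form a forest. -/

namespace Vale.Agent.P039.Sk

variable {B W V B' W' : Type}

/-- parity of a height -/
def par : ZMod 12 →+* ZMod 2 := ZMod.castHom (by decide) (ZMod 2)

theorem par_add_one {a b : ZMod 12} (h : a = b + 1) : par a ≠ par b := by
  subst h; revert b; decide

theorem par_two {a b c : ZMod 12} (h : par a ≠ par b) : par c = par a ∨ par c = par b := by
  generalize par a = x at *
  generalize par b = y at *
  generalize par c = z at *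
  revert x y z; decide

section rel
variable {X : Web B W}

/-- the matching edges as edges between the faces on their two sides -/
def Lab.MR (L : Lab X V) (h : V → ZMod 12) (x y : V) : Prop :=
  ∃ i b, h (L.c (i + 2) b) = h (L.c (i + 1) b) - 2 ∧ x = L.c (i + 1) b ∧ y = L.c (i + 2) b

/-- corners of a vertex -/
def Lab.cor (L : Lab X V) : B ⊕ W → Fin 3 → V
  | Sum.inl b, j => L.c j b
  | Sum.inr w, j => L.c j ((X.e (j + 1)).symm w)

theorem Lab.cor_inr (L : Lab X V) (i : Fin 3) (b : B) :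
    L.cor (Sum.inr (X.e i b)) (i + 1) = L.c (i + 1) b ∧
    L.cor (Sum.inr (X.e i b)) (i + 2) = L.c (i + 2) b := by
  constructor
  · show L.c (i + 1) ((X.e (i + 1 + 1)).symm (X.e i b)) = L.c (i + 1) b
    apply L.step
    rw [Equiv.apply_symm_apply, f12]
  · show L.c (i + 2) ((X.e (i + 2 + 1)).symm (X.e i b)) = L.c (i + 2) b
    rw [f21, Equiv.symm_apply_apply]

/-- every edge at `x` comes from a black vertex -/
theorem Lab.cor_edge (L : Lab X V) (x : B ⊕ W) (i : Fin 3) :
    ∃ b, L.cor x (i + 1) = L.c (i + 1) b ∧ L.cor x (i + 2) = L.c (i + 2) b := by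
  rcases x with b | w
  · exact ⟨b, rfl, rfl⟩
  · refine ⟨(X.e i).symm w, ?_⟩
    have := L.cor_inr i ((X.e i).symm w)
    rwa [Equiv.apply_symm_apply] at this

theorem Lab.cor_adj (L : Lab X V) {h : V → ZMod 12} (hv : L.Valid h) (x : B ⊕ W) (i : Fin 3)
    (hp : par (h (L.cor x (i + 1))) = par (h (L.cor x (i + 2)))) :
    L.MR h (L.cor x (i + 1)) (L.cor x (i + 2)) := by
  obtain ⟨b, e1, e2⟩ := L.cor_edge x i
  rw [e1, e2] at hp ⊢
  rcases hv i b with h1 | h1
  · exact absurd hp.symm (par_add_one h1)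
  · exact ⟨i, b, h1, rfl, rfl⟩

/-- corners of the same vertex and the same parity -/
theorem Lab.cor_refl (L : Lab X V) {h : V → ZMod 12} (hv : L.Valid h) (x : B ⊕ W) (i j : Fin 3)
    (hp : par (h (L.cor x i)) = par (h (L.cor x j))) :
    Relation.EqvGen (L.MR h) (L.cor x i) (L.cor x j) := by
  rcases fcase j i with e | e | e
  · rw [e]; exact Relation.EqvGen.refl _
  · subst e
    have := L.cor_adj hv x (i + 2)
    rw [f21, f22] at this
    exact Relation.EqvGen.rel _ _ (this hp)
  · subst e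
    have := L.cor_adj hv x (i + 1)
    rw [f11, f12] at this
    exact Relation.EqvGen.symm _ _ (Relation.EqvGen.rel _ _ (this hp.symm))

/-- every vertex has corners of both parities -/
theorem Lab.cor_par (L : Lab X V) {h : V → ZMod 12} (hv : L.Valid h) (x : B ⊕ W) (a : ZMod 2) :
    ∃ i, par (h (L.cor x i)) = a := by
  by_contra hn
  push Not at hn
  have h2 : ∀ s t u : ZMod 2, s ≠ u → t ≠ u → s = t := by decide
  have key : ∀ i j, par (h (L.cor x i)) = par (h (L.cor x j)) :=
    fun i j => h2 _ _ a (hn i) (hn j)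
  have hd : ∀ i, h (L.cor x (i + 2)) = h (L.cor x (i + 1)) - 2 := by
    intro i
    obtain ⟨b, e1, e2⟩ := L.cor_edge x i
    have k := key (i + 2) (i + 1)
    rw [e1, e2] at k ⊢
    rcases hv i b with h1 | h1
    · exact absurd k (par_add_one h1)
    · exact h1
  have d0 := hd 0
  have d1 := hd 1
  have d2 := hd 2
  have e1 : (1 : Fin 3) + 2 = 0 := by decide
  have e2 : (1 : Fin 3) + 1 = 2 := by decide
  have e3 : (2 : Fin 3) + 2 = 1 := by decide
  have e4 : (2 : Fin 3) + 1 = 0 := by decide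
  rw [zero_add, zero_add] at d0
  rw [e1, e2] at d1
  rw [e3, e4] at d2
  rw [d0, d2] at d1
  generalize h (L.cor x 0) = y at d1
  revert y; decide

/-- corners of the same parity of two vertices lie in one component -/
theorem Lab.cor_conn (L : Lab X V) {h : V → ZMod 12} (hv : L.Valid h) {x y : B ⊕ W}
    (hxy : Relation.EqvGen (L.HE h) x y) : ∀ i j, par (h (L.cor x i)) = par (h (L.cor y j)) →
    Relation.EqvGen (L.MR h) (L.cor x i) (L.cor y j) := by
  induction hxy with
  | rel x y hr =>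
    obtain ⟨k, b, hk, rfl, rfl⟩ := hr
    intro i j hp
    obtain ⟨c1, c2⟩ := L.cor_inr k b
    -- the shared corners
    have sh : ∀ t, t ≠ k → L.cor (Sum.inr (X.e k b)) t = L.cor (Sum.inl b) t := by
      intro t ht
      rcases fcase t k with e | e | e
      · exact absurd e ht
      · rw [e]; exact c1
      · rw [e]; exact c2
    obtain ⟨t, ht, hpt⟩ : ∃ t, t ≠ k ∧ par (h (L.cor (Sum.inl b) t)) =
        par (h (L.cor (Sum.inl b) i)) := by
      have hne := par_add_one hk
      rcases par_two (c := h (L.cor (Sum.inl b) i)) hne with e | e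
      · exact ⟨k + 2, fne2 k, e.symm⟩
      · exact ⟨k + 1, fne1 k, e.symm⟩
    refine Relation.EqvGen.trans _ _ _ (L.cor_refl hv _ i t hpt.symm) ?_
    rw [← sh t ht]
    apply L.cor_refl hv
    rw [sh t ht, hpt, hp]
  | refl x => exact L.cor_refl hv x
  | symm x y _ ih => intro i j hp; exact Relation.EqvGen.symm _ _ (ih j i hp.symm)
  | trans x y z _ _ ih1 ih2 =>
    intro i j hp
    obtain ⟨k, hk⟩ := L.cor_par hv y (par (h (L.cor x i)))
    exact Relation.EqvGen.trans _ _ _ (ih1 i k hk.symm) (ih2 k j (hk.trans hp))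

theorem Lab.mr_of_par (L : Lab X V) {h : V → ZMod 12} (hs : L.Sol h) (v v' : V)
    (hp : par (h v) = par (h v')) : Relation.EqvGen (L.MR h) v v' := by
  obtain ⟨j, b, rfl⟩ := L.surj v
  obtain ⟨j', b', rfl⟩ := L.surj v'
  exact L.cor_conn hs.1 (hs.2 (Sum.inl b) (Sum.inl b')) j j' hp

/-- the matching colour at a black vertex is unique -/
theorem Lab.mcol_unique (L : Lab X V) {h : V → ZMod 12} (hv : L.Valid h) {b : B} {i i' : Fin 3}
    (h1 : h (L.c (i + 2) b) = h (L.c (i + 1) b) - 2)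
    (h2 : h (L.c (i' + 2) b) = h (L.c (i' + 1) b) - 2) : i' = i := by
  have aux : ∀ x y z : ZMod 12, y = x - 2 → z = y - 2 → (x = z + 1 ∨ x = z - 2) → False := by
    decide
  rcases fcase i' i with e | e | e
  · exact e
  · exfalso
    subst e
    rw [f12, f11] at h2
    have h3 := hv (i + 2) b
    rw [f22, f21] at h3
    exact aux _ _ _ h1 h2 h3
  · exfalso
    subst e
    rw [f22, f21] at h2
    have h3 := hv (i + 1) b
    rw [f12, f11] at h3
    exact aux _ _ _ h2 h1 h3

theorem Lab.exists_mcol (L : Lab X V) {h : V → ZMod 12} (hv : L.Valid h) (b : B) :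
    ∃ i, h (L.c (i + 2) b) = h (L.c (i + 1) b) - 2 := by
  by_contra hn
  push Not at hn
  have hd : ∀ i, h (L.c (i + 2) b) = h (L.c (i + 1) b) + 1 := by
    intro i
    rcases hv i b with h1 | h1
    · exact h1
    · exact absurd h1 (hn i)
  have d0 := hd 0
  have d1 := hd 1
  have d2 := hd 2
  have e1 : (1 : Fin 3) + 2 = 0 := by decide
  have e2 : (1 : Fin 3) + 1 = 2 := by decide
  have e3 : (2 : Fin 3) + 2 = 1 := by decide
  have e4 : (2 : Fin 3) + 1 = 0 := by decide
  rw [zero_add, zero_add] at d0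
  rw [e1, e2] at d1
  rw [e3, e4] at d2
  rw [d0, d2] at d1
  generalize h (L.c 0 b) = y at d1
  revert y; decide

end rel

variable {X : Web B W} [Fintype B] [Fintype V] [DecidableEq V]

theorem no_dup (L : Lab X V) (hc : Fintype.card V = Fintype.card B + 2) {h : V → ZMod 12}
    (hs : L.Sol h) {b b' : B} (hb : b ≠ b') {i i' : Fin 3}
    (h1 : h (L.c (i + 2) b) = h (L.c (i + 1) b) - 2)
    (h2 : h (L.c (i' + 2) b') = h (L.c (i' + 1) b') - 2)
    (e1 : L.c (i + 1) b = L.c (i' + 1) b') (e2 : L.c (i + 2) b = L.c (i' + 2) b') : False := by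
  classical
  choose mc hmc using L.exists_mcol hs.1
  -- two faces of different parity
  obtain ⟨k0, hk0⟩ := L.cor_par hs.1 (Sum.inl b) 0
  obtain ⟨k1, hk1⟩ := L.cor_par hs.1 (Sum.inl b) 1
  let φ : B → Sym2 V := fun β => s(L.c (mc β + 1) β, L.c (mc β + 2) β)
  let F : Finset (Sym2 V) := insert s(L.cor (Sum.inl b) k0, L.cor (Sum.inl b) k1)
    (Finset.univ.image φ)
  let G : SimpleGraph V := SimpleGraph.fromEdgeSet (F : Set (Sym2 V))
  have hφ : φ b = φ b' := by
    have m1 : i = mc b := L.mcol_unique hs.1 (hmc b) h1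
    have m2 : i' = mc b' := L.mcol_unique hs.1 (hmc b') h2
    simp only [φ]
    rw [← m1, ← m2, e1, e2]
  have hMR : ∀ x y, L.MR h x y → G.Reachable x y := by
    rintro x y ⟨k, β, hk, rfl, rfl⟩
    have m1 : k = mc β := L.mcol_unique hs.1 (hmc β) hk
    by_cases hxy : L.c (k + 1) β = L.c (k + 2) β
    · rw [hxy]
    · apply SimpleGraph.Adj.reachable
      rw [SimpleGraph.fromEdgeSet_adj]
      refine ⟨?_, hxy⟩
      simp only [F, Finset.coe_insert, Finset.coe_image, Finset.coe_univ, Set.image_univ]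
      right
      refine ⟨β, ?_⟩
      simp only [φ]
      rw [← m1]
  have hEq : ∀ x y, Relation.EqvGen (L.MR h) x y → G.Reachable x y := by
    intro x y hxy
    induction hxy with
    | rel x y hr => exact hMR x y hr
    | refl x => exact SimpleGraph.Reachable.refl x
    | symm x y _ ih => exact ih.symm
    | trans x y z _ _ ih1 ih2 => exact ih1.trans ih2
  have h01 : G.Reachable (L.cor (Sum.inl b) k0) (L.cor (Sum.inl b) k1) := by
    have hne : L.cor (Sum.inl b) k0 ≠ L.cor (Sum.inl b) k1 := by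
      intro he
      rw [he, hk1] at hk0
      exact absurd hk0 (by decide)
    apply SimpleGraph.Adj.reachable
    rw [SimpleGraph.fromEdgeSet_adj]
    exact ⟨by simp [F], hne⟩
  have hall : ∀ v, G.Reachable v (L.cor (Sum.inl b) k0) := by
    intro v
    have h2 : ∀ s : ZMod 2, s = 0 ∨ s = 1 := by decide
    rcases h2 (par (h v)) with e | e
    · exact hEq _ _ (L.mr_of_par hs _ _ (e.trans hk0.symm))
    · exact (hEq _ _ (L.mr_of_par hs _ _ (e.trans hk1.symm))).trans h01.symm
  have hconn : G.Connected := by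
    have : Nonempty V := ⟨L.cor (Sum.inl b) k0⟩
    exact ⟨fun x y => (hall x).trans (hall y).symm⟩
  have hle := hconn.card_vert_le_card_edgeSet_add_one
  have hsub : G.edgeSet ⊆ (F : Set (Sym2 V)) := by
    intro e he
    rw [SimpleGraph.edgeSet_fromEdgeSet] at he
    exact he.1
  have hcard : Nat.card G.edgeSet ≤ F.card := by
    have h6 := Nat.card_mono (Finset.finite_toSet F) hsub
    have h7 : Nat.card ((F : Set (Sym2 V))) = F.card := by simp
    omega
  have hF : F.card ≤ (Finset.univ.image φ).card + 1 := Finset.card_insert_le _ _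
  have himg : (Finset.univ.image φ).card + 1 ≤ Fintype.card B := by
    have hsub2 : Finset.univ.image φ ⊆ (Finset.univ.erase b).image φ := by
      intro e he
      rw [Finset.mem_image] at he ⊢
      obtain ⟨β, -, rfl⟩ := he
      by_cases hβ : β = b
      · exact ⟨b', by simp [hb.symm], by rw [hβ, hφ]⟩
      · exact ⟨β, by simp [hβ], rfl⟩
    have h3 := Finset.card_le_card hsub2
    have h4 : ((Finset.univ.erase b).image φ).card ≤ (Finset.univ.erase b).card :=
      Finset.card_image_le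
    have h5 : (Finset.univ.erase b).card + 1 = Fintype.card B := by
      rw [Finset.card_erase_of_mem (Finset.mem_univ b), Finset.card_univ]
      have : 0 < Fintype.card B := Fintype.card_pos_iff.mpr ⟨b⟩
      omega
    omega
  rw [Nat.card_eq_fintype_card] at hle
  omega

end Vale.Agent.P039.Sk
end

section

/-! The square rules. -/

namespace Vale.Agent.P039.Sk

variable {B W V B' W' : Type}

section local4
variable {X : Web B W} {j : Fin 3} {b₁ b₂ : B}

/-- the corners of the 4-face at its vertices -/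
theorem Sq4.cs (Q : Sq4 X j b₁ b₂) (L : Lab X V) : L.c j b₂ = L.c j b₁ :=
  L.step j b₁ b₂ Q.face

/-- the edge of colour `j` at `w₁` -/
theorem Sq4.cβ₁ (Q : Sq4 X j b₁ b₂) (L : Lab X V) {β : B} (hβ : X.e j β = X.e (j + 2) b₁) :
    L.c (j + 1) β = L.c (j + 1) b₁ ∧ L.c (j + 2) β = L.c (j + 2) b₂ := by
  constructor
  · symm
    apply L.step
    rw [f11, f12, hβ]
  · apply L.step
    rw [f21, f22, Q.face, hβ]

/-- the edge of colour `j` at `w₂` -/
theorem Sq4.cβ₂ (Q : Sq4 X j b₁ b₂) (L : Lab X V) {β : B} (hβ : X.e j β = X.e (j + 2) b₂) :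
    L.c (j + 1) β = L.c (j + 1) b₂ ∧ L.c (j + 2) β = L.c (j + 2) b₁ := by
  constructor
  · symm
    apply L.step
    rw [f11, f12, hβ]
  · apply L.step
    rw [f21, f22, Q.face', hβ]

/-- the seven possible patterns on the 4-face -/
theorem Sq4.pattern (Q : Sq4 X j b₁ b₂) (L : Lab X V) {h : V → ZMod 12} (hs : L.Sol h) :
    let x := h (L.c j b₁)
    let p := h (L.c (j + 1) b₁)
    let p' := h (L.c (j + 1) b₂)
    let q := h (L.c (j + 2) b₂)
    let q' := h (L.c (j + 2) b₁)
    (p = x + 1 ∧ p' = x + 1 ∧ q = x - 1 ∧ q' = x + 2) ∨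
    (p = x + 1 ∧ p' = x + 1 ∧ q = x + 2 ∧ q' = x - 1) ∨
    (p = x - 2 ∧ p' = x - 2 ∧ q = x - 1 ∧ q' = x - 1) ∨
    (p = x + 1 ∧ p' = x + 1 ∧ q = x + 2 ∧ q' = x + 2) ∨
    (p = x + 1 ∧ p' = x - 2 ∧ q = x - 1 ∧ q' = x - 1) ∨
    (p = x - 2 ∧ p' = x + 1 ∧ q = x - 1 ∧ q' = x - 1) := by
  intro x p p' q q'
  have cs := Q.cs L
  obtain ⟨u1, u2⟩ := Q.cβ₁ L (β := (X.e j).symm (X.e (j + 2) b₁)) (Equiv.apply_symm_apply _ _)
  obtain ⟨v1, v2⟩ := Q.cβ₂ L (β := (X.e j).symm (X.e (j + 2) b₂)) (Equiv.apply_symm_apply _ _)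
  -- colour j + 2 at b₁, b₂
  have a1 := hs.1 (j + 2) b₁
  have a2 := hs.1 (j + 2) b₂
  rw [f22, f21] at a1 a2
  rw [cs] at a2
  -- colour j + 1
  have a3 := hs.1 (j + 1) b₁
  have a4 := hs.1 (j + 1) b₂
  rw [f11, f12] at a3 a4
  rw [cs] at a4
  -- colour j
  have a5 := hs.1 j b₁
  have a6 := hs.1 j b₂
  have a7 := hs.1 j ((X.e j).symm (X.e (j + 2) b₁))
  have a8 := hs.1 j ((X.e j).symm (X.e (j + 2) b₂))
  rw [u1, u2] at a7
  rw [v1, v2] at a8
  -- the connected case
  have hno : ¬ (p = x + 1 ∧ p' = x + 1 ∧ q = x - 1 ∧ q' = x - 1) := by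
    rintro ⟨hp, hp', hq, hq'⟩
    have hinv : ∀ y z : B ⊕ W, Relation.EqvGen (L.HE h) y z →
        ((y = Sum.inl b₁ ∨ y = Sum.inl b₂ ∨ y = Sum.inr (X.e (j + 2) b₁) ∨
          y = Sum.inr (X.e (j + 2) b₂)) ↔
        (z = Sum.inl b₁ ∨ z = Sum.inl b₂ ∨ z = Sum.inr (X.e (j + 2) b₁) ∨
          z = Sum.inr (X.e (j + 2) b₂))) := by
      intro y z hyz
      induction hyz with
      | rel y z hr =>
        obtain ⟨i, b, hk, rfl, rfl⟩ := hr
        have aux : ∀ s t : ZMod 12, s = t - 1 → s = t + 1 + 1 → False := by decide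
        constructor
        · rintro (e | e | e | e)
          · have e := Sum.inl_injective e
            subst e
            rcases fcase i j with e | e | e
            · subst e
              exfalso
              exact aux _ _ hq' (hk.trans (by rw [← hp]))
            · subst e
              right; right; right
              rw [Q.face']
            · subst e
              right; right; left
              rfl
          · have e := Sum.inl_injective e
            subst e
            rcases fcase i j with e | e | e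
            · subst e
              exfalso
              exact aux _ _ hq (hk.trans (by rw [← hp']))
            · subst e
              right; right; left
              rw [Q.face]
            · subst e
              right; right; right
              rfl
          · exact absurd e (by simp)
          · exact absurd e (by simp)
        · rintro (e | e | e | e)
          · exact absurd e (by simp)
          · exact absurd e (by simp)
          · have e := Sum.inr_injective e
            rcases fcase i j with e' | e' | e'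
            · exfalso
              subst e'
              obtain ⟨c1, c2⟩ := Q.cβ₁ L e
              rw [c1, c2] at hk
              exact aux _ _ hq (hk.trans (by rw [← hp]))
            · subst e'
              right; left
              rw [← Q.face] at e
              rw [(X.e (j + 1)).injective e]
            · subst e'
              left
              rw [(X.e (j + 2)).injective e]
          · have e := Sum.inr_injective e
            rcases fcase i j with e' | e' | e'
            · exfalso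
              subst e'
              obtain ⟨c1, c2⟩ := Q.cβ₂ L e
              rw [c1, c2] at hk
              exact aux _ _ hq' (hk.trans (by rw [← hp']))
            · subst e'
              left
              rw [← Q.face'] at e
              rw [(X.e (j + 1)).injective e]
            · subst e'
              right; left
              rw [(X.e (j + 2)).injective e]
      | refl y => exact Iff.rfl
      | symm y z _ ih => exact ih.symm
      | trans y z u _ _ ih1 ih2 => exact ih1.trans ih2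
    have := (hinv _ _ (hs.2 (Sum.inl b₁) (Sum.inr (X.e j b₁)))).1 (Or.inl rfl)
    rcases this with e | e | e | e
    · exact absurd e (by simp)
    · exact absurd e (by simp)
    · exact Q.n11 (Sum.inr_injective e)
    · exact Q.n12 (Sum.inr_injective e)
  have aux2 : ∀ x p p' q q' : ZMod 12, (p = x + 1 ∨ p = x - 2) → (p' = x + 1 ∨ p' = x - 2) →
      (x = q' + 1 ∨ x = q' - 2) → (x = q + 1 ∨ x = q - 2) →
      (q' = p + 1 ∨ q' = p - 2) → (q = p' + 1 ∨ q = p' - 2) →
      (q = p + 1 ∨ q = p - 2) → (q' = p' + 1 ∨ q' = p' - 2) →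
      ¬ (p = x + 1 ∧ p' = x + 1 ∧ q = x - 1 ∧ q' = x - 1) →
      (p = x + 1 ∧ p' = x + 1 ∧ q = x - 1 ∧ q' = x + 2) ∨
      (p = x + 1 ∧ p' = x + 1 ∧ q = x + 2 ∧ q' = x - 1) ∨
      (p = x - 2 ∧ p' = x - 2 ∧ q = x - 1 ∧ q' = x - 1) ∨
      (p = x + 1 ∧ p' = x + 1 ∧ q = x + 2 ∧ q' = x + 2) ∨
      (p = x + 1 ∧ p' = x - 2 ∧ q = x - 1 ∧ q' = x - 1) ∨
      (p = x - 2 ∧ p' = x + 1 ∧ q = x - 1 ∧ q' = x - 1) := by
    intro x p p' q q' k1 k2 k3 k4 k5 k6 k7 k8 k9
    have k3' : q' = x - 1 ∨ q' = x + 2 := by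
      rcases k3 with k3 | k3
      · left; rw [k3]; ring
      · right; rw [k3]; ring
    have k4' : q = x - 1 ∨ q = x + 2 := by
      rcases k4 with k4 | k4
      · left; rw [k4]; ring
      · right; rw [k4]; ring
    clear k3 k4
    rcases k1 with rfl | rfl <;> rcases k2 with rfl | rfl <;> rcases k3' with rfl | rfl <;>
      rcases k4' with rfl | rfl <;> revert x <;> decide
  exact aux2 x p p' q q' a1 a2 a3 a4 a5 a6 a7 a8 hno

end local4

variable {X : Web B W} [Fintype B] [Fintype W] [Fintype V] [DecidableEq V] {j : Fin 3} {b₁ b₂ : B}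

/-- every solution has exactly one of the two types -/
theorem type12 (Q : Sq4 X j b₁ b₂) (L : Lab X V) {h : V → ZMod 12} (hs : L.Sol h) :
    (L.type1 j b₁ b₂ h ∧ ¬ L.type2 j b₁ b₂ h) ∨ (¬ L.type1 j b₁ b₂ h ∧ L.type2 j b₁ b₂ h) := by
  have hp := Q.pattern L hs
  simp only at hp
  unfold Lab.type1 Lab.type2
  generalize h (L.c j b₁) = x at *
  generalize h (L.c (j + 1) b₁) = p at *
  generalize h (L.c (j + 1) b₂) = p' at *
  generalize h (L.c (j + 2) b₂) = q at *
  generalize h (L.c (j + 2) b₁) = q' at *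
  rcases hp with ⟨rfl, rfl, rfl, rfl⟩ | ⟨rfl, rfl, rfl, rfl⟩ | ⟨rfl, rfl, rfl, rfl⟩ |
    ⟨rfl, rfl, rfl, rfl⟩ | ⟨rfl, rfl, rfl, rfl⟩ | ⟨rfl, rfl, rfl, rfl⟩ <;> revert x <;> decide

theorem S_eq_T1_add_T2 (Q : Sq4 X j b₁ b₂) (L : Lab X V) (m : V → ZMod 4) :
    L.S m = L.T1 j b₁ b₂ m + L.T2 j b₁ b₂ m := by
  classical
  unfold Lab.S Lab.T1 Lab.T2
  rw [← Finset.sum_add_distrib]
  refine Finset.sum_congr (Finset.ext fun _ => by simp) fun h _ => ?_
  by_cases hs : L.Sol h
  · rcases type12 Q L hs with ⟨t1, t2⟩ | ⟨t1, t2⟩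
    · rw [if_pos hs, if_pos ⟨hs, t1⟩, if_neg (fun e => t2 e.2), add_zero]
    · rw [if_pos hs, if_neg (fun e => t1 e.2), if_pos ⟨hs, t2⟩, zero_add]
  · rw [if_neg hs, if_neg (fun e => hs e.1), if_neg (fun e => hs e.1), add_zero]

/-- `q = q'`: all solutions have type 1 and there is no mono contribution (given `p ≠ p'`) -/
theorem T2_zero (Q : Sq4 X j b₁ b₂) (L : Lab X V) (hc : Fintype.card V = Fintype.card B + 2)
    (hq : L.c (j + 2) b₁ = L.c (j + 2) b₂) (m : V → ZMod 4) : L.T2 j b₁ b₂ m = 0 := by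
  classical
  unfold Lab.T2
  refine Finset.sum_eq_zero fun h _ => ?_
  rw [if_neg]
  rintro ⟨hs, ht⟩
  have cs := Q.cs L
  have b1 : X.e j ((X.e j).symm (X.e (j + 2) b₁)) = X.e (j + 2) b₁ := Equiv.apply_symm_apply _ _
  have b2 : X.e j ((X.e j).symm (X.e (j + 2) b₂)) = X.e (j + 2) b₂ := Equiv.apply_symm_apply _ _
  generalize (X.e j).symm (X.e (j + 2) b₁) = β₁ at b1
  generalize (X.e j).symm (X.e (j + 2) b₂) = β₂ at b2
  obtain ⟨u1, u2⟩ := Q.cβ₁ L b1
  obtain ⟨v1, v2⟩ := Q.cβ₂ L b2
  have hp := Q.pattern L hs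
  simp only at hp
  have d1 : (x : ZMod 12) → x + 1 ≠ x - 2 := by decide
  have d2 : (x : ZMod 12) → x + 2 ≠ x - 1 := by decide
  rcases hp with ⟨e1, e2, e3, e4⟩ | ⟨e1, e2, e3, e4⟩ | ⟨e1, e2, e3, e4⟩ |
    ⟨e1, e2, e3, e4⟩ | ⟨e1, e2, e3, e4⟩ | ⟨e1, e2, e3, e4⟩
  · rw [hq, e3] at e4
    exact d2 _ e4.symm
  · rw [hq, e3] at e4
    exact d2 _ e4
  · have := ht.2
    rw [e1, e2, e4] at this
    generalize h (L.c j b₁) = x at this
    revert x; decide
  · -- colour j + 1 at b₁ and b₂
    refine no_dup L hc hs Q.ne (i := j + 1) (i' := j + 1) ?_ ?_ ?_ ?_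
    · rw [f11, f12, e4]; ring
    · rw [f11, f12, cs, e3]; ring
    · rw [f11, hq]
    · rw [f12, cs]
  · -- colour j at b₁ and β₁
    refine no_dup L hc hs (b := b₁) (b' := β₁) ?_ (i := j) (i' := j) ?_ ?_ ?_ ?_
    · rintro rfl; exact Q.n11 b1
    · rw [e1, e4]; ring
    · rw [u1, u2, e1, e3]; ring
    · rw [u1]
    · rw [u2, hq]
  · -- colour j at b₂ and β₂
    refine no_dup L hc hs (b := b₂) (b' := β₂) ?_ (i := j) (i' := j) ?_ ?_ ?_ ?_
    · rintro rfl; exact Q.n22 b2
    · rw [e2, e3]; ring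
    · rw [v1, v2, e2, e4]; ring
    · rw [v1]
    · rw [v2, hq]

theorem M1_zero (Q : Sq4 X j b₁ b₂) (L : Lab X V) (hc : Fintype.card V = Fintype.card B + 2)
    (hp : L.c (j + 1) b₁ ≠ L.c (j + 1) b₂)
    (hq : L.c (j + 2) b₁ = L.c (j + 2) b₂) (m : V → ZMod 4) (hm : m (L.c j b₁) = 0) :
    L.M1 j b₁ b₂ m = 0 := by
  classical
  obtain ⟨Z, R⟩ := Q.exists_rel
  obtain ⟨L', hL'⟩ := R.exists_lab L hp
  obtain ⟨β₁, β₂, hβ, h₁, h₂⟩ := R.betas
  rw [sum_mono R L hp L' hL' h₁ h₂ m hm]
  refine Finset.sum_eq_zero fun h _ => ?_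
  rw [if_neg]
  rintro ⟨hs, ht⟩
  have hcB := R.card_B
  have hcV := R.card_V L hp
  obtain ⟨a1, a2⟩ := R.c_β₁ L h₁
  obtain ⟨c1, c2⟩ := R.c_β₂ L h₂
  have n12 : ∀ a b : B, L.c (j + 2) a ≠ L.c (j + 1) b := fun a b e => fne21 j (L.cls _ _ _ _ e)
  refine no_dup L' (by omega) hs hβ ht.1 ht.2 ?_ ?_
  · apply Subtype.ext
    rw [hL', hL', a1, c1, if_neg hp, if_pos rfl]
  · apply Subtype.ext
    rw [hL', hL', a2, c2, if_neg (n12 _ _), if_neg (n12 _ _), hq]

theorem T1_zero (Q : Sq4 X j b₁ b₂) (L : Lab X V) (hc : Fintype.card V = Fintype.card B + 2)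
    (hp : L.c (j + 1) b₁ = L.c (j + 1) b₂) (m : V → ZMod 4) : L.T1 j b₁ b₂ m = 0 := by
  classical
  unfold Lab.T1
  refine Finset.sum_eq_zero fun h _ => ?_
  rw [if_neg]
  rintro ⟨hs, ht⟩
  have cs := Q.cs L
  have b1 : X.e j ((X.e j).symm (X.e (j + 2) b₁)) = X.e (j + 2) b₁ := Equiv.apply_symm_apply _ _
  have b2 : X.e j ((X.e j).symm (X.e (j + 2) b₂)) = X.e (j + 2) b₂ := Equiv.apply_symm_apply _ _
  generalize (X.e j).symm (X.e (j + 2) b₁) = β₁ at b1
  generalize (X.e j).symm (X.e (j + 2) b₂) = β₂ at b2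
  obtain ⟨u1, u2⟩ := Q.cβ₁ L b1
  obtain ⟨v1, v2⟩ := Q.cβ₂ L b2
  have hpt := Q.pattern L hs
  simp only at hpt
  have d1 : (x : ZMod 12) → x + 1 ≠ x - 2 := by decide
  rcases hpt with ⟨e1, e2, e3, e4⟩ | ⟨e1, e2, e3, e4⟩ | ⟨e1, e2, e3, e4⟩ |
    ⟨e1, e2, e3, e4⟩ | ⟨e1, e2, e3, e4⟩ | ⟨e1, e2, e3, e4⟩
  · -- colour j at b₂ and β₁
    refine no_dup L hc hs (b := b₂) (b' := β₁) ?_ (i := j) (i' := j) ?_ ?_ ?_ ?_
    · rintro rfl; exact Q.n21 b1
    · rw [e2, e3]; ring
    · rw [u1, u2, e1, e3]; ring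
    · rw [u1, hp]
    · rw [u2]
  · -- colour j at b₁ and β₂
    refine no_dup L hc hs (b := b₁) (b' := β₂) ?_ (i := j) (i' := j) ?_ ?_ ?_ ?_
    · rintro rfl; exact Q.n12 b2
    · rw [e1, e4]; ring
    · rw [v1, v2, e2, e4]; ring
    · rw [v1, hp]
    · rw [v2]
  · -- colour j + 2 at b₁ and b₂
    refine no_dup L hc hs Q.ne (i := j + 2) (i' := j + 2) ?_ ?_ ?_ ?_
    · rw [f22, f21, e1]
    · rw [f22, f21, cs, e2]
    · rw [f21, cs]
    · rw [f22, hp]
  · have := ht.2
    rw [e1, e3, e4] at this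
    generalize h (L.c j b₁) = x at this
    revert x; decide
  · rw [hp, e2] at e1
    exact d1 _ e1.symm
  · rw [hp, e2] at e1
    exact d1 _ e1

end Vale.Agent.P039.Sk
end

section

/-! The digon rules. -/

namespace Vale.Agent.P039.Sk

variable {B W V B' W' : Type}

section gen

variable {Y : Web B W} {j : Fin 3} {b : B}

theorem Lab.dg_edge (L : Lab Y V) (hu : ∀ b', L.c j b' = L.c j b → b' = b) :
    Y.e (j + 1) b = Y.e (j + 2) b := by
  have h := L.step j b ((Y.e (j + 1)).symm (Y.e (j + 2) b)) (by simp)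
  have h2 := hu _ h
  rw [Equiv.symm_apply_eq] at h2
  exact h2.symm

theorem Lab.dg_not_conn_of_closed {L : Lab Y V} {h : V → ZMod 12} (P : B ⊕ W → Prop)
    (hP : ∀ x y, L.HE h x y → (P x ↔ P y)) {x y : B ⊕ W} (hx : P x) (hy : ¬ P y) :
    ¬ L.Conn h := by
  intro hc
  have : ∀ x y, Relation.EqvGen (L.HE h) x y → (P x ↔ P y) := by
    intro x y hxy
    induction hxy with
    | rel x y h => exact hP x y h
    | refl x => exact Iff.rfl
    | symm x y _ ih => exact ih.symm
    | trans x y z _ _ ih1 ih2 => exact ih1.trans ih2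
  exact hy ((this x y (hc x y)).1 hx)

/-- the single edges at a digon are in the 2-factor -/
theorem Lab.dg_up {L : Lab Y V} (hf : Y.e (j + 1) b = Y.e (j + 2) b) (hN : ∃ b', b' ≠ b)
    {h : V → ZMod 12} (hc : L.Conn h) : h (L.c (j + 2) b) = h (L.c (j + 1) b) + 1 := by
  by_contra hne
  obtain ⟨b', hb'⟩ := hN
  refine Lab.dg_not_conn_of_closed (fun x => x = Sum.inl b ∨ x = Sum.inr (Y.e (j + 2) b)) ?_
    (x := Sum.inl b) (y := Sum.inl b') (Or.inl rfl) (by simp [hb']) hc
  rintro x y ⟨i, b1, h1, rfl, rfl⟩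
  simp only [Sum.inl.injEq, reduceCtorEq, or_false, false_or, Sum.inr.injEq]
  rcases fcase i j with hi | hi | hi
  · rw [hi] at h1
    constructor
    · intro hb
      rw [hb] at h1
      exact absurd h1 hne
    · intro h2
      rw [hi] at h2
      exfalso
      apply hne
      have s1 := L.step (j + 1) b1 b (by rw [f11, f12]; exact h2.symm)
      have s2 := L.step (j + 2) b b1 (by rw [f21, f22, h2, hf])
      rw [← s2, s1]
      exact h1
  · rw [hi, ← hf]
    exact ⟨fun hb => by rw [hb], fun h2 => (Y.e (j + 1)).injective h2⟩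
  · rw [hi]
    exact ⟨fun hb => by rw [hb], fun h2 => (Y.e (j + 2)).injective h2⟩

theorem dg_sum3 (g : Fin 3 → ZMod 4) (j : Fin 3) : ∑ k, g k = g j + g (j + 1) + g (j + 2) := by
  rw [Fin.sum_univ_three]
  fin_cases j
  · rfl
  · change g 0 + g 1 + g 2 = g 1 + g 2 + g 0
    ring
  · change g 0 + g 1 + g 2 = g 2 + g 0 + g 1
    ring

theorem dg_sum_split [Fintype B] [Fintype B'] {f : B' → B} (fi : Function.Injective f)
    (fr : ∀ b', (∃ a, f a = b') ↔ b' ≠ b) (G : B → ZMod 4) :
    ∑ b', G b' = G b + ∑ a, G (f a) := by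
  classical
  let o : Option B' ≃ B := Equiv.ofBijective (fun o => o.elim b f) (by
    constructor
    · rintro (_ | x) (_ | y) h
      · rfl
      · exact absurd h.symm ((fr _).1 ⟨y, rfl⟩)
      · exact absurd h ((fr _).1 ⟨x, rfl⟩)
      · exact congrArg some (fi h)
    · intro x
      by_cases hx : x = b
      · exact ⟨none, hx.symm⟩
      · obtain ⟨a, ha⟩ := (fr x).2 hx
        exact ⟨some a, ha⟩)
  rw [← o.sum_comp, Fintype.sum_option]
  rfl

variable [Fintype B] [Fintype V] [DecidableEq V]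

theorem Lab.dg_E_split [Fintype B'] (L : Lab Y V) {f : B' → B} (fi : Function.Injective f)
    (fr : ∀ b', (∃ a, f a = b') ↔ b' ≠ b) (m : V → ZMod 4) (h : V → ZMod 12) :
    L.E m h = (2 + m (L.c j b)) * kap (h (L.c j b)) - kap (h (L.c (j + 1) b))
      - kap (h (L.c (j + 2) b)) + (∑ v : {v : V // v ≠ L.c j b}, (3 + m v.1) * kap (h v.1)
      - ∑ a : B', ∑ k, kap (h (L.c k (f a)))) := by
  unfold Lab.E
  rw [dg_sum_split fi fr, Fintype.sum_eq_add_sum_subtype_ne _ (L.c j b),
    dg_sum3 (fun k => kap (h (L.c k b))) j]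
  ring

open Classical in
theorem Lab.S_eq_dg (L : Lab Y V) (m : V → ZMod 4) :
    L.S m = ∑ h : V → ZMod 12, if L.Sol h then eps (L.E m h) else 0 := by
  unfold Lab.S
  apply Finset.sum_congr _ (fun _ _ => rfl)
  ext x
  simp only [Finset.mem_univ]

end gen

variable {Y : Web B W} [Fintype B] [Fintype V] [DecidableEq V] {j : Fin 3} {b : B}

theorem dg_kap_two : kap 2 = 2 := by decide

theorem dg_four4 : (4 : ZMod 4) = 0 := by decide

/-- an unmarked digon: `b` is the only black vertex of the face `L.c j b` -/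
theorem S_digon (L : Lab Y V) (m : V → ZMod 4) (hm : m (L.c j b) = 0)
    (hu : ∀ b', L.c j b' = L.c j b → b' = b) (hN : ∃ b', b' ≠ b) : L.S m = 0 := by
  classical
  have hf := L.dg_edge hu
  have hvs : L.c (j + 2) b ≠ L.c j b := fun h => fne2 j (L.cls _ _ _ _ h)
  have hus : L.c (j + 1) b ≠ L.c j b := fun h => fne1 j (L.cls _ _ _ _ h)
  let σ : (V → ZMod 12) → (V → ZMod 12) := fun h =>
    Function.update h (L.c j b) (2 * h (L.c (j + 2) b) - 1 - h (L.c j b))
  have σs : ∀ h, σ h (L.c j b) = 2 * h (L.c (j + 2) b) - 1 - h (L.c j b) := fun h => by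
    simp [σ]
  have σne : ∀ h v, v ≠ L.c j b → σ h v = h v := fun h v hv => by
    simp [σ, hv]
  have hσ : ∀ h, σ (σ h) = h := by
    intro h
    funext v
    by_cases hv : v = L.c j b
    · rw [hv, σs, σs, σne _ _ hvs]
      ring
    · rw [σne _ _ hv, σne _ _ hv]
  have hSol : ∀ h, L.Sol h → L.Sol (σ h) := by
    rintro h ⟨hv, hc⟩
    have hup := Lab.dg_up hf hN hc
    have v1 := hv (j + 1) b
    rw [f12, f11] at v1
    have hd1 : h (L.c j b) = h (L.c (j + 2) b) + 1 →
        σ h (L.c j b) = h (L.c (j + 2) b) - 2 := by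
      intro h1
      rw [σs, h1]
      ring
    have hd2 : h (L.c j b) = h (L.c (j + 2) b) - 2 →
        σ h (L.c j b) = h (L.c (j + 2) b) + 1 := by
      intro h1
      rw [σs, h1]
      ring
    have hcls : ∀ k b1, L.c k b1 = L.c j b → k = j ∧ b1 = b := by
      intro k b1 h1
      have hk := L.cls _ _ _ _ h1
      rw [hk] at h1
      exact ⟨hk, hu _ h1⟩
    have key : ∀ i b1, ¬ (b1 = b ∧ i ≠ j) →
        σ h (L.c (i + 2) b1) = h (L.c (i + 2) b1) ∧ σ h (L.c (i + 1) b1) = h (L.c (i + 1) b1) := by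
      intro i b1 hib
      constructor
      · apply σne
        intro h1
        obtain ⟨hk, hb⟩ := hcls _ _ h1
        apply hib
        refine ⟨hb, fun hij => ?_⟩
        rw [hij] at hk
        exact fne2 j hk
      · apply σne
        intro h1
        obtain ⟨hk, hb⟩ := hcls _ _ h1
        apply hib
        refine ⟨hb, fun hij => ?_⟩
        rw [hij] at hk
        exact fne1 j hk
    constructor
    · intro i b1
      by_cases hib : b1 = b ∧ i ≠ j
      · obtain ⟨rfl, hij⟩ := hib
        rcases fcase i j with hi | hi | hi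
        · exact absurd hi hij
        · rw [hi, f12, f11, σne _ _ hvs]
          rcases v1 with h1 | h1
          · exact Or.inr (hd1 h1)
          · exact Or.inl (hd2 h1)
        · rw [hi, f22, f21, σne _ _ hus]
          rcases v1 with h1 | h1
          · left
            rw [hd1 h1, hup]
            ring
          · right
            rw [hd2 h1, hup]
            ring
      · rw [(key i b1 hib).1, (key i b1 hib).2]
        exact hv i b1
    · intro x y
      refine Relation.EqvGen.mono ?_ _ _ (hc x y)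
      rintro x y ⟨i, b1, h1, rfl, rfl⟩
      by_cases hib : b1 = b ∧ i ≠ j
      · obtain ⟨rfl, hij⟩ := hib
        rcases v1 with h2 | h2
        · -- new: edge j + 2
          refine ⟨j + 2, b1, ?_, rfl, ?_⟩
          · rw [f22, f21, σne _ _ hus, hd1 h2, hup]
            ring
          · rcases fcase i j with hi | hi | hi
            · exact absurd hi hij
            · rw [hi, hf]
            · rw [hi]
        · refine ⟨j + 1, b1, ?_, rfl, ?_⟩
          · rw [f12, f11, σne _ _ hvs, hd2 h2]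
          · rcases fcase i j with hi | hi | hi
            · exact absurd hi hij
            · rw [hi]
            · rw [hi, hf]
      · exact ⟨i, b1, by rw [(key i b1 hib).1, (key i b1 hib).2]; exact h1, rfl, rfl⟩
  have hE : ∀ h, L.Sol h → eps (L.E m (σ h)) = - eps (L.E m h) := by
    rintro h ⟨hv, hc⟩
    have v1 := hv (j + 1) b
    rw [f12, f11] at v1
    rw [L.dg_E_split (j := j) (b := b) (f := ((↑) : {a : B // a ≠ b} → B)) Subtype.val_injective
      (by simp) m (σ h), L.dg_E_split (j := j) (b := b) (f := ((↑) : {a : B // a ≠ b} → B))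
      Subtype.val_injective (by simp) m h]
    have e1 : ∑ v : {v : V // v ≠ L.c j b}, (3 + m v.1) * kap (σ h v.1) =
        ∑ v : {v : V // v ≠ L.c j b}, (3 + m v.1) * kap (h v.1) :=
      Finset.sum_congr rfl fun v _ => by rw [σne _ _ v.2]
    have e2 : ∑ a : {a : B // a ≠ b}, ∑ k, kap (σ h (L.c k a.1)) =
        ∑ a : {a : B // a ≠ b}, ∑ k, kap (h (L.c k a.1)) :=
      Finset.sum_congr rfl fun a _ => Finset.sum_congr rfl fun k _ => by
        rw [σne]
        intro h1
        have hk := L.cls _ _ _ _ h1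
        rw [hk] at h1
        exact a.2 (hu _ h1)
    rw [e1, e2, hm, σs, σne _ _ hus, σne _ _ hvs]
    rw [← eps_add_two]
    congr 1
    rcases v1 with h1 | h1
    · rw [h1, map_sub, map_sub, map_mul, dg_kap_two, map_add, map_one]
      linear_combination (-2 : ZMod 4) * dg_four4
    · rw [h1, map_sub, map_sub, map_mul, map_sub, dg_kap_two, map_one]
      linear_combination (1 : ZMod 4) * dg_four4
  have hmain : L.S m = - L.S m := by
    rw [Lab.S_eq_dg]
    rw [← Finset.sum_neg_distrib]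
    refine Fintype.sum_equiv (⟨σ, σ, hσ, hσ⟩ : (V → ZMod 12) ≃ (V → ZMod 12)) _ _ fun h => ?_
    change _ = - (if L.Sol (σ h) then eps (L.E m (σ h)) else 0)
    by_cases hs : L.Sol h
    · rw [if_pos hs, if_pos (hSol h hs), hE h hs, neg_neg]
    · rw [if_neg hs, if_neg (fun h1 => hs (by have := hSol _ h1; rwa [hσ] at this)), neg_zero]
  omega

/-- `Y` disconnected: the three edges of `b` are parallel -/
theorem S_isolated (L : Lab Y V) (m : V → ZMod 4) (h1 : Y.e (j + 1) b = Y.e j b)
    (h2 : Y.e (j + 2) b = Y.e j b) (hN : ∃ b', b' ≠ b) : L.S m = 0 := by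
  classical
  rw [Lab.S_eq_dg]
  refine Finset.sum_eq_zero fun h _ => if_neg ?_
  rintro ⟨-, hc⟩
  obtain ⟨b', hb'⟩ := hN
  refine Lab.dg_not_conn_of_closed (fun x => x = Sum.inl b ∨ x = Sum.inr (Y.e j b)) ?_
    (x := Sum.inl b) (y := Sum.inl b') (Or.inl rfl) (by simp [hb']) hc
  rintro x y ⟨i, b1, -, rfl, rfl⟩
  simp only [Sum.inl.injEq, reduceCtorEq, or_false, false_or, Sum.inr.injEq]
  have hi : Y.e j b = Y.e i b := by
    rcases fcase i j with hi | hi | hi
    · rw [hi]
    · rw [hi, h1]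
    · rw [hi, h2]
  rw [hi]
  exact ⟨fun hb => by rw [hb], fun h3 => (Y.e i).injective h3⟩

omit [Fintype B] [Fintype V] [DecidableEq V] in
/-- only `b` lies on the digon -/
theorem DgRel.only {X : Web B' W'} {f : B' → B} {g : W' → W} (R : DgRel Y X f g j b)
    (L : Lab Y V) {k : Fin 3} {b1 : B} (h : L.c k b1 = L.c j b) : k = j ∧ b1 = b := by
  have hk := L.cls _ _ _ _ h
  refine ⟨hk, ?_⟩
  rw [hk] at h
  have h1 := L.exact j b1 b h
  have key : ∀ x y, Relation.EqvGen (fun x y => Y.e (j + 1) y = Y.e (j + 2) x) x y →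
      (x = b ↔ y = b) := by
    intro x y hxy
    induction hxy with
    | rel x y h2 =>
      constructor
      · rintro rfl
        rw [← R.face] at h2
        exact (Y.e (j + 1)).injective h2
      · rintro rfl
        rw [R.face] at h2
        exact ((Y.e (j + 2)).injective h2).symm
    | refl x => exact Iff.rfl
    | symm x y _ ih => exact ih.symm
    | trans x y z _ _ ih1 ih2 => exact ih1.trans ih2
  exact (key _ _ h1).2 rfl

omit [Fintype B] [Fintype V] [DecidableEq V] in
theorem DgRel.exists_beta {X : Web B' W'} {f : B' → B} {g : W' → W} (R : DgRel Y X f g j b) :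
    ∃ β : B', Y.e j (f β) = Y.e (j + 2) b := by
  have h1 : Y.e j b ≠ Y.e (j + 2) b := (R.gr _).1 R.out
  have h2 : (Y.e j).symm (Y.e (j + 2) b) ≠ b := by
    intro h
    rw [Equiv.symm_apply_eq] at h
    exact h1 h.symm
  obtain ⟨β, hβ⟩ := (R.fr _).2 h2
  exact ⟨β, by rw [hβ, Equiv.apply_symm_apply]⟩

omit [Fintype B] [Fintype V] [DecidableEq V] in
theorem DgRel.c1 {X : Web B' W'} {f : B' → B} {g : W' → W} (R : DgRel Y X f g j b)
    (L : Lab Y V) {b1 : B} (hβ : Y.e j b1 = Y.e (j + 2) b) :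
    L.c (j + 1) b1 = L.c (j + 1) b :=
  (L.step (j + 1) b1 b (by rw [f11, f12, hβ])).symm

omit [Fintype B] [Fintype V] [DecidableEq V] in
theorem DgRel.c2 {X : Web B' W'} {f : B' → B} {g : W' → W} (R : DgRel Y X f g j b)
    (L : Lab Y V) {b1 : B} (hβ : Y.e j b1 = Y.e (j + 2) b) :
    L.c (j + 2) b1 = L.c (j + 2) b :=
  L.step (j + 2) b b1 (by rw [f21, f22, hβ, R.face])

theorem DgRel.exists_lab {X : Web B' W'} {f : B' → B} {g : W' → W} (R : DgRel Y X f g j b)
    (L : Lab Y V) :
    ∃ L' : Lab X {v : V // v ≠ L.c j b}, ∀ k a, ((L'.c k a : {v : V // v ≠ L.c j b}) : V) =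
      L.c k (f a) := by
  classical
  obtain ⟨β, hβ⟩ := R.exists_beta
  have hfb : ∀ a, f a ≠ b := fun a => (R.fr _).1 ⟨a, rfl⟩
  have hgw : ∀ z, g z ≠ Y.e (j + 2) b := fun z => (R.gr _).1 ⟨z, rfl⟩
  have hne : ∀ k a, L.c k (f a) ≠ L.c j b := fun k a h => hfb a (R.only L h).2
  have hb0 : Y.e j b ≠ Y.e (j + 2) b := (R.gr _).1 R.out
  -- collapse map
  have hπ : ∃ π : B → B', (∀ a, π (f a) = a) ∧ π b = β := by
    have h0 : ∀ b', ∃ a, (∀ a', b' = f a' → a = a') ∧ (b' = b → a = β) := by
      intro b'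
      by_cases hb : b' = b
      · exact ⟨β, fun a' h => absurd (h.symm.trans hb) (hfb a'), fun _ => rfl⟩
      · obtain ⟨a, ha⟩ := (R.fr _).2 hb
        exact ⟨a, fun a' h => R.fi (ha.trans h), fun h => absurd h hb⟩
    choose π h1 h2 using h0
    exact ⟨π, fun a => h1 _ _ rfl, h2 b rfl⟩
  obtain ⟨π, hπf, hπb⟩ := hπ
  have hrel : ∀ k x y, Y.e (k + 1) y = Y.e (k + 2) x →
      Relation.EqvGen (fun x y => X.e (k + 1) y = X.e (k + 2) x) (π x) (π y) := by
    intro k x y hxy
    rcases fcase k j with rfl | hk | hk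
    · -- k = j
      by_cases hx : x = b
      · rw [hx] at hxy ⊢
        rw [← R.face] at hxy
        rw [(Y.e (k + 1)).injective hxy]
        exact Relation.EqvGen.refl _
      · obtain ⟨a, rfl⟩ := (R.fr _).2 hx
        by_cases hy : y = b
        · rw [hy] at hxy ⊢
          rw [R.face] at hxy
          rw [(Y.e (k + 2)).injective hxy]
          exact Relation.EqvGen.refl _
        · obtain ⟨a', rfl⟩ := (R.fr _).2 hy
          rw [hπf, hπf]
          refine Relation.EqvGen.rel _ _ (R.gi ?_)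
          rw [← R.other _ (fne1 k), ← R.other _ (fne2 k)]
          exact hxy
    · -- k = j + 1
      rw [hk, f11, f12] at hxy ⊢
      by_cases hx : x = b
      · rw [hx] at hxy ⊢
        by_cases hy : y = b
        · rw [hy]
          exact Relation.EqvGen.refl _
        · obtain ⟨a', rfl⟩ := (R.fr _).2 hy
          rw [hπf, hπb]
          refine Relation.EqvGen.rel _ _ (R.gi ?_)
          rw [← R.other _ (fne2 j), R.out1 β hβ]
          exact hxy
      · obtain ⟨a, rfl⟩ := (R.fr _).2 hx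
        by_cases hy : y = b
        · rw [hy] at hxy ⊢
          rw [hπf, hπb]
          rw [← hβ] at hxy
          rw [R.fi ((Y.e j).injective hxy)]
          exact Relation.EqvGen.refl _
        · obtain ⟨a', rfl⟩ := (R.fr _).2 hy
          rw [hπf, hπf]
          refine Relation.EqvGen.rel _ _ (R.gi ?_)
          rw [R.other _ (fne2 j)] at hxy
          rw [hxy, R.same a]
          rw [← hxy]
          exact hgw _
    · -- k = j + 2
      rw [hk, f21, f22] at hxy ⊢
      by_cases hx : x = b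
      · rw [hx] at hxy ⊢
        by_cases hy : y = b
        · rw [hy]
          exact Relation.EqvGen.refl _
        · obtain ⟨a', rfl⟩ := (R.fr _).2 hy
          rw [hπf, hπb]
          rw [R.face, ← hβ] at hxy
          rw [R.fi ((Y.e j).injective hxy)]
          exact Relation.EqvGen.refl _
      · obtain ⟨a, rfl⟩ := (R.fr _).2 hx
        by_cases hy : y = b
        · rw [hy] at hxy ⊢
          rw [hπf, hπb]
          refine Relation.EqvGen.rel _ _ (R.gi ?_)
          rw [← R.other _ (fne1 j), R.out1 β hβ]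
          exact hxy
        · obtain ⟨a', rfl⟩ := (R.fr _).2 hy
          rw [hπf, hπf]
          refine Relation.EqvGen.rel _ _ (R.gi ?_)
          rw [R.other _ (fne1 j)] at hxy
          rw [← hxy, R.same a']
          rw [hxy]
          exact hgw _
  refine ⟨⟨fun k a => ⟨L.c k (f a), hne k a⟩, ?_, ?_, ?_, ?_⟩, fun k a => rfl⟩
  · -- step
    intro k a a' h
    apply Subtype.ext
    change L.c k (f a') = L.c k (f a)
    rcases fcase k j with rfl | hk | hk
    · apply L.step
      rw [R.other _ (fne1 k), R.other _ (fne2 k), h]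
    · rw [hk, f11, f12] at h
      rw [hk]
      by_cases hw : Y.e j (f a) = Y.e (j + 2) b
      · have h1 := R.out1 a hw
        rw [← h, ← R.other _ (fne2 j)] at h1
        rw [R.c1 L hw]
        apply L.step
        rw [f11, f12, h1]
      · apply L.step
        rw [f11, f12, R.other _ (fne2 j), R.same a hw, h]
    · rw [hk, f21, f22] at h
      rw [hk]
      by_cases hw : Y.e j (f a') = Y.e (j + 2) b
      · have h1 := R.out1 a' hw
        rw [h, ← R.other _ (fne1 j)] at h1
        rw [R.c2 L hw]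
        symm
        apply Eq.symm
        apply L.step
        rw [f21, f22, h1]
      · apply L.step
        rw [f21, f22, R.other _ (fne1 j), R.same a' hw, h]
  · -- exact
    intro k a a' h
    have h1 := L.exact k (f a) (f a') (Subtype.ext_iff.1 h)
    have key : ∀ x y, Relation.EqvGen (fun x y => Y.e (k + 1) y = Y.e (k + 2) x) x y →
        Relation.EqvGen (fun x y => X.e (k + 1) y = X.e (k + 2) x) (π x) (π y) := by
      intro x y hxy
      induction hxy with
      | rel x y h => exact hrel k x y h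
      | refl x => exact Relation.EqvGen.refl _
      | symm x y _ ih => exact Relation.EqvGen.symm _ _ ih
      | trans x y z _ _ ih1 ih2 => exact Relation.EqvGen.trans _ _ _ ih1 ih2
    have h2 := key _ _ h1
    rwa [hπf, hπf] at h2
  · -- cls
    intro k k' a a' h
    exact L.cls _ _ _ _ (Subtype.ext_iff.1 h)
  · -- surj
    rintro ⟨v, hv⟩
    obtain ⟨k, b', hb'⟩ := L.surj v
    by_cases hb : b' = b
    · rcases fcase k j with hk | hk | hk
      · exfalso
        apply hv
        rw [← hb', hb, hk]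
      · refine ⟨k, β, Subtype.ext ?_⟩
        change L.c k (f β) = v
        rw [← hb', hb, hk]
        exact R.c1 L hβ
      · refine ⟨k, β, Subtype.ext ?_⟩
        change L.c k (f β) = v
        rw [← hb', hb, hk]
        exact R.c2 L hβ
    · obtain ⟨a, ha⟩ := (R.fr _).2 hb
      refine ⟨k, a, Subtype.ext ?_⟩
      change L.c k (f a) = v
      rw [ha, hb']

/-- a height function of `Y` with `h v = h u + 1` is connected iff its restriction is -/
theorem DgRel.conn_iff {X : Web B' W'} {f : B' → B} {g : W' → W}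
    (R : DgRel Y X f g j b)
    (L : Lab Y V) (L' : Lab X {v : V // v ≠ L.c j b})
    (hL' : ∀ k a, ((L'.c k a : {v : V // v ≠ L.c j b}) : V) = L.c k (f a))
    (h : V → ZMod 12) (hup : h (L.c (j + 2) b) = h (L.c (j + 1) b) + 1)
    (hs : h (L.c j b) = h (L.c (j + 2) b) + 1 ∨ h (L.c j b) = h (L.c (j + 2) b) - 2) :
    L.Conn h ↔ L'.Conn (fun v => h v.1) := by
  classical
  obtain ⟨β, hβ⟩ := R.exists_beta
  have hfb : ∀ a, f a ≠ b := fun a => (R.fr _).1 ⟨a, rfl⟩
  have hgw : ∀ z, g z ≠ Y.e (j + 2) b := fun z => (R.gr _).1 ⟨z, rfl⟩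
  have hb0 : Y.e j b ≠ Y.e (j + 2) b := (R.gr _).1 R.out
  -- edges of the 2-factor at the digon
  have hupβ : h (L.c (j + 2) (f β)) = h (L.c (j + 1) (f β)) + 1 := by
    rw [R.c1 L hβ, R.c2 L hβ, hup]
  have eβ : L.HE h (Sum.inl (f β)) (Sum.inr (Y.e (j + 2) b)) := ⟨j, f β, hupβ, rfl, by rw [hβ]⟩
  have eb : L.HE h (Sum.inl b) (Sum.inr (Y.e j b)) := ⟨j, b, hup, rfl, rfl⟩
  have ebw : L.HE h (Sum.inl b) (Sum.inr (Y.e (j + 2) b)) := by
    rcases hs with hs | hs
    · exact ⟨j + 1, b, by rw [f12, f11, hs], rfl, by rw [R.face]⟩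
    · refine ⟨j + 2, b, ?_, rfl, rfl⟩
      rw [f22, f21, hs, hup]
      ring
  constructor
  · intro hc
    -- collapse map
    have hπ : ∃ π : B ⊕ W → B' ⊕ W', (∀ a, π (Sum.inl (f a)) = Sum.inl a) ∧
        (∀ z, π (Sum.inr (g z)) = Sum.inr z) ∧ π (Sum.inl b) = Sum.inl β ∧
        π (Sum.inr (Y.e (j + 2) b)) = Sum.inl β := by
      have h0 : ∀ b', ∃ a, (∀ a', b' = f a' → a = a') ∧ (b' = b → a = β) := by
        intro b'
        by_cases hb : b' = b
        · exact ⟨β, fun a' h => absurd (h.symm.trans hb) (hfb a'), fun _ => rfl⟩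
        · obtain ⟨a, ha⟩ := (R.fr _).2 hb
          exact ⟨a, fun a' h => R.fi (ha.trans h), fun h => absurd h hb⟩
      have h00 : ∀ w : W, ∃ x : B' ⊕ W', (∀ z, w = g z → x = Sum.inr z) ∧
          (w = Y.e (j + 2) b → x = Sum.inl β) := by
        intro w
        by_cases hb : w = Y.e (j + 2) b
        · exact ⟨Sum.inl β, fun z h => absurd (h.symm.trans hb) (hgw z), fun _ => rfl⟩
        · obtain ⟨z, hz⟩ := (R.gr _).2 hb
          exact ⟨Sum.inr z, fun z' h => by rw [R.gi (hz.trans h)], fun h => absurd h hb⟩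
      choose π h1 h2 using h0
      choose ϖ h3 h4 using h00
      refine ⟨Sum.elim (fun x => Sum.inl (π x)) ϖ, fun a => ?_, fun z => ?_, ?_, ?_⟩
      · rw [Sum.elim_inl, h1 _ _ rfl]
      · rw [Sum.elim_inr, h3 _ _ rfl]
      · rw [Sum.elim_inl, h2 _ rfl]
      · rw [Sum.elim_inr, h4 _ rfl]
    obtain ⟨π, hπf, hπg, hπb, hπw⟩ := hπ
    have hX : L'.HE (fun v => h v.1) (Sum.inl β) (Sum.inr (X.e j β)) := by
      refine ⟨j, β, ?_, rfl, rfl⟩
      change h (L'.c (j + 2) β).1 = h (L'.c (j + 1) β).1 + 1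
      rw [hL', hL', hupβ]
    have step : ∀ x y, L.HE h x y →
        Relation.EqvGen (L'.HE (fun v => h v.1)) (π x) (π y) := by
      rintro x y ⟨i, b1, h1, rfl, rfl⟩
      by_cases hb1 : b1 = b
      · rw [hb1, hπb]
        rcases fcase i j with hi | hi | hi
        · rw [hi, ← R.out1 β hβ, hπg]
          exact Relation.EqvGen.rel _ _ hX
        · rw [hi, R.face, hπw]
          exact Relation.EqvGen.refl _
        · rw [hi, hπw]
          exact Relation.EqvGen.refl _
      · obtain ⟨a, rfl⟩ := (R.fr _).2 hb1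
        rw [hπf]
        have hXa : L'.HE (fun v => h v.1) (Sum.inl a) (Sum.inr (X.e i a)) := by
          refine ⟨i, a, ?_, rfl, rfl⟩
          change h (L'.c (i + 2) a).1 = h (L'.c (i + 1) a).1 + 1
          rw [hL', hL', h1]
        by_cases hi : i = j
        · by_cases hw : Y.e j (f a) = Y.e (j + 2) b
          · rw [hi, hw, hπw]
            rw [← hβ] at hw
            rw [R.fi ((Y.e j).injective hw)]
            exact Relation.EqvGen.refl _
          · rw [hi] at hXa
            rw [hi, R.same a hw, hπg]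
            exact Relation.EqvGen.rel _ _ hXa
        · rw [R.other i hi, hπg]
          exact Relation.EqvGen.rel _ _ hXa
    have key : ∀ x y, Relation.EqvGen (L.HE h) x y →
        Relation.EqvGen (L'.HE (fun v => h v.1)) (π x) (π y) := by
      intro x y hxy
      induction hxy with
      | rel x y h => exact step x y h
      | refl x => exact Relation.EqvGen.refl _
      | symm x y _ ih => exact Relation.EqvGen.symm _ _ ih
      | trans x y z _ _ ih1 ih2 => exact Relation.EqvGen.trans _ _ _ ih1 ih2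
    have hsurj : ∀ x, ∃ x', π x' = x := by
      rintro (a | z)
      · exact ⟨_, hπf a⟩
      · exact ⟨_, hπg z⟩
    intro x y
    obtain ⟨x', rfl⟩ := hsurj x
    obtain ⟨y', rfl⟩ := hsurj y
    exact key _ _ (hc _ _)
  · intro hc
    let ι : B' ⊕ W' → B ⊕ W := Sum.map f g
    have step : ∀ x y, L'.HE (fun v => h v.1) x y → Relation.EqvGen (L.HE h) (ι x) (ι y) := by
      rintro x y ⟨i, a, h1, rfl, rfl⟩
      have h1' : h (L.c (i + 2) (f a)) = h (L.c (i + 1) (f a)) + 1 := by
        rw [← hL', ← hL']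
        exact h1
      have hY : L.HE h (Sum.inl (f a)) (Sum.inr (Y.e i (f a))) := ⟨i, f a, h1', rfl, rfl⟩
      change Relation.EqvGen (L.HE h) (Sum.inl (f a)) (Sum.inr (g (X.e i a)))
      by_cases hi : i = j
      · by_cases hw : Y.e j (f a) = Y.e (j + 2) b
        · rw [hi, R.out1 a hw]
          rw [hi, hw] at hY
          exact Relation.EqvGen.trans _ _ _ (Relation.EqvGen.rel _ _ hY)
            (Relation.EqvGen.trans _ _ _ (Relation.EqvGen.symm _ _ (Relation.EqvGen.rel _ _ ebw))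
              (Relation.EqvGen.rel _ _ eb))
        · rw [hi] at hY
          rw [hi, ← R.same a hw]
          exact Relation.EqvGen.rel _ _ hY
      · rw [← R.other i hi]
        exact Relation.EqvGen.rel _ _ hY
    have key : ∀ x y, Relation.EqvGen (L'.HE (fun v => h v.1)) x y →
        Relation.EqvGen (L.HE h) (ι x) (ι y) := by
      intro x y hxy
      induction hxy with
      | rel x y h => exact step x y h
      | refl x => exact Relation.EqvGen.refl _
      | symm x y _ ih => exact Relation.EqvGen.symm _ _ ih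
      | trans x y z _ _ ih1 ih2 => exact Relation.EqvGen.trans _ _ _ ih1 ih2
    -- every vertex is connected to some `ι x`
    have hall : ∀ x, ∃ x', Relation.EqvGen (L.HE h) x (ι x') := by
      rintro (b1 | w)
      · by_cases hb1 : b1 = b
        · rw [hb1]
          refine ⟨Sum.inl β, Relation.EqvGen.trans _ _ _ (Relation.EqvGen.rel _ _ ebw)
            (Relation.EqvGen.symm _ _ (Relation.EqvGen.rel _ _ eβ))⟩
        · obtain ⟨a, rfl⟩ := (R.fr _).2 hb1
          exact ⟨Sum.inl a, Relation.EqvGen.refl _⟩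
      · by_cases hw : w = Y.e (j + 2) b
        · rw [hw]
          exact ⟨Sum.inl β, Relation.EqvGen.symm _ _ (Relation.EqvGen.rel _ _ eβ)⟩
        · obtain ⟨z, rfl⟩ := (R.gr _).2 hw
          exact ⟨Sum.inr z, Relation.EqvGen.refl _⟩
    intro x y
    obtain ⟨x', hx'⟩ := hall x
    obtain ⟨y', hy'⟩ := hall y
    exact Relation.EqvGen.trans _ _ _ hx' (Relation.EqvGen.trans _ _ _ (key _ _ (hc x' y'))
      (Relation.EqvGen.symm _ _ hy'))

theorem DgRel.sol_iff {X : Web B' W'} {f : B' → B} {g : W' → W}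
    (R : DgRel Y X f g j b)
    (L : Lab Y V) (L' : Lab X {v : V // v ≠ L.c j b})
    (hL' : ∀ k a, ((L'.c k a : {v : V // v ≠ L.c j b}) : V) = L.c k (f a))
    (h : V → ZMod 12) :
    L.Sol h ↔ L'.Sol (fun v => h v.1) ∧ h (L.c (j + 2) b) = h (L.c (j + 1) b) + 1 ∧
      (h (L.c j b) = h (L.c (j + 2) b) + 1 ∨ h (L.c j b) = h (L.c (j + 2) b) - 2) := by
  have hN : ∃ b', b' ≠ b := by
    obtain ⟨β, hβ⟩ := R.exists_beta
    exact ⟨f β, (R.fr _).1 ⟨β, rfl⟩⟩
  constructor
  · rintro ⟨hv, hc⟩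
    have hup := Lab.dg_up R.face hN hc
    have v1 := hv (j + 1) b
    rw [f12, f11] at v1
    refine ⟨⟨fun i a => ?_, (R.conn_iff L L' hL' h hup v1).1 hc⟩, hup, v1⟩
    change h (L'.c (i + 2) a).1 = h (L'.c (i + 1) a).1 + 1 ∨
      h (L'.c (i + 2) a).1 = h (L'.c (i + 1) a).1 - 2
    rw [hL', hL']
    exact hv i (f a)
  · rintro ⟨⟨hv, hc⟩, hup, v1⟩
    refine ⟨fun i b1 => ?_, (R.conn_iff L L' hL' h hup v1).2 hc⟩
    by_cases hb1 : b1 = b
    · rw [hb1]
      rcases fcase i j with hi | hi | hi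
      · rw [hi]
        exact Or.inl hup
      · rw [hi, f12, f11]
        exact v1
      · rw [hi, f22, f21]
        rcases v1 with h1 | h1
        · right
          rw [h1, hup]
          ring
        · left
          rw [h1, hup]
          ring
    · obtain ⟨a, rfl⟩ := (R.fr _).2 hb1
      have := hv i a
      change h (L'.c (i + 2) a).1 = h (L'.c (i + 1) a).1 + 1 ∨
        h (L'.c (i + 2) a).1 = h (L'.c (i + 1) a).1 - 2 at this
      rwa [hL', hL'] at this

theorem dg_eps_c1 : ∀ x e : ZMod 4, eps (e + x) + eps (e + (x - 2)) = 0 := by decide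

theorem S_digon_marked [Fintype B'] {X : Web B' W'} {f : B' → B} {g : W' → W}
    (R : DgRel Y X f g j b)
    (L : Lab Y V) (L' : Lab X {v : V // v ≠ L.c j b})
    (hL' : ∀ k a, ((L'.c k a : {v : V // v ≠ L.c j b}) : V) = L.c k (f a))
    (m : V → ZMod 4) (hm : m (L.c j b) = 1) :
    L.S m = L'.S (fun v => m v.1 + if v.1 = L.c (j + 2) b then 1 else 0)
      + L'.S (fun v => m v.1 + if v.1 = L.c (j + 1) b then 1 else 0) := by
  classical
  obtain ⟨β, hβ⟩ := R.exists_beta
  have hvs : L.c (j + 2) b ≠ L.c j b := fun h => fne2 j (L.cls _ _ _ _ h)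
  have hus : L.c (j + 1) b ≠ L.c j b := fun h => fne1 j (L.cls _ _ _ _ h)
  rw [Lab.S_eq_dg, Lab.S_eq_dg, Lab.S_eq_dg, ← Finset.sum_add_distrib]
  rw [← (Equiv.funSplitAt (L.c j b) (ZMod 12)).symm.sum_comp, Fintype.sum_prod_type_right]
  refine Finset.sum_congr rfl fun h' _ => ?_
  -- the exponent of `X`
  set E0 : ZMod 4 := ∑ v : {v : V // v ≠ L.c j b}, (3 + m v.1) * kap (h' v)
      - ∑ a : B', ∑ k, kap (h' (L'.c k a)) with hE0
  set v0 : {v : V // v ≠ L.c j b} := ⟨L.c (j + 2) b, hvs⟩ with hv0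
  set u0 : {v : V // v ≠ L.c j b} := ⟨L.c (j + 1) b, hus⟩ with hu0
  have hEX : ∀ z : {v : V // v ≠ L.c j b}, L'.E (fun v => m v.1 + if v.1 = z.1 then 1 else 0) h' =
      E0 + kap (h' z) := by
    intro z
    have e1 : ∑ v : {v : V // v ≠ L.c j b}, (3 + (m v.1 + if v.1 = z.1 then 1 else 0)) * kap (h' v) =
        ∑ v : {v : V // v ≠ L.c j b}, (3 + m v.1) * kap (h' v) + kap (h' z) := by
      have e2 : kap (h' z) = ∑ v : {v : V // v ≠ L.c j b}, if v = z then kap (h' v) else 0 := by
        rw [Finset.sum_ite_eq' Finset.univ z, if_pos (Finset.mem_univ _)]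
      rw [e2, ← Finset.sum_add_distrib]
      refine Finset.sum_congr rfl fun v _ => ?_
      by_cases hz : v = z
      · rw [if_pos hz, if_pos (by rw [hz])]
        ring
      · rw [if_neg hz, if_neg (fun h => hz (Subtype.ext h))]
        ring
    unfold Lab.E
    rw [e1, hE0]
    ring
  have hex : ∀ (t : ZMod 12) (v : {v : V // v ≠ L.c j b}),
      (Equiv.funSplitAt (L.c j b) (ZMod 12)).symm (t, h') v.1 = h' v := by
    intro t v
    simp [Equiv.funSplitAt, Equiv.piSplitAt, v.2]
  have hexs : ∀ (t : ZMod 12), (Equiv.funSplitAt (L.c j b) (ZMod 12)).symm (t, h') (L.c j b) = t := by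
    intro t
    simp [Equiv.funSplitAt, Equiv.piSplitAt]
  have hEY : ∀ t : ZMod 12, L.E m ((Equiv.funSplitAt (L.c j b) (ZMod 12)).symm (t, h')) =
      E0 - kap t - kap (h' u0) - kap (h' v0) := by
    intro t
    have hHv := hex t v0
    have hHu := hex t u0
    change (Equiv.funSplitAt (L.c j b) (ZMod 12)).symm (t, h') (L.c (j + 2) b) = h' v0 at hHv
    change (Equiv.funSplitAt (L.c j b) (ZMod 12)).symm (t, h') (L.c (j + 1) b) = h' u0 at hHu
    have e1 : ∑ v : {v : V // v ≠ L.c j b}, (3 + m v.1) *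
        kap ((Equiv.funSplitAt (L.c j b) (ZMod 12)).symm (t, h') v.1) =
        ∑ v : {v : V // v ≠ L.c j b}, (3 + m v.1) * kap (h' v) :=
      Finset.sum_congr rfl fun v _ => by rw [hex]
    have e2 : ∑ a : B', ∑ k, kap ((Equiv.funSplitAt (L.c j b) (ZMod 12)).symm (t, h') (L.c k (f a))) =
        ∑ a : B', ∑ k, kap (h' (L'.c k a)) :=
      Finset.sum_congr rfl fun a _ => Finset.sum_congr rfl fun k _ => by
        rw [← hL', hex]
    rw [L.dg_E_split (j := j) (b := b) R.fi R.fr]
    rw [e1, e2, hexs, hm, hHv, hHu, hE0]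
    linear_combination (kap t) * dg_four4
  have hSol : ∀ t : ZMod 12, L.Sol ((Equiv.funSplitAt (L.c j b) (ZMod 12)).symm (t, h')) ↔
      L'.Sol h' ∧ h' v0 = h' u0 + 1 ∧ (t = h' v0 + 1 ∨ t = h' v0 - 2) := by
    intro t
    have hHv := hex t v0
    have hHu := hex t u0
    change (Equiv.funSplitAt (L.c j b) (ZMod 12)).symm (t, h') (L.c (j + 2) b) = h' v0 at hHv
    change (Equiv.funSplitAt (L.c j b) (ZMod 12)).symm (t, h') (L.c (j + 1) b) = h' u0 at hHu
    have hres : (fun v : {v : V // v ≠ L.c j b} =>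
        (Equiv.funSplitAt (L.c j b) (ZMod 12)).symm (t, h') v.1) = h' := funext fun v => hex t v
    rw [R.sol_iff L L' hL', hres, hHv, hHu, hexs]
  by_cases hs : L'.Sol h'
  · rw [if_pos hs, if_pos hs]
    have hEv := hEX v0
    have hEu := hEX u0
    have hvu : h' v0 = h' u0 + 1 ∨ h' v0 = h' u0 - 2 := by
      have h1 := hs.1 j β
      have c1 : L'.c (j + 1) β = u0 := Subtype.ext (by rw [hL', R.c1 L hβ])
      have c2 : L'.c (j + 2) β = v0 := Subtype.ext (by rw [hL', R.c2 L hβ])
      rwa [c1, c2] at h1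
    change _ = eps (L'.E (fun v => m v.1 + if v.1 = v0.1 then 1 else 0) h') +
      eps (L'.E (fun v => m v.1 + if v.1 = u0.1 then 1 else 0) h')
    rw [hEv, hEu]
    rcases hvu with h1 | h1
    · have hne : h' v0 + 1 ≠ h' v0 - 2 := by
        generalize h' v0 = x
        revert x
        decide
      rw [Fintype.sum_eq_add (h' v0 + 1) (h' v0 - 2) hne]
      · rw [if_pos ((hSol _).2 ⟨hs, h1, Or.inl rfl⟩), if_pos ((hSol _).2 ⟨hs, h1, Or.inr rfl⟩),
          hEY, hEY, h1]
        simp only [map_add, map_sub, map_one, dg_kap_two]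
        congr 2
        · linear_combination (-(kap (h' u0)) - 1) * dg_four4
        · linear_combination (-(kap (h' u0))) * dg_four4
      · rintro t ⟨ht1, ht2⟩
        rw [if_neg]
        rw [hSol]
        rintro ⟨-, -, ht | ht⟩
        · exact ht1 ht
        · exact ht2 ht
    · rw [Finset.sum_eq_zero]
      · rw [h1, map_sub, dg_kap_two, add_comm, dg_eps_c1]
      · intro t _
        rw [if_neg]
        rw [hSol, h1]
        rintro ⟨-, h2, -⟩
        revert h2
        generalize h' u0 = x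
        revert x
        decide
  · rw [if_neg hs, if_neg hs, add_zero]
    exact Finset.sum_eq_zero fun t _ => if_neg fun h => hs ((hSol t).1 h).1

theorem DgRel.card_B [Fintype B'] {X : Web B' W'} {f : B' → B} {g : W' → W}
    (R : DgRel Y X f g j b) : Fintype.card B = Fintype.card B' + 1 := by
  classical
  let o : Option B' ≃ B := Equiv.ofBijective (fun o => o.elim b f) (by
    constructor
    · rintro (_ | x) (_ | y) h
      · rfl
      · exact absurd h.symm ((R.fr _).1 ⟨y, rfl⟩)
      · exact absurd h ((R.fr _).1 ⟨x, rfl⟩)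
      · exact congrArg some (R.fi h)
    · intro x
      by_cases hx : x = b
      · exact ⟨none, hx.symm⟩
      · obtain ⟨a, ha⟩ := (R.fr x).2 hx
        exact ⟨some a, ha⟩)
  rw [← Fintype.card_option]
  exact (Fintype.card_congr o).symm

theorem DgRel.card_V (L : Lab Y V) :
    Fintype.card V = Fintype.card {v : V // v ≠ L.c j b} + 1 := by
  rw [← Fintype.card_option]
  exact Fintype.card_congr (Equiv.optionSubtypeNe (L.c j b)).symm

end Vale.Agent.P039.Sk
end

section

/-! One black vertex. -/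

namespace Vale.Agent.P039.Sk

variable {B W V B' W' : Type}

/-- the three shapes of a height function at one vertex -/
def thT : Fin 3 → Fin 3 → ZMod 12 := ![![0, 1, 2], ![0, 1, 11], ![0, 10, 11]]

theorem thT_zero : ∀ t, thT t 0 = 0 := by decide

theorem thT_valid : ∀ (a : ZMod 12) (t i : Fin 3),
    a + thT t (i + 2) = a + thT t (i + 1) + 1 ∨ a + thT t (i + 2) = a + thT t (i + 1) - 2 := by
  decide

theorem thT_up : ∀ (a : ZMod 12) (t : Fin 3), ∃ i : Fin 3,
    a + thT t (i + 2) = a + thT t (i + 1) + 1 := by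
  decide

theorem thT_inj : ∀ (t t' : Fin 3), (∀ i, thT t i = thT t' i) → t = t' := by decide

theorem thT_ex : ∀ x y z : ZMod 12, (z = y + 1 ∨ z = y - 2) → (x = z + 1 ∨ x = z - 2) →
    (y = x + 1 ∨ y = x - 2) → ∃ t : Fin 3, x + thT t 0 = x ∧ x + thT t 1 = y ∧
      x + thT t 2 = z := by
  rintro x y z (rfl | rfl) (h | h) (h' | h')
  all_goals revert x y
  all_goals decide

theorem thT_sum : ∀ i i' : Fin 3, i ≠ i' → ∑ p : ZMod 12 × Fin 3,
    eps (∑ k : Fin 3, (3 + ((if k = i then 1 else 0) + if k = i' then 1 else 0)) *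
      kap (p.1 + thT p.2 k) - ∑ k : Fin 3, kap (p.1 + thT p.2 k)) = 12 := by
  decide +kernel

variable {X : Web B W} [Fintype B] [Fintype V] [DecidableEq V]

open Classical in
theorem th_S_eq (L : Lab X V) (m : V → ZMod 4) :
    L.S m = ∑ h : V → ZMod 12, if L.Sol h then eps (L.E m h) else 0 := by
  unfold Lab.S
  apply Finset.sum_congr _ (fun _ _ => rfl)
  ext x
  simp only [Finset.mem_univ]

theorem S_theta (L : Lab X V) (hB : Fintype.card B = 1) {x y : V} (hxy : x ≠ y) :
    L.S (fun v => (if v = x then 1 else 0) + if v = y then 1 else 0) = 12 := by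
  classical
  obtain ⟨b, hb⟩ := Fintype.card_eq_one_iff.1 hB
  have hW : ∀ w w' : W, w = w' := fun w w' => by
    apply (X.e 0).symm.injective
    rw [hb ((X.e 0).symm w), hb ((X.e 0).symm w')]
  -- the three faces
  let e : Fin 3 ≃ V := Equiv.ofBijective (fun k => L.c k b)
    ⟨fun k k' h => L.cls _ _ _ _ h, fun v => by
      obtain ⟨k, b', h⟩ := L.surj v
      exact ⟨k, by rw [← h, hb b']⟩⟩
  have he : ∀ k, L.c k b = e k := fun k => rfl
  have hec : ∀ k b', L.c k b' = e k := fun k b' => by rw [hb b', he]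
  obtain ⟨i, rfl⟩ := e.surjective x
  obtain ⟨i', rfl⟩ := e.surjective y
  have hii : i ≠ i' := fun h => hxy (by rw [h])
  let φ : ZMod 12 × Fin 3 → (V → ZMod 12) := fun p v => p.1 + thT p.2 (e.symm v)
  have hφe : ∀ p k, φ p (e k) = p.1 + thT p.2 k := fun p k => by
    simp only [φ, Equiv.symm_apply_apply]
  have hφ : Function.Injective φ := by
    rintro ⟨a, t⟩ ⟨a', t'⟩ h
    have h0 : ∀ k, a + thT t k = a' + thT t' k := fun k => by
      rw [← hφe (a, t) k, h, hφe]
    have h1 : a = a' := by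
      have := h0 0
      rwa [thT_zero, thT_zero, add_zero, add_zero] at this
    subst h1
    have h2 : t = t' := thT_inj t t' fun k => add_left_cancel (h0 k)
    rw [h2]
  have hsol : ∀ p, L.Sol (φ p) := by
    intro p
    constructor
    · intro i b'
      rw [hec, hec, hφe, hφe]
      exact thT_valid _ _ _
    · obtain ⟨i, hi⟩ := thT_up p.1 p.2
      have key : ∀ w : W, Relation.EqvGen (L.HE (φ p)) (Sum.inl b) (Sum.inr w) := by
        intro w
        refine Relation.EqvGen.rel _ _ ⟨i, b, ?_, rfl, by rw [hW w]⟩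
        rw [hec, hec, hφe, hφe]
        exact hi
      intro x y
      rcases x with x | x <;> rcases y with y | y
      · rw [hb x, hb y]; exact Relation.EqvGen.refl _
      · rw [hb x]; exact key y
      · rw [hb y]; exact Relation.EqvGen.symm _ _ (key x)
      · rw [hW x y]; exact Relation.EqvGen.refl _
  have hE : ∀ p, L.E (fun v => (if v = e i then 1 else 0) + if v = e i' then 1 else 0) (φ p) =
      ∑ k : Fin 3, (3 + ((if k = i then 1 else 0) + if k = i' then 1 else 0)) *
      kap (p.1 + thT p.2 k) - ∑ k : Fin 3, kap (p.1 + thT p.2 k) := by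
    intro p
    unfold Lab.E
    congr 1
    · rw [← e.sum_comp]
      refine Finset.sum_congr rfl fun k _ => ?_
      rw [hφe]
      simp only [e.injective.eq_iff]
    · rw [Fintype.sum_eq_single b (fun b' h => absurd (hb b') h)]
      refine Finset.sum_congr rfl fun k _ => ?_
      rw [hec, hφe]
  rw [← thT_sum i i' hii, th_S_eq]
  symm
  refine Fintype.sum_of_injective (M := ℤ) φ hφ _ _ ?_ ?_
  · intro h hh
    rw [if_neg]
    rintro ⟨hv, -⟩
    apply hh
    have v0 := hv 0 b
    have v1 := hv 1 b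
    have v2 := hv 2 b
    rw [hec, hec] at v0 v1 v2
    obtain ⟨t, t0, t1, t2⟩ := thT_ex (h (e 0)) (h (e 1)) (h (e 2)) v0 v1 v2
    refine ⟨(h (e 0), t), ?_⟩
    funext v
    obtain ⟨k, rfl⟩ := e.surjective v
    rw [hφe]
    fin_cases k
    · exact t0
    · exact t1
    · exact t2
  · intro p
    rw [if_pos (hsol p), hE]

end Vale.Agent.P039.Sk
end

section

/-! Positivity. -/

namespace Vale.Agent.P039.Sk

variable {B W V B' W' : Type}

namespace PosAux

section aux

variable {X : Web B W}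

/-- the orbit of `b` when the face of class `k` at `b` is a digon -/
theorem digon_unique (L : Lab X V) {k : Fin 3} {b : B} (hd : X.e (k + 1) b = X.e (k + 2) b)
    {b' : B} (h : L.c k b' = L.c k b) : b' = b := by
  have key : ∀ x y : B, Relation.EqvGen (fun x y => X.e (k + 1) y = X.e (k + 2) x) x y →
      (x = b ↔ y = b) := by
    intro x y hxy
    induction hxy with
    | rel x y hxy =>
      constructor
      · rintro rfl
        exact (X.e (k + 1)).injective (hxy.trans hd.symm)
      · rintro rfl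
        exact (X.e (k + 2)).injective (hxy.symm.trans hd)
    | refl x => exact Iff.rfl
    | symm x y _ ih => exact ih.symm
    | trans x y z _ _ ih1 ih2 => exact ih1.trans ih2
  exact (key b' b (L.exact k b' b h)).2 rfl

/-- the orbit of `b₁` when the face of class `k` is the 4-face at `b₁`, `b₂` -/
theorem exists_next (k : Fin 3) (b : B) : ∃ b', X.e (k + 1) b' = X.e (k + 2) b :=
  ⟨(X.e (k + 1)).symm (X.e (k + 2) b), by simp⟩

variable [Fintype B] [Fintype V] [DecidableEq V]

/-- number of black vertices of a face -/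
def deg (L : Lab X V) (v : V) : ℕ :=
  (Finset.univ.filter (fun q : Fin 3 × B => L.c q.1 q.2 = v)).card

theorem deg_sum (L : Lab X V) : ∑ v, deg L v = 3 * Fintype.card B := by
  have h := Finset.card_eq_sum_card_fiberwise (s := (Finset.univ : Finset (Fin 3 × B)))
    (t := (Finset.univ : Finset V)) (f := fun q => L.c q.1 q.2) (by intro x _; simp)
  simp only [Finset.card_univ, Fintype.card_prod, Fintype.card_fin] at h
  exact h.symm

theorem deg_pos (L : Lab X V) (v : V) : 1 ≤ deg L v := by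
  obtain ⟨j, b, h⟩ := L.surj v
  exact Finset.card_pos.2 ⟨(j, b), by simp [h]⟩

theorem fsum (L : Lab X V) (hc : Fintype.card V = Fintype.card B + 2) :
    ∑ v, ((3 : ℤ) - deg L v) = 6 := by
  have h := deg_sum L
  have h2 : (∑ v, (deg L v : ℤ)) = 3 * Fintype.card B := by exact_mod_cast h
  rw [Finset.sum_sub_distrib, h2]
  simp [hc]
  ring

/-- a face of degree one is a digon -/
theorem deg_one (L : Lab X V) {v : V} (hv : deg L v = 1) :
    ∃ k b, L.c k b = v ∧ X.e (k + 1) b = X.e (k + 2) b := by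
  obtain ⟨⟨k, b⟩, hq⟩ := Finset.card_eq_one.1 hv
  have hb : L.c k b = v := by
    have : (k, b) ∈ (Finset.univ.filter (fun q : Fin 3 × B => L.c q.1 q.2 = v)) := by
      rw [hq]; simp
    simpa using this
  obtain ⟨b', hb'⟩ := exists_next (X := X) k b
  have h2 : L.c k b' = v := (L.step k b b' hb').trans hb
  have h3 : (k, b') ∈ (Finset.univ.filter (fun q : Fin 3 × B => L.c q.1 q.2 = v)) := by
    simp [h2]
  rw [hq] at h3
  have h4 : b' = b := by simpa using h3
  subst h4
  exact ⟨k, b', hb, hb'⟩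

theorem deg_of_digon (L : Lab X V) {k : Fin 3} {b : B} (hd : X.e (k + 1) b = X.e (k + 2) b) :
    deg L (L.c k b) = 1 := by
  refine Finset.card_eq_one.2 ⟨(k, b), ?_⟩
  ext ⟨k', b'⟩
  simp only [Finset.mem_filter, Finset.mem_univ, true_and, Finset.mem_singleton, Prod.mk.injEq]
  constructor
  · intro h
    have hk : k' = k := L.cls _ _ _ _ h
    subst hk
    exact ⟨rfl, digon_unique L hd h⟩
  · rintro ⟨rfl, rfl⟩
    rfl

/-- a face of degree two is a 4-face -/
theorem deg_two (L : Lab X V) {v : V} (hv : deg L v = 2) :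
    ∃ k b₁ b₂, b₁ ≠ b₂ ∧ L.c k b₁ = v ∧ L.c k b₂ = v ∧ X.e (k + 1) b₂ = X.e (k + 2) b₁ ∧
      X.e (k + 1) b₁ = X.e (k + 2) b₂ := by
  classical
  obtain ⟨⟨k, b₁⟩, ⟨k', b₂⟩, hne, hq⟩ := Finset.card_eq_two.1 hv
  have hb : L.c k b₁ = v := by
    have : (k, b₁) ∈ (Finset.univ.filter (fun q : Fin 3 × B => L.c q.1 q.2 = v)) := by
      rw [hq]; simp
    simpa using this
  have hb2 : L.c k' b₂ = v := by
    have : (k', b₂) ∈ (Finset.univ.filter (fun q : Fin 3 × B => L.c q.1 q.2 = v)) := by
      rw [hq]; simp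
    simpa using this
  have hk : k' = k := L.cls _ _ _ _ (hb2.trans hb.symm)
  subst hk
  have hne' : b₁ ≠ b₂ := fun h => hne (by rw [h])
  have key : ∀ x y : B, x ≠ y → L.c k' x = v → L.c k' y = v →
      (∀ z, L.c k' z = v → z = x ∨ z = y) → X.e (k' + 1) y = X.e (k' + 2) x := by
    intro x y hxy hx hy hz
    obtain ⟨x', hx'⟩ := exists_next (X := X) k' x
    have h2 : L.c k' x' = v := (L.step k' x x' hx').trans hx
    rcases hz x' h2 with h | h
    · subst h
      exact absurd (digon_unique L hx' (hy.trans hx.symm)).symm hxy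
    · subst h
      exact hx'
  have hz : ∀ z, L.c k' z = v → z = b₁ ∨ z = b₂ := by
    intro z hz
    have h3 : (k', z) ∈ (Finset.univ.filter (fun q : Fin 3 × B => L.c q.1 q.2 = v)) := by
      simp [hz]
    rw [hq] at h3
    simpa using h3
  exact ⟨k', b₁, b₂, hne', hb, hb2, key b₁ b₂ hne' hb hb2 hz,
    key b₂ b₁ hne'.symm hb2 hb (fun z h => (hz z h).symm)⟩

end aux

/-- a 4-face without digons at its two black vertices -/
theorem sq4_of {X : Web B W} {j : Fin 3} {b₁ b₂ : B} (ne : b₁ ≠ b₂)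
    (face : X.e (j + 1) b₂ = X.e (j + 2) b₁) (face' : X.e (j + 1) b₁ = X.e (j + 2) b₂)
    (h1 : ∀ k, X.e (k + 1) b₁ ≠ X.e (k + 2) b₁) (h2 : ∀ k, X.e (k + 1) b₂ ≠ X.e (k + 2) b₂) :
    Sq4 X j b₁ b₂ where
  ne := ne
  face := face
  face' := face'
  n11 := by
    have := h1 (j + 1)
    rw [f11, f12] at this
    exact this.symm
  n12 := by
    have := h1 (j + 2)
    rw [f21, f22] at this
    rw [← face']
    exact this
  n21 := by
    have := h2 (j + 2)
    rw [f21, f22] at this
    rw [← face]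
    exact this
  n22 := by
    have := h2 (j + 1)
    rw [f11, f12] at this
    exact this.symm

section push

variable {V V' V'' : Type} [Fintype V] [DecidableEq V] [DecidableEq V']

/-- pushforward of marks -/
def push (π : V → V') (m : V → ZMod 4) : V' → ZMod 4 := fun v' => ∑ v, if π v = v' then m v else 0

theorem push_add (π : V → V') (m₁ m₂ : V → ZMod 4) :
    push π (fun v => m₁ v + m₂ v) = fun v' => push π m₁ v' + push π m₂ v' := by
  ext v'
  unfold push
  rw [← Finset.sum_add_distrib]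
  refine Finset.sum_congr rfl fun v _ => ?_
  split_ifs <;> simp

theorem push_single (π : V → V') (x : V) (a : ZMod 4) :
    push π (fun v => if v = x then a else 0) = fun v' => if v' = π x then a else 0 := by
  ext v'
  unfold push
  rw [Finset.sum_eq_single x]
  · by_cases h : π x = v'
    · simp [h]
    · have h' : ¬ v' = π x := fun e => h e.symm
      simp [h, h']
  · intro v _ hv
    simp [hv]
  · intro h
    exact absurd (Finset.mem_univ x) h

end push

section step

variable {X : Web B W} [Fintype B] [Fintype V] [DecidableEq V]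

theorem m1_eq_push (L : Lab X V) {j : Fin 3} {b₁ b₂ : B} (hp : L.c (j + 1) b₁ ≠ L.c (j + 1) b₂)
    (m : V → ZMod 4) (hm : m (L.c j b₁) = 0) :
    ∃ π : V → L.V1 j b₁ b₂, L.m1 j b₁ b₂ m = push π m := by
  have hs1 : L.c (j + 1) b₁ ≠ L.c j b₁ := fun h => fne1 j (L.cls _ _ _ _ h)
  have hs2 : L.c (j + 1) b₂ ≠ L.c j b₁ := fun h => fne1 j (L.cls _ _ _ _ h)
  let P : L.V1 j b₁ b₂ := ⟨L.c (j + 1) b₁, hs1, hp⟩
  let π : V → L.V1 j b₁ b₂ := fun v =>
    if h : v ≠ L.c j b₁ ∧ v ≠ L.c (j + 1) b₂ then ⟨v, h⟩ else P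
  refine ⟨π, ?_⟩
  ext v'
  have hπ : ∀ v, (π v).1 = if v ≠ L.c j b₁ ∧ v ≠ L.c (j + 1) b₂ then v else L.c (j + 1) b₁ := by
    intro v
    by_cases h : v ≠ L.c j b₁ ∧ v ≠ L.c (j + 1) b₂
    · simp only [π, dif_pos h, if_pos h]
    · simp only [π, dif_neg h, if_neg h, P]
  unfold push Lab.m1
  by_cases hv : v'.1 = L.c (j + 1) b₁
  · rw [if_pos hv]
    have hfun : ∀ v, (if π v = v' then m v else 0) =
        (if v = L.c (j + 1) b₁ then m v else 0) + (if v = L.c (j + 1) b₂ then m v else 0) := by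
      intro v
      have h1 : π v = v' ↔ (v = L.c (j + 1) b₁ ∨ v = L.c (j + 1) b₂ ∨ v = L.c j b₁) := by
        rw [Subtype.ext_iff, hπ, hv]
        by_cases ha : v = L.c j b₁
        · simp [ha]
        · by_cases hb : v = L.c (j + 1) b₂
          · simp [hb]
          · simp [ha, hb]
      by_cases ha : v = L.c j b₁
      · subst ha
        rw [if_pos (h1.2 (Or.inr (Or.inr rfl))), if_neg hs1.symm, if_neg hs2.symm, hm]
        simp
      · by_cases hb : v = L.c (j + 1) b₂
        · subst hb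
          rw [if_pos (h1.2 (Or.inr (Or.inl rfl))), if_neg hp.symm, if_pos rfl]
          simp
        · by_cases hc : v = L.c (j + 1) b₁
          · subst hc
            rw [if_pos (h1.2 (Or.inl rfl)), if_pos rfl, if_neg hp]
            simp
          · rw [if_neg, if_neg hc, if_neg hb]
            · simp
            · intro h
              rcases h1.1 h with h | h | h
              · exact hc h
              · exact hb h
              · exact ha h
    rw [Finset.sum_congr rfl fun v _ => hfun v, Finset.sum_add_distrib]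
    simp
  · rw [if_neg hv]
    have hfun : ∀ v, (if π v = v' then m v else 0) = if v = v'.1 then m v else 0 := by
      intro v
      have h1 : π v = v' ↔ v = v'.1 := by
        rw [Subtype.ext_iff, hπ]
        by_cases h : v ≠ L.c j b₁ ∧ v ≠ L.c (j + 1) b₂
        · rw [if_pos h]
        · rw [if_neg h]
          constructor
          · intro h'
            exact absurd h'.symm hv
          · intro h'
            rw [h'] at h
            exact absurd v'.2 h
      by_cases h : v = v'.1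
      · rw [if_pos (h1.2 h), if_pos h]
      · rw [if_neg (fun h' => h (h1.1 h')), if_neg h]
    rw [Finset.sum_congr rfl fun v _ => hfun v]
    simp

end step

/-- one of the two terms of the square rule -/
theorem term_step {B W V : Type} {X : Web B W} [Fintype B] [Fintype W] [Fintype V]
    [DecidableEq V] {j : Fin 3} {b₁ b₂ : B}
    (Q : Sq4 X j b₁ b₂) (L : Lab X V) (hc : Fintype.card V = Fintype.card B + 2)
    (m : V → ZMod 4) (hm : m (L.c j b₁) = 0) (hp : L.c (j + 1) b₁ ≠ L.c (j + 1) b₂) :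
    ∃ (B' W' V' : Type) (_ : Fintype B') (_ : Fintype W') (_ : Fintype V') (_ : DecidableEq V')
      (X' : Web B' W') (L' : Lab X' V') (π : V → V'),
      Fintype.card B = Fintype.card B' + 2 ∧ Fintype.card V' = Fintype.card B' + 2 ∧
      2 ≤ Fintype.card B' ∧ L.T1 j b₁ b₂ m + L.M1 j b₁ b₂ m = L'.S (push π m) := by
  classical
  obtain ⟨X', R⟩ := Q.exists_rel
  obtain ⟨L', hL'⟩ := R.exists_lab L hp
  obtain ⟨π, hπ⟩ := m1_eq_push L hp m hm
  obtain ⟨β₁, β₂, hβ, -, -⟩ := R.betas
  refine ⟨{b : B // b ≠ b₁ ∧ b ≠ b₂}, {w : W // w ≠ X.e (j + 2) b₁ ∧ w ≠ X.e (j + 2) b₂},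
    L.V1 j b₁ b₂, inferInstance, inferInstance, inferInstance, inferInstance, X', L', π,
    R.card_B, ?_, ?_, ?_⟩
  · have h1 := R.card_V L hp
    have h2 := R.card_B
    omega
  · exact Fintype.one_lt_card_iff.2 ⟨β₁, β₂, hβ⟩
  · rw [T1_add_M1 R L hp L' hL' m hm, hπ]

theorem sq_rule {B W V : Type} {X : Web B W} [Fintype B] [Fintype W] [Fintype V]
    [DecidableEq V] {j : Fin 3} {b₁ b₂ : B}
    (Q : Sq4 X j b₁ b₂) (L : Lab X V) (hc : Fintype.card V = Fintype.card B + 2)
    (m : V → ZMod 4) (hm : m (L.c j b₁) = 0) (P : ℤ → Prop) (h0 : P 0)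
    (hadd : ∀ a b, P a → P b → P (a + b))
    (H : ∀ (B' W' V' : Type) [Fintype B'] [Fintype W'] [Fintype V'] [DecidableEq V']
      (X' : Web B' W') (L' : Lab X' V') (π : V → V'),
      Fintype.card B = Fintype.card B' + 2 → Fintype.card V' = Fintype.card B' + 2 →
      2 ≤ Fintype.card B' → P (L'.S (push π m))) : P (L.S m) := by
  have hcW : Fintype.card W = Fintype.card B := (Fintype.card_congr (X.e 0)).symm
  have hcd : Fintype.card V = Fintype.card W + 2 := by omega
  obtain ⟨d0, d1, d2, d3, d4⟩ := Q.dual_c L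
  have hmd : m (L.dual.c (-j) (X.e (j + 2) b₁)) = 0 := by rw [d0]; exact hm
  have hS := S_eq_T1_add_T2 Q L m
  by_cases hp : L.c (j + 1) b₁ = L.c (j + 1) b₂
  · have hT1 := T1_zero Q L hc hp m
    by_cases hq : L.c (j + 2) b₁ = L.c (j + 2) b₂
    · have hT2 := T2_zero Q L hc hq m
      rw [hS, hT1, hT2]
      simpa using h0
    · have hpd : L.dual.c (-j + 1) (X.e (j + 2) b₁) ≠ L.dual.c (-j + 1) (X.e (j + 2) b₂) := by
        rw [d1, d2]
        exact fun h => hq h.symm
      have hqd : L.dual.c (-j + 2) (X.e (j + 2) b₁) = L.dual.c (-j + 2) (X.e (j + 2) b₂) := by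
        rw [d3, d4]
        exact hp
      obtain ⟨B', W', V', i1, i2, i3, i4, X', L', π, h1, h2, h3, h4⟩ :=
        term_step Q.dual L.dual hcd m hmd hpd
      rw [M1_zero Q.dual L.dual hcd hpd hqd m hmd, dual_T1 Q L m] at h4
      rw [hS, hT1, zero_add, ← add_zero (L.T2 j b₁ b₂ m), h4]
      exact H B' W' V' X' L' π (by omega) h2 h3
  · obtain ⟨B', W', V', i1, i2, i3, i4, X', L', π, h1, h2, h3, h4⟩ :=
      term_step Q L hc m hm hp
    by_cases hq : L.c (j + 2) b₁ = L.c (j + 2) b₂
    · rw [M1_zero Q L hc hp hq m hm] at h4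
      rw [hS, T2_zero Q L hc hq m, h4]
      exact H B' W' V' X' L' π h1 h2 h3
    · have hpd : L.dual.c (-j + 1) (X.e (j + 2) b₁) ≠ L.dual.c (-j + 1) (X.e (j + 2) b₂) := by
        rw [d1, d2]
        exact fun h => hq h.symm
      obtain ⟨B'', W'', V'', i1', i2', i3', i4', X'', L'', π', h1', h2', h3', h4'⟩ :=
        term_step Q.dual L.dual hcd m hmd hpd
      rw [dual_T1 Q L m, dual_M1 Q L m hm] at h4'
      have : L.S m = L'.S (push π m) + L''.S (push π' m) := by
        rw [hS, ← h4, ← h4']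
        ring
      rw [this]
      exact hadd _ _ (H B' W' V' X' L' π h1 h2 h3) (H B'' W'' V'' X'' L'' π' (by omega) h2' h3')

section choose

variable {X : Web B W} [Fintype B] [Fintype V] [DecidableEq V]

theorem exists_other (hN : 2 ≤ Fintype.card B) (b : B) : ∃ b', b' ≠ b :=
  Fintype.exists_ne_of_one_lt_card (by omega) b

/-- an unmarked digon kills the sum -/
theorem S_of_unmarked (L : Lab X V) (hN : 2 ≤ Fintype.card B) (m : V → ZMod 4) {v : V}
    (hv : deg L v = 1) (hm : m v = 0) : L.S m = 0 := by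
  obtain ⟨k, b, hb, hd⟩ := deg_one L hv
  refine S_digon (j := k) (b := b) L m (by rw [hb]; exact hm) (fun b' h => digon_unique L hd h)
    (exists_other hN b)

/-- a good 4-face -/
theorem exists_sq4 (L : Lab X V) {x : V} (F : Finset V) (hF : 4 ≤ F.card)
    (hF2 : ∀ v ∈ F, deg L v = 2) (hdig : ∀ k b, X.e (k + 1) b = X.e (k + 2) b → L.c k b = x) :
    ∃ k b₁ b₂, L.c k b₁ ∈ F ∧ Sq4 X k b₁ b₂ := by
  by_cases hD : ∃ k b, X.e (k + 1) b = X.e (k + 2) b
  · obtain ⟨k0, b0, hd0⟩ := hD
    have hE : (Finset.univ.image (fun i : Fin 3 => L.c i b0)).card < F.card := by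
      refine lt_of_le_of_lt Finset.card_image_le ?_
      simp only [Finset.card_univ, Fintype.card_fin]
      omega
    obtain ⟨s, hs, hs'⟩ := Finset.exists_mem_notMem_of_card_lt_card hE
    obtain ⟨k, b₁, b₂, hne, h1, h2, f1, f2⟩ := deg_two L (hF2 s hs)
    have key : ∀ b, L.c k b = s → ∀ i, X.e (i + 1) b ≠ X.e (i + 2) b := by
      intro b hb i hi
      have h3 : L.c i b = L.c k0 b0 := (hdig i b hi).trans (hdig k0 b0 hd0).symm
      have h4 : i = k0 := L.cls _ _ _ _ h3
      subst h4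
      have h5 : b = b0 := digon_unique L hd0 h3
      subst h5
      exact hs' (Finset.mem_image.2 ⟨k, Finset.mem_univ _, hb⟩)
    exact ⟨k, b₁, b₂, by rw [h1]; exact hs, sq4_of hne f1 f2 (key b₁ h1) (key b₂ h2)⟩
  · have hne : F.Nonempty := Finset.card_pos.1 (by omega)
    obtain ⟨s, hs⟩ := hne
    obtain ⟨k, b₁, b₂, hne, h1, h2, f1, f2⟩ := deg_two L (hF2 s hs)
    refine ⟨k, b₁, b₂, by rw [h1]; exact hs, sq4_of hne f1 f2 (fun i hi => hD ⟨i, b₁, hi⟩)
      (fun i hi => hD ⟨i, b₂, hi⟩)⟩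

theorem card_F1 (L : Lab X V) (hc : Fintype.card V = Fintype.card B + 2) (x : V)
    (h2 : ∀ v, v ≠ x → 2 ≤ deg L v) :
    4 ≤ (Finset.univ.filter (fun v => v ≠ x ∧ deg L v = 2)).card := by
  have hs := fsum L hc
  have hle : ∑ v, ((3 : ℤ) - deg L v) ≤ ∑ v, ((if v = x then (2 : ℤ) else 0) +
      if v ≠ x ∧ deg L v = 2 then 1 else 0) := by
    refine Finset.sum_le_sum fun v _ => ?_
    by_cases hv : v = x
    · have h3 := deg_pos L v
      have h4 : ¬ (v ≠ x ∧ deg L v = 2) := fun h => h.1 hv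
      rw [if_pos hv, if_neg h4]
      have : (1 : ℤ) ≤ deg L v := by exact_mod_cast h3
      linarith
    · have h3 := h2 v hv
      rw [if_neg hv]
      by_cases h5 : deg L v = 2
      · rw [if_pos ⟨hv, h5⟩, h5]
        norm_num
      · rw [if_neg (fun h => h5 h.2)]
        have : (3 : ℤ) ≤ deg L v := by
          have : 3 ≤ deg L v := by omega
          exact_mod_cast this
        linarith
  rw [hs, Finset.sum_add_distrib, Finset.sum_ite_eq' Finset.univ x (fun _ => (2 : ℤ)),
    if_pos (Finset.mem_univ x), Finset.sum_boole] at hle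
  have : (4 : ℤ) ≤ ((Finset.univ.filter (fun v => v ≠ x ∧ deg L v = 2)).card : ℤ) := by linarith
  exact_mod_cast this

theorem card_F2 (L : Lab X V) (hc : Fintype.card V = Fintype.card B + 2) (x y : V)
    (h2 : ∀ v, 2 ≤ deg L v) :
    4 ≤ (Finset.univ.filter (fun v => (v ≠ x ∧ v ≠ y) ∧ deg L v = 2)).card := by
  have hs := fsum L hc
  have hle : ∑ v, ((3 : ℤ) - deg L v) ≤ ∑ v, (((if v = x then (1 : ℤ) else 0) +
      (if v = y then (1 : ℤ) else 0)) +
      if (v ≠ x ∧ v ≠ y) ∧ deg L v = 2 then 1 else 0) := by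
    refine Finset.sum_le_sum fun v _ => ?_
    have h3 := h2 v
    have h3' : (2 : ℤ) ≤ deg L v := by exact_mod_cast h3
    by_cases hv : v = x
    · have h4 : ¬ ((v ≠ x ∧ v ≠ y) ∧ deg L v = 2) := fun h => h.1.1 hv
      rw [if_pos hv, if_neg h4]
      split_ifs <;> linarith
    · by_cases hw : v = y
      · have h4 : ¬ ((v ≠ x ∧ v ≠ y) ∧ deg L v = 2) := fun h => h.1.2 hw
        rw [if_neg hv, if_pos hw, if_neg h4]
        linarith
      · rw [if_neg hv, if_neg hw]
        by_cases h5 : deg L v = 2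
        · rw [if_pos ⟨⟨hv, hw⟩, h5⟩, h5]
          norm_num
        · rw [if_neg (fun h => h5 h.2)]
          have : (3 : ℤ) ≤ deg L v := by
            have : 3 ≤ deg L v := by omega
            exact_mod_cast this
          linarith
  rw [hs, Finset.sum_add_distrib, Finset.sum_add_distrib,
    Finset.sum_ite_eq' Finset.univ x (fun _ => (1 : ℤ)),
    Finset.sum_ite_eq' Finset.univ y (fun _ => (1 : ℤ)),
    if_pos (Finset.mem_univ x), if_pos (Finset.mem_univ y), Finset.sum_boole] at hle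
  have : (4 : ℤ) ≤ ((Finset.univ.filter
    (fun v => (v ≠ x ∧ v ≠ y) ∧ deg L v = 2)).card : ℤ) := by linarith
  exact_mod_cast this

/-- two black vertices, all digons marked: both marked faces are digons -/
theorem deg_y (L : Lab X V) (hc : Fintype.card V = Fintype.card B + 2) (hB : Fintype.card B = 2)
    {x y : V} (hxy : x ≠ y) (h2 : ∀ v, v ≠ x → v ≠ y → 2 ≤ deg L v) : deg L y = 1 := by
  have hs := fsum L hc
  have hle : ∑ v, ((3 : ℤ) - deg L v) ≤ ∑ v, (1 + ((if v = x then (1 : ℤ) else 0) +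
      (if v = y then (2 - (deg L y : ℤ)) else 0))) := by
    refine Finset.sum_le_sum fun v _ => ?_
    by_cases hv : v = x
    · have h3 := deg_pos L v
      have h3' : (1 : ℤ) ≤ deg L v := by exact_mod_cast h3
      have hvy : v ≠ y := hv ▸ hxy
      rw [if_pos hv, if_neg hvy]
      linarith
    · by_cases hw : v = y
      · rw [if_neg hv, if_pos hw, hw]
        linarith
      · rw [if_neg hv, if_neg hw]
        have h3 := h2 v hv hw
        have h3' : (2 : ℤ) ≤ deg L v := by exact_mod_cast h3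
        linarith
  rw [hs, Finset.sum_add_distrib, Finset.sum_add_distrib,
    Finset.sum_ite_eq' Finset.univ x (fun _ => (1 : ℤ)),
    Finset.sum_ite_eq' Finset.univ y (fun _ => (2 - (deg L y : ℤ))),
    if_pos (Finset.mem_univ x), if_pos (Finset.mem_univ y)] at hle
  simp only [Finset.sum_const, Finset.card_univ, hc, hB, nsmul_eq_mul] at hle
  have h4 : (deg L y : ℤ) ≤ 1 := by
    norm_num at hle
    linarith
  have h5 := deg_pos L y
  have h6 : deg L y ≤ 1 := by exact_mod_cast h4
  omega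

end choose

theorem double_aux (n : ℕ) : ∀ {B W V : Type} {X : Web B W} [Fintype B] [Fintype W] [Fintype V]
    [DecidableEq V] (L : Lab X V), Fintype.card B = n → Fintype.card V = Fintype.card B + 2 →
    2 ≤ Fintype.card B → ∀ x : V, L.S (fun v => if v = x then 2 else 0) = 0 := by
  induction n using Nat.strong_induction_on with
  | _ n ih =>
    intro B W V X _ _ _ _ L hn hc hN x
    by_cases hU : ∃ v, v ≠ x ∧ deg L v = 1
    · obtain ⟨v, hv, hd⟩ := hU
      exact S_of_unmarked L hN _ hd (by simp [hv])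
    · push Not at hU
      have h2 : ∀ v, v ≠ x → 2 ≤ deg L v := by
        intro v hv
        have h3 := hU v hv
        have h4 := deg_pos L v
        omega
      obtain ⟨k, b₁, b₂, hF, Q⟩ := exists_sq4 L (x := x) _ (card_F1 L hc x h2)
        (fun v hv => (Finset.mem_filter.1 hv).2.2) (by
          intro k b hd
          by_contra hne
          exact hU _ hne (deg_of_digon L hd))
      have hsx : L.c k b₁ ≠ x := (Finset.mem_filter.1 hF).2.1
      refine sq_rule Q L hc _ (by simp [hsx]) (fun a => a = 0) rfl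
        (by rintro a b rfl rfl; rfl) ?_
      intro B' W' V' _ _ _ _ X' L' π h1 h2 h3
      rw [push_single]
      exact ih (Fintype.card B') (by omega) L' rfl h2 h3 (π x)

theorem nonneg_aux (n : ℕ) : ∀ {B W V : Type} {X : Web B W} [Fintype B] [Fintype W] [Fintype V]
    [DecidableEq V] (L : Lab X V), Fintype.card B = n → Fintype.card V = Fintype.card B + 2 →
    ∀ x y : V, x ≠ y →
    0 ≤ L.S (fun v => (if v = x then 1 else 0) + if v = y then 1 else 0) := by
  induction n using Nat.strong_induction_on with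
  | _ n ih =>
    intro B W V X _ _ _ _ L hn hc x y hxy
    have hpos : 1 ≤ Fintype.card B := by
      obtain ⟨-, b, -⟩ := L.surj x
      exact Fintype.card_pos_iff.2 ⟨b⟩
    rcases Nat.lt_or_ge 1 (Fintype.card B) with hN | hN
    swap
    · rw [S_theta L (by omega) hxy]
      norm_num
    have hN : 2 ≤ Fintype.card B := hN
    by_cases hU : ∃ v, (v ≠ x ∧ v ≠ y) ∧ deg L v = 1
    · obtain ⟨v, ⟨hv, hw⟩, hd⟩ := hU
      exact (S_of_unmarked L hN _ hd (by simp [hv, hw])).ge
    push Not at hU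
    have h2 : ∀ v, v ≠ x → v ≠ y → 2 ≤ deg L v := by
      intro v hv hw
      have h3 := hU v ⟨hv, hw⟩
      have h4 := deg_pos L v
      omega
    -- marks at different or equal faces of a web with at least two black vertices
    have main : ∀ {B' W' V' : Type} [Fintype B'] [Fintype W'] [Fintype V'] [DecidableEq V']
        {X' : Web B' W'} (L' : Lab X' V'), Fintype.card B' < n →
        Fintype.card V' = Fintype.card B' + 2 → ∀ x' y' : V', (x' = y' → 2 ≤ Fintype.card B') →
        0 ≤ L'.S (fun v => (if v = x' then 1 else 0) + if v = y' then 1 else 0) := by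
      intro B' W' V' _ _ _ _ X' L' hlt hc' x' y' h
      by_cases he : x' = y'
      · subst he
        have h3 : (fun v : V' => ((if v = x' then (1 : ZMod 4) else 0) +
            if v = x' then (1 : ZMod 4) else 0)) = fun v => if v = x' then 2 else 0 := by
          ext v
          split_ifs
          · decide
          · simp
        rw [h3, double_aux _ L' rfl hc' (h rfl) x']
      · exact ih _ hlt L' rfl hc' x' y' he
    -- a marked digon
    have dig : ∀ x y : V, x ≠ y → (∀ v, v ≠ x → v ≠ y → 2 ≤ deg L v) → deg L x = 1 →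
        0 ≤ L.S (fun v => (if v = x then 1 else 0) + if v = y then 1 else 0) := by
      intro x y hxy h2 hx
      classical
      obtain ⟨k, b, hb, hd⟩ := deg_one L hx
      by_cases hiso : X.e k b = X.e (k + 2) b
      · exact (S_isolated (j := k) (b := b) L _ (hd.trans hiso.symm) hiso.symm
          (exists_other hN b)).ge
      obtain ⟨X', R⟩ := exists_dg hd hiso
      obtain ⟨L', hL'⟩ := R.exists_lab L
      have hyx : y ≠ L.c k b := by rw [hb]; exact hxy.symm
      rw [S_digon_marked R L L' hL' _ (by simp [hb, hxy])]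
      have hcard := R.card_B
      have hcardV := DgRel.card_V (j := k) (b := b) L
      have hterm : ∀ u : V, u ≠ L.c k b → (u = y → ∃ i, i ≠ k ∧ L.c i b = y ∧
          (X.e (i + 1) b = X.e (i + 2) b → X.e k b = X.e (k + 2) b)) →
          0 ≤ L'.S (fun v => ((if v.1 = x then 1 else 0) + if v.1 = y then 1 else 0) +
            if v.1 = u then 1 else 0) := by
        intro u hu huy
        have h3 : (fun v : {v : V // v ≠ L.c k b} => (((if v.1 = x then (1 : ZMod 4) else 0) +
            if v.1 = y then (1 : ZMod 4) else 0) + if v.1 = u then (1 : ZMod 4) else 0)) =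
            fun v => (if v = ⟨y, hyx⟩ then (1 : ZMod 4) else 0) +
              if v = ⟨u, hu⟩ then (1 : ZMod 4) else 0 := by
          ext v
          have h4 : v.1 ≠ x := by
            rw [← hb]
            exact v.2
          rw [if_neg h4, zero_add]
          simp only [Subtype.ext_iff]
        rw [h3]
        refine main L' (by omega) (by omega) _ _ ?_
        intro he
        have hyu : y = u := congrArg Subtype.val he
        obtain ⟨i, hi, hi1, hi2⟩ := huy hyu.symm
        by_contra hlt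
        have hB2 : Fintype.card B = 2 := by omega
        have hdy := deg_y L hc hB2 hxy h2
        obtain ⟨k', b', hb', hd'⟩ := deg_one L hdy
        have h5 : L.c i b = L.c k' b' := hi1.trans hb'.symm
        have h6 : i = k' := L.cls _ _ _ _ h5
        subst h6
        have h7 : b = b' := digon_unique L hd' h5
        subst h7
        exact hiso (hi2 hd')
      refine add_nonneg (hterm (L.c (k + 2) b) ?_ ?_) (hterm (L.c (k + 1) b) ?_ ?_)
      · exact fun h => fne2 k (L.cls _ _ _ _ h)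
      · intro h
        refine ⟨k + 2, fne2 k, h, ?_⟩
        rw [f21, f22]
        intro h'
        exact h'.trans hd
      · exact fun h => fne1 k (L.cls _ _ _ _ h)
      · intro h
        refine ⟨k + 1, fne1 k, h, ?_⟩
        rw [f11, f12]
        intro h'
        exact h'.symm
    by_cases hx : deg L x = 1
    · exact dig x y hxy h2 hx
    by_cases hy : deg L y = 1
    · have h3 := dig y x hxy.symm (fun v hv hw => h2 v hw hv) hy
      have h4 : (fun v : V => (if v = y then (1 : ZMod 4) else 0) +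
          if v = x then (1 : ZMod 4) else 0) = fun v => (if v = x then 1 else 0) +
          if v = y then 1 else 0 := by
        ext v
        rw [add_comm]
      rw [h4] at h3
      exact h3
    -- no digons
    have h2' : ∀ v, 2 ≤ deg L v := by
      intro v
      have h4 := deg_pos L v
      by_cases hv : v = x
      · subst hv
        omega
      · by_cases hw : v = y
        · subst hw
          omega
        · exact h2 v hv hw
    obtain ⟨k, b₁, b₂, hF, Q⟩ := exists_sq4 L (x := x) _ (card_F2 L hc x y h2')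
      (fun v hv => (Finset.mem_filter.1 hv).2.2) (by
        intro k b hd
        have h3 := deg_of_digon L hd
        have h4 := h2' (L.c k b)
        omega)
    have hs := (Finset.mem_filter.1 hF).2.1
    refine sq_rule Q L hc _ (by simp [hs.1, hs.2]) (fun a => 0 ≤ a) le_rfl
      (fun a b => add_nonneg) ?_
    intro B' W' V' _ _ _ _ X' L' π h1 h2 h3
    rw [push_add, push_single, push_single]
    exact main L' (by omega) h2 (π x) (π y) (fun _ => h3)

end PosAux

open PosAux

variable {X : Web B W} [Fintype B] [Fintype W] [Fintype V] [DecidableEq V]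

/-- double marks -/
theorem S_double (L : Lab X V) (hc : Fintype.card V = Fintype.card B + 2)
    (hN : 2 ≤ Fintype.card B) (x : V) : L.S (fun v => if v = x then 2 else 0) = 0 :=
  double_aux _ L rfl hc hN x

theorem S_nonneg (L : Lab X V) (hc : Fintype.card V = Fintype.card B + 2)
    (x y : V) (hxy : x ≠ y) :
    0 ≤ L.S (fun v => (if v = x then 1 else 0) + if v = y then 1 else 0) :=
  nonneg_aux _ L rfl hc x y hxy

end Vale.Agent.P039.Sk
end

section

/-! The imaginary part of the signed sum: definitions, the square rule and duality. -/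

namespace Vale.Agent.P039.Sk

variable {B W V B' W' : Type}

def epsi (a : ZMod 4) : ℤ := if a = 1 then 1 else if a = 3 then -1 else 0

theorem eps_add_two_i (a : ZMod 4) : epsi (a + 2) = - epsi a := by revert a; decide
theorem epsi_neg (a : ZMod 4) : epsi (-a) = - epsi a := by revert a; decide

section defs

variable {Y : Web B W} [Fintype B] [Fintype V]

open Classical in
noncomputable def Lab.Si (L : Lab Y V) (m : V → ZMod 4) : ℤ :=
  ∑ h : V → ZMod 12, if L.Sol h then epsi (L.E m h) else 0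

open Classical in
noncomputable def Lab.T1i (L : Lab Y V) (j : Fin 3) (b₁ b₂ : B) (m : V → ZMod 4) : ℤ :=
  ∑ h : V → ZMod 12, if L.Sol h ∧ L.type1 j b₁ b₂ h then epsi (L.E m h) else 0

open Classical in
noncomputable def Lab.T2i (L : Lab Y V) (j : Fin 3) (b₁ b₂ : B) (m : V → ZMod 4) : ℤ :=
  ∑ h : V → ZMod 12, if L.Sol h ∧ L.type2 j b₁ b₂ h then epsi (L.E m h) else 0

open Classical in
noncomputable def Lab.M1i (L : Lab Y V) (j : Fin 3) (b₁ b₂ : B) (m : V → ZMod 4) : ℤ :=
  ∑ h : V → ZMod 12, if L.ZS j b₁ b₂ h then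
    epsi (L.E m h + kap (h (L.c (j + 1) b₁))) else 0

end defs

section sq

variable {Y : Web B W} {X : Web B' W'} {f : B' → B} {g : W' → W} {j : Fin 3} {b₁ b₂ : B}
variable [Fintype B] [Fintype V] [DecidableEq V] [Fintype B']

theorem eps_shift_i (a b c : ZMod 4) (h : a = b + c) (hc : c = 0) : epsi a = epsi b := by
  rw [h, hc, add_zero]

open Classical in
/-- B1 -/
theorem sum_nonmono_i (R : SqRel Y X f g j b₁ b₂) (L : Lab Y V)
    (hp : L.c (j + 1) b₁ ≠ L.c (j + 1) b₂) (L' : Lab X (L.V1 j b₁ b₂))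
    (hL' : ∀ k b, ((L'.c k b : L.V1 j b₁ b₂) : V) =
      if L.c k (f b) = L.c (j + 1) b₂ then L.c (j + 1) b₁ else L.c k (f b))
    {β₁ β₂ : B'} (h₁ : Y.e j (f β₁) = Y.e (j + 2) b₁) (h₂ : Y.e j (f β₂) = Y.e (j + 2) b₂)
    (m : V → ZMod 4) (hm : m (L.c j b₁) = 0) :
    L.T1i j b₁ b₂ m = ∑ h : L.V1 j b₁ b₂ → ZMod 12,
      if L'.Sol h ∧ ¬ L'.mono j β₁ β₂ h then epsi (L'.E (L.m1 j b₁ b₂ m) h) else 0 := by
  have hps : L.c (j + 1) b₁ ≠ L.c j b₁ := fun h => fne1 j (L.cls _ _ _ _ h)
  have hqs : ∀ b, L.c (j + 2) b ≠ L.c j b₁ := fun b h => fne2 j (L.cls _ _ _ _ h)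
  have hqp : ∀ b, L.c (j + 2) b ≠ L.c (j + 1) b₂ := fun b h => fne21 j (L.cls _ _ _ _ h)
  let pv : L.V1 j b₁ b₂ := ⟨L.c (j + 1) b₁, hps, hp⟩
  let qv : L.V1 j b₁ b₂ := ⟨L.c (j + 2) b₂, hqs _, hqp _⟩
  let qv' : L.V1 j b₁ b₂ := ⟨L.c (j + 2) b₁, hqs _, hqp _⟩
  have hh : ∀ h : V → ZMod 12, h (L.c (j + 1) b₁) = h (L.c (j + 1) b₂) → ∀ k a,
      (fun v : L.V1 j b₁ b₂ => h v.1) (L'.c k a) = h (L.c k (f a)) := by
    intro h hpp k a
    show h ((L'.c k a : L.V1 j b₁ b₂) : V) = _
    rw [hL']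
    split_ifs with h1
    · rw [h1, hpp]
    · rfl
  have key : ∀ h : V → ZMod 12, L.type1 j b₁ b₂ h → (L.Sol h ↔
      L'.Sol (fun v => h v.1) ∧ ¬ L'.mono j β₁ β₂ (fun v => h v.1)) :=
    fun h ht => sol_type1 R L L' h₁ h₂ (hh h ht.1) ht
  unfold Lab.T1i
  rw [← Finset.sum_filter, ← Finset.sum_filter]
  have hres : ∀ h' : L.V1 j b₁ b₂ → ZMod 12, (fun v : L.V1 j b₁ b₂ =>
      L.ext j b₁ b₂ pv (h' qv + h' qv' - h' pv) h' v.1) = h' := by
    intro h'
    funext v
    exact L.ext_val pv _ h' v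
  have htype : ∀ h' : L.V1 j b₁ b₂ → ZMod 12, L.type1 j b₁ b₂
      (L.ext j b₁ b₂ pv (h' qv + h' qv' - h' pv) h') := by
    intro h'
    have v1 := L.ext_val pv (h' qv + h' qv' - h' pv) h' pv
    have v2 := L.ext_val pv (h' qv + h' qv' - h' pv) h' qv
    have v3 := L.ext_val pv (h' qv + h' qv' - h' pv) h' qv'
    have v4 := L.ext_s pv (h' qv + h' qv' - h' pv) h'
    have v5 := L.ext_p' pv (h' qv + h' qv' - h' pv) h'
    refine ⟨?_, ?_⟩
    · rw [v5]; exact v1
    · rw [v4]
      change _ + L.ext j b₁ b₂ pv (h' qv + h' qv' - h' pv) h' pv.1 =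
        L.ext j b₁ b₂ pv (h' qv + h' qv' - h' pv) h' qv'.1 +
        L.ext j b₁ b₂ pv (h' qv + h' qv' - h' pv) h' qv.1
      rw [v1, v2, v3]
      ring
  refine Finset.sum_nbij' (fun h v => h v.1)
    (fun h' => L.ext j b₁ b₂ pv (h' qv + h' qv' - h' pv) h') ?_ ?_ ?_ ?_ ?_
  · intro h hh'
    simp only [Finset.mem_filter, Finset.mem_univ, true_and] at hh' ⊢
    exact (key h hh'.2).1 hh'.1
  · intro h' hh'
    simp only [Finset.mem_filter, Finset.mem_univ, true_and] at hh' ⊢
    refine ⟨(key _ (htype h')).2 ?_, htype h'⟩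
    rw [hres]
    exact hh'
  · intro h hh'
    simp only [Finset.mem_filter, Finset.mem_univ, true_and] at hh'
    have e1 : h (L.c j b₁) = (fun v : L.V1 j b₁ b₂ => h v.1) qv +
        (fun v : L.V1 j b₁ b₂ => h v.1) qv' - (fun v : L.V1 j b₁ b₂ => h v.1) pv := by
      have := hh'.2.2
      show h (L.c j b₁) = h (L.c (j + 2) b₂) + h (L.c (j + 2) b₁) - h (L.c (j + 1) b₁)
      linear_combination this
    have := L.ext_res pv h hh'.2.1
    rw [e1] at this
    exact this
  · intro h' _
    exact hres h'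
  · intro h hh'
    simp only [Finset.mem_filter, Finset.mem_univ, true_and] at hh'
    refine eps_shift_i _ _ _ (E_diff R L hp L' hL' m hm h hh'.2.1) ?_
    have := congrArg kap hh'.2.2
    rw [map_add, map_add] at this
    linear_combination this

open Classical in
/-- B2 -/
theorem sum_mono_i (R : SqRel Y X f g j b₁ b₂) (L : Lab Y V)
    (hp : L.c (j + 1) b₁ ≠ L.c (j + 1) b₂) (L' : Lab X (L.V1 j b₁ b₂))
    (hL' : ∀ k b, ((L'.c k b : L.V1 j b₁ b₂) : V) =
      if L.c k (f b) = L.c (j + 1) b₂ then L.c (j + 1) b₁ else L.c k (f b))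
    {β₁ β₂ : B'} (h₁ : Y.e j (f β₁) = Y.e (j + 2) b₁) (h₂ : Y.e j (f β₂) = Y.e (j + 2) b₂)
    (m : V → ZMod 4) (hm : m (L.c j b₁) = 0) :
    L.M1i j b₁ b₂ m = ∑ h : L.V1 j b₁ b₂ → ZMod 12,
      if L'.Sol h ∧ L'.mono j β₁ β₂ h then epsi (L'.E (L.m1 j b₁ b₂ m) h) else 0 := by
  have hps : L.c (j + 1) b₁ ≠ L.c j b₁ := fun h => fne1 j (L.cls _ _ _ _ h)
  let pv : L.V1 j b₁ b₂ := ⟨L.c (j + 1) b₁, hps, hp⟩
  have hh : ∀ h : V → ZMod 12, h (L.c (j + 1) b₁) = h (L.c (j + 1) b₂) → ∀ k a,
      (fun v : L.V1 j b₁ b₂ => h v.1) (L'.c k a) = h (L.c k (f a)) := by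
    intro h hpp k a
    show h ((L'.c k a : L.V1 j b₁ b₂) : V) = _
    rw [hL']
    split_ifs with h1
    · rw [h1, hpp]
    · rfl
  have key : ∀ h : V → ZMod 12, h (L.c j b₁) = 0 →
      h (L.c (j + 1) b₁) = h (L.c (j + 1) b₂) → (L.ZS j b₁ b₂ h ↔
      L'.Sol (fun v => h v.1) ∧ L'.mono j β₁ β₂ (fun v => h v.1)) :=
    fun h hs hpp => sol_mono R L L' h₁ h₂ (hh h hpp) hs hpp
  unfold Lab.M1i
  rw [← Finset.sum_filter, ← Finset.sum_filter]
  have hres : ∀ h' : L.V1 j b₁ b₂ → ZMod 12, (fun v : L.V1 j b₁ b₂ =>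
      L.ext j b₁ b₂ pv 0 h' v.1) = h' := by
    intro h'
    funext v
    exact L.ext_val pv _ h' v
  refine Finset.sum_nbij' (fun h v => h v.1) (fun h' => L.ext j b₁ b₂ pv 0 h') ?_ ?_ ?_ ?_ ?_
  · intro h hh'
    simp only [Finset.mem_filter, Finset.mem_univ, true_and] at hh' ⊢
    exact (key h hh'.1 hh'.2.1.symm).1 hh'
  · intro h' hh'
    simp only [Finset.mem_filter, Finset.mem_univ, true_and] at hh' ⊢
    refine (key _ (L.ext_s pv 0 h') ?_).2 ?_
    · rw [L.ext_p' pv 0 h']
      exact L.ext_val pv 0 h' pv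
    · rw [hres]
      exact hh'
  · intro h hh'
    simp only [Finset.mem_filter, Finset.mem_univ, true_and] at hh'
    have := L.ext_res pv h hh'.2.1.symm
    rw [hh'.1] at this
    exact this
  · intro h' _
    exact hres h'
  · intro h hh'
    simp only [Finset.mem_filter, Finset.mem_univ, true_and] at hh'
    obtain ⟨z1, z2, z3, z4, -, -⟩ := hh'
    congr 1
    rw [E_diff R L hp L' hL' m hm h z2.symm, z1, z3, z4, map_sub, map_zero]
    have h2 : (kap 2 : ZMod 4) = 2 := by decide
    rw [h2]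
    generalize kap (h (L.c (j + 1) b₁)) = t
    have : (4 : ZMod 4) = 0 := by decide
    linear_combination this

/-- B3 (from B1 and B2) -/
theorem T1_add_M1_i (R : SqRel Y X f g j b₁ b₂) (L : Lab Y V)
    (hp : L.c (j + 1) b₁ ≠ L.c (j + 1) b₂) (L' : Lab X (L.V1 j b₁ b₂))
    (hL' : ∀ k b, ((L'.c k b : L.V1 j b₁ b₂) : V) =
      if L.c k (f b) = L.c (j + 1) b₂ then L.c (j + 1) b₁ else L.c k (f b))
    (m : V → ZMod 4) (hm : m (L.c j b₁) = 0) :
    L.T1i j b₁ b₂ m + L.M1i j b₁ b₂ m = L'.Si (L.m1 j b₁ b₂ m) := by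
  classical
  obtain ⟨β₁, β₂, -, h₁, h₂⟩ := R.betas
  rw [sum_nonmono_i R L hp L' hL' h₁ h₂ m hm, sum_mono_i R L hp L' hL' h₁ h₂ m hm]
  unfold Lab.Si
  rw [← Finset.sum_add_distrib]
  refine Finset.sum_congr (by ext; simp) fun h _ => ?_
  by_cases h1 : L'.Sol h <;> by_cases h2 : L'.mono j β₁ β₂ h <;> simp [h1, h2]


end sq

section sq2

variable {X : Web B W} [Fintype B] [Fintype W] [Fintype V] [DecidableEq V] {j : Fin 3} {b₁ b₂ : B}

theorem S_eq_T1_add_T2_i (Q : Sq4 X j b₁ b₂) (L : Lab X V) (m : V → ZMod 4) :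
    L.Si m = L.T1i j b₁ b₂ m + L.T2i j b₁ b₂ m := by
  classical
  unfold Lab.Si Lab.T1i Lab.T2i
  rw [← Finset.sum_add_distrib]
  refine Finset.sum_congr (Finset.ext fun _ => by simp) fun h _ => ?_
  by_cases hs : L.Sol h
  · rcases type12 Q L hs with ⟨t1, t2⟩ | ⟨t1, t2⟩
    · rw [if_pos hs, if_pos ⟨hs, t1⟩, if_neg (fun e => t2 e.2), add_zero]
    · rw [if_pos hs, if_neg (fun e => t1 e.2), if_pos ⟨hs, t2⟩, zero_add]
  · rw [if_neg hs, if_neg (fun e => hs e.1), if_neg (fun e => hs e.1), add_zero]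

/-- `q = q'`: all solutions have type 1 and there is no mono contribution (given `p ≠ p'`) -/
theorem T2_zero_i (Q : Sq4 X j b₁ b₂) (L : Lab X V) (hc : Fintype.card V = Fintype.card B + 2)
    (hq : L.c (j + 2) b₁ = L.c (j + 2) b₂) (m : V → ZMod 4) : L.T2i j b₁ b₂ m = 0 := by
  classical
  unfold Lab.T2i
  refine Finset.sum_eq_zero fun h _ => ?_
  rw [if_neg]
  rintro ⟨hs, ht⟩
  have cs := Q.cs L
  have b1 : X.e j ((X.e j).symm (X.e (j + 2) b₁)) = X.e (j + 2) b₁ := Equiv.apply_symm_apply _ _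
  have b2 : X.e j ((X.e j).symm (X.e (j + 2) b₂)) = X.e (j + 2) b₂ := Equiv.apply_symm_apply _ _
  generalize (X.e j).symm (X.e (j + 2) b₁) = β₁ at b1
  generalize (X.e j).symm (X.e (j + 2) b₂) = β₂ at b2
  obtain ⟨u1, u2⟩ := Q.cβ₁ L b1
  obtain ⟨v1, v2⟩ := Q.cβ₂ L b2
  have hp := Q.pattern L hs
  simp only at hp
  have d1 : (x : ZMod 12) → x + 1 ≠ x - 2 := by decide
  have d2 : (x : ZMod 12) → x + 2 ≠ x - 1 := by decide
  rcases hp with ⟨e1, e2, e3, e4⟩ | ⟨e1, e2, e3, e4⟩ | ⟨e1, e2, e3, e4⟩ |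
    ⟨e1, e2, e3, e4⟩ | ⟨e1, e2, e3, e4⟩ | ⟨e1, e2, e3, e4⟩
  · rw [hq, e3] at e4
    exact d2 _ e4.symm
  · rw [hq, e3] at e4
    exact d2 _ e4
  · have := ht.2
    rw [e1, e2, e4] at this
    generalize h (L.c j b₁) = x at this
    revert x; decide
  · -- colour j + 1 at b₁ and b₂
    refine no_dup L hc hs Q.ne (i := j + 1) (i' := j + 1) ?_ ?_ ?_ ?_
    · rw [f11, f12, e4]; ring
    · rw [f11, f12, cs, e3]; ring
    · rw [f11, hq]
    · rw [f12, cs]
  · -- colour j at b₁ and β₁
    refine no_dup L hc hs (b := b₁) (b' := β₁) ?_ (i := j) (i' := j) ?_ ?_ ?_ ?_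
    · rintro rfl; exact Q.n11 b1
    · rw [e1, e4]; ring
    · rw [u1, u2, e1, e3]; ring
    · rw [u1]
    · rw [u2, hq]
  · -- colour j at b₂ and β₂
    refine no_dup L hc hs (b := b₂) (b' := β₂) ?_ (i := j) (i' := j) ?_ ?_ ?_ ?_
    · rintro rfl; exact Q.n22 b2
    · rw [e2, e3]; ring
    · rw [v1, v2, e2, e4]; ring
    · rw [v1]
    · rw [v2, hq]

theorem M1_zero_i (Q : Sq4 X j b₁ b₂) (L : Lab X V) (hc : Fintype.card V = Fintype.card B + 2)
    (hp : L.c (j + 1) b₁ ≠ L.c (j + 1) b₂)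
    (hq : L.c (j + 2) b₁ = L.c (j + 2) b₂) (m : V → ZMod 4) (hm : m (L.c j b₁) = 0) :
    L.M1i j b₁ b₂ m = 0 := by
  classical
  obtain ⟨Z, R⟩ := Q.exists_rel
  obtain ⟨L', hL'⟩ := R.exists_lab L hp
  obtain ⟨β₁, β₂, hβ, h₁, h₂⟩ := R.betas
  rw [sum_mono_i R L hp L' hL' h₁ h₂ m hm]
  refine Finset.sum_eq_zero fun h _ => ?_
  rw [if_neg]
  rintro ⟨hs, ht⟩
  have hcB := R.card_B
  have hcV := R.card_V L hp
  obtain ⟨a1, a2⟩ := R.c_β₁ L h₁
  obtain ⟨c1, c2⟩ := R.c_β₂ L h₂
  have n12 : ∀ a b : B, L.c (j + 2) a ≠ L.c (j + 1) b := fun a b e => fne21 j (L.cls _ _ _ _ e)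
  refine no_dup L' (by omega) hs hβ ht.1 ht.2 ?_ ?_
  · apply Subtype.ext
    rw [hL', hL', a1, c1, if_neg hp, if_pos rfl]
  · apply Subtype.ext
    rw [hL', hL', a2, c2, if_neg (n12 _ _), if_neg (n12 _ _), hq]

theorem T1_zero_i (Q : Sq4 X j b₁ b₂) (L : Lab X V) (hc : Fintype.card V = Fintype.card B + 2)
    (hp : L.c (j + 1) b₁ = L.c (j + 1) b₂) (m : V → ZMod 4) : L.T1i j b₁ b₂ m = 0 := by
  classical
  unfold Lab.T1i
  refine Finset.sum_eq_zero fun h _ => ?_
  rw [if_neg]
  rintro ⟨hs, ht⟩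
  have cs := Q.cs L
  have b1 : X.e j ((X.e j).symm (X.e (j + 2) b₁)) = X.e (j + 2) b₁ := Equiv.apply_symm_apply _ _
  have b2 : X.e j ((X.e j).symm (X.e (j + 2) b₂)) = X.e (j + 2) b₂ := Equiv.apply_symm_apply _ _
  generalize (X.e j).symm (X.e (j + 2) b₁) = β₁ at b1
  generalize (X.e j).symm (X.e (j + 2) b₂) = β₂ at b2
  obtain ⟨u1, u2⟩ := Q.cβ₁ L b1
  obtain ⟨v1, v2⟩ := Q.cβ₂ L b2
  have hpt := Q.pattern L hs
  simp only at hpt
  have d1 : (x : ZMod 12) → x + 1 ≠ x - 2 := by decide
  rcases hpt with ⟨e1, e2, e3, e4⟩ | ⟨e1, e2, e3, e4⟩ | ⟨e1, e2, e3, e4⟩ |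
    ⟨e1, e2, e3, e4⟩ | ⟨e1, e2, e3, e4⟩ | ⟨e1, e2, e3, e4⟩
  · -- colour j at b₂ and β₁
    refine no_dup L hc hs (b := b₂) (b' := β₁) ?_ (i := j) (i' := j) ?_ ?_ ?_ ?_
    · rintro rfl; exact Q.n21 b1
    · rw [e2, e3]; ring
    · rw [u1, u2, e1, e3]; ring
    · rw [u1, hp]
    · rw [u2]
  · -- colour j at b₁ and β₂
    refine no_dup L hc hs (b := b₁) (b' := β₂) ?_ (i := j) (i' := j) ?_ ?_ ?_ ?_
    · rintro rfl; exact Q.n12 b2
    · rw [e1, e4]; ring
    · rw [v1, v2, e2, e4]; ring
    · rw [v1, hp]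
    · rw [v2]
  · -- colour j + 2 at b₁ and b₂
    refine no_dup L hc hs Q.ne (i := j + 2) (i' := j + 2) ?_ ?_ ?_ ?_
    · rw [f22, f21, e1]
    · rw [f22, f21, cs, e2]
    · rw [f21, cs]
    · rw [f22, hp]
  · have := ht.2
    rw [e1, e3, e4] at this
    generalize h (L.c j b₁) = x at this
    revert x; decide
  · rw [hp, e2] at e1
    exact d1 _ e1.symm
  · rw [hp, e2] at e1
    exact d1 _ e1


end sq2

section dualpart

variable {X : Web B W} [Fintype B] [Fintype W] [Fintype V] [DecidableEq V]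

theorem dual_T1_i {j : Fin 3} {b₁ b₂ : B} (Q : Sq4 X j b₁ b₂) (L : Lab X V) (m : V → ZMod 4) :
    L.dual.T1i (-j) (X.e (j + 2) b₁) (X.e (j + 2) b₂) m = - L.T2i j b₁ b₂ m := by
  unfold Lab.T1i Lab.T2i
  rw [← Finset.sum_neg_distrib]
  refine (dual_sum _).trans ?_
  refine Finset.sum_congr rfl fun h _ => ?_
  have e1 : (Equiv.neg (V → ZMod 12)) h = fun v => - h v := rfl
  rw [e1, dual_E, epsi_neg]
  have hiff := and_congr (dual_sol L h) (dual_type1 Q L h)
  by_cases hs : L.Sol h ∧ L.type2 j b₁ b₂ h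
  · rw [if_pos hs, if_pos (hiff.2 hs)]
  · rw [if_neg hs, if_neg fun hs' => hs (hiff.1 hs'), neg_zero]

theorem dual_M1_i {j : Fin 3} {b₁ b₂ : B} (Q : Sq4 X j b₁ b₂) (L : Lab X V) (m : V → ZMod 4) :
    L.dual.M1i (-j) (X.e (j + 2) b₁) (X.e (j + 2) b₂) m = L.M1i j b₁ b₂ m := by
  unfold Lab.M1i
  refine (dual_sum _).trans ?_
  refine Finset.sum_congr rfl fun h _ => ?_
  have e1 : (Equiv.neg (V → ZMod 12)) h = fun v => - h v := rfl
  rw [e1, dual_E]
  by_cases hz : L.ZS j b₁ b₂ h
  · rw [if_pos hz, if_pos ((dual_ZS Q L h).2 hz), (Q.dual_c' L).2.1]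
    simp only
    rw [hz.2.2.2.1]
    have e2 : - L.E m h + kap (-(h (L.c (j + 1) b₁) - 2)) =
        -(L.E m h + kap (h (L.c (j + 1) b₁))) + 2 := by
      rw [map_neg, map_sub]
      have : kap 2 = 2 := by decide
      rw [this]
      ring
    rw [e2, eps_add_two_i, epsi_neg, neg_neg]
  · rw [if_neg hz, if_neg fun hz' => hz ((dual_ZS Q L h).1 hz')]

end dualpart

end Vale.Agent.P039.Sk
end

section

/-! The imaginary part: digons and one black vertex. -/

namespace Vale.Agent.P039.Sk

variable {B W V B' W' : Type}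

section dg

variable {Y : Web B W} [Fintype B] [Fintype V] [DecidableEq V] {j : Fin 3} {b : B}

open Classical in
theorem Lab.Si_eq_dg (L : Lab Y V) (m : V → ZMod 4) :
    L.Si m = ∑ h : V → ZMod 12, if L.Sol h then epsi (L.E m h) else 0 := by
  unfold Lab.Si
  apply Finset.sum_congr _ (fun _ _ => rfl)
  ext x
  simp only [Finset.mem_univ]

/-- an unmarked digon: `b` is the only black vertex of the face `L.c j b` -/
theorem S_digon_i (L : Lab Y V) (m : V → ZMod 4) (hm : m (L.c j b) = 0)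
    (hu : ∀ b', L.c j b' = L.c j b → b' = b) (hN : ∃ b', b' ≠ b) : L.Si m = 0 := by
  classical
  have hf := L.dg_edge hu
  have hvs : L.c (j + 2) b ≠ L.c j b := fun h => fne2 j (L.cls _ _ _ _ h)
  have hus : L.c (j + 1) b ≠ L.c j b := fun h => fne1 j (L.cls _ _ _ _ h)
  let σ : (V → ZMod 12) → (V → ZMod 12) := fun h =>
    Function.update h (L.c j b) (2 * h (L.c (j + 2) b) - 1 - h (L.c j b))
  have σs : ∀ h, σ h (L.c j b) = 2 * h (L.c (j + 2) b) - 1 - h (L.c j b) := fun h => by
    simp [σ]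
  have σne : ∀ h v, v ≠ L.c j b → σ h v = h v := fun h v hv => by
    simp [σ, hv]
  have hσ : ∀ h, σ (σ h) = h := by
    intro h
    funext v
    by_cases hv : v = L.c j b
    · rw [hv, σs, σs, σne _ _ hvs]
      ring
    · rw [σne _ _ hv, σne _ _ hv]
  have hSol : ∀ h, L.Sol h → L.Sol (σ h) := by
    rintro h ⟨hv, hc⟩
    have hup := Lab.dg_up hf hN hc
    have v1 := hv (j + 1) b
    rw [f12, f11] at v1
    have hd1 : h (L.c j b) = h (L.c (j + 2) b) + 1 →
        σ h (L.c j b) = h (L.c (j + 2) b) - 2 := by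
      intro h1
      rw [σs, h1]
      ring
    have hd2 : h (L.c j b) = h (L.c (j + 2) b) - 2 →
        σ h (L.c j b) = h (L.c (j + 2) b) + 1 := by
      intro h1
      rw [σs, h1]
      ring
    have hcls : ∀ k b1, L.c k b1 = L.c j b → k = j ∧ b1 = b := by
      intro k b1 h1
      have hk := L.cls _ _ _ _ h1
      rw [hk] at h1
      exact ⟨hk, hu _ h1⟩
    have key : ∀ i b1, ¬ (b1 = b ∧ i ≠ j) →
        σ h (L.c (i + 2) b1) = h (L.c (i + 2) b1) ∧ σ h (L.c (i + 1) b1) = h (L.c (i + 1) b1) := by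
      intro i b1 hib
      constructor
      · apply σne
        intro h1
        obtain ⟨hk, hb⟩ := hcls _ _ h1
        apply hib
        refine ⟨hb, fun hij => ?_⟩
        rw [hij] at hk
        exact fne2 j hk
      · apply σne
        intro h1
        obtain ⟨hk, hb⟩ := hcls _ _ h1
        apply hib
        refine ⟨hb, fun hij => ?_⟩
        rw [hij] at hk
        exact fne1 j hk
    constructor
    · intro i b1
      by_cases hib : b1 = b ∧ i ≠ j
      · obtain ⟨rfl, hij⟩ := hib
        rcases fcase i j with hi | hi | hi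
        · exact absurd hi hij
        · rw [hi, f12, f11, σne _ _ hvs]
          rcases v1 with h1 | h1
          · exact Or.inr (hd1 h1)
          · exact Or.inl (hd2 h1)
        · rw [hi, f22, f21, σne _ _ hus]
          rcases v1 with h1 | h1
          · left
            rw [hd1 h1, hup]
            ring
          · right
            rw [hd2 h1, hup]
            ring
      · rw [(key i b1 hib).1, (key i b1 hib).2]
        exact hv i b1
    · intro x y
      refine Relation.EqvGen.mono ?_ _ _ (hc x y)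
      rintro x y ⟨i, b1, h1, rfl, rfl⟩
      by_cases hib : b1 = b ∧ i ≠ j
      · obtain ⟨rfl, hij⟩ := hib
        rcases v1 with h2 | h2
        · -- new: edge j + 2
          refine ⟨j + 2, b1, ?_, rfl, ?_⟩
          · rw [f22, f21, σne _ _ hus, hd1 h2, hup]
            ring
          · rcases fcase i j with hi | hi | hi
            · exact absurd hi hij
            · rw [hi, hf]
            · rw [hi]
        · refine ⟨j + 1, b1, ?_, rfl, ?_⟩
          · rw [f12, f11, σne _ _ hvs, hd2 h2]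
          · rcases fcase i j with hi | hi | hi
            · exact absurd hi hij
            · rw [hi]
            · rw [hi, hf]
      · exact ⟨i, b1, by rw [(key i b1 hib).1, (key i b1 hib).2]; exact h1, rfl, rfl⟩
  have hE : ∀ h, L.Sol h → epsi (L.E m (σ h)) = - epsi (L.E m h) := by
    rintro h ⟨hv, hc⟩
    have v1 := hv (j + 1) b
    rw [f12, f11] at v1
    rw [L.dg_E_split (j := j) (b := b) (f := ((↑) : {a : B // a ≠ b} → B)) Subtype.val_injective
      (by simp) m (σ h), L.dg_E_split (j := j) (b := b) (f := ((↑) : {a : B // a ≠ b} → B))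
      Subtype.val_injective (by simp) m h]
    have e1 : ∑ v : {v : V // v ≠ L.c j b}, (3 + m v.1) * kap (σ h v.1) =
        ∑ v : {v : V // v ≠ L.c j b}, (3 + m v.1) * kap (h v.1) :=
      Finset.sum_congr rfl fun v _ => by rw [σne _ _ v.2]
    have e2 : ∑ a : {a : B // a ≠ b}, ∑ k, kap (σ h (L.c k a.1)) =
        ∑ a : {a : B // a ≠ b}, ∑ k, kap (h (L.c k a.1)) :=
      Finset.sum_congr rfl fun a _ => Finset.sum_congr rfl fun k _ => by
        rw [σne]
        intro h1
        have hk := L.cls _ _ _ _ h1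
        rw [hk] at h1
        exact a.2 (hu _ h1)
    rw [e1, e2, hm, σs, σne _ _ hus, σne _ _ hvs]
    rw [← eps_add_two_i]
    congr 1
    rcases v1 with h1 | h1
    · rw [h1, map_sub, map_sub, map_mul, dg_kap_two, map_add, map_one]
      linear_combination (-2 : ZMod 4) * dg_four4
    · rw [h1, map_sub, map_sub, map_mul, map_sub, dg_kap_two, map_one]
      linear_combination (1 : ZMod 4) * dg_four4
  have hmain : L.Si m = - L.Si m := by
    rw [Lab.Si_eq_dg]
    rw [← Finset.sum_neg_distrib]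
    refine Fintype.sum_equiv (⟨σ, σ, hσ, hσ⟩ : (V → ZMod 12) ≃ (V → ZMod 12)) _ _ fun h => ?_
    change _ = - (if L.Sol (σ h) then epsi (L.E m (σ h)) else 0)
    by_cases hs : L.Sol h
    · rw [if_pos hs, if_pos (hSol h hs), hE h hs, neg_neg]
    · rw [if_neg hs, if_neg (fun h1 => hs (by have := hSol _ h1; rwa [hσ] at this)), neg_zero]
  omega

/-- `Y` disconnected: the three edges of `b` are parallel -/
theorem S_isolated_i (L : Lab Y V) (m : V → ZMod 4) (h1 : Y.e (j + 1) b = Y.e j b)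
    (h2 : Y.e (j + 2) b = Y.e j b) (hN : ∃ b', b' ≠ b) : L.Si m = 0 := by
  classical
  rw [Lab.Si_eq_dg]
  refine Finset.sum_eq_zero fun h _ => if_neg ?_
  rintro ⟨-, hc⟩
  obtain ⟨b', hb'⟩ := hN
  refine Lab.dg_not_conn_of_closed (fun x => x = Sum.inl b ∨ x = Sum.inr (Y.e j b)) ?_
    (x := Sum.inl b) (y := Sum.inl b') (Or.inl rfl) (by simp [hb']) hc
  rintro x y ⟨i, b1, -, rfl, rfl⟩
  simp only [Sum.inl.injEq, reduceCtorEq, or_false, false_or, Sum.inr.injEq]
  have hi : Y.e j b = Y.e i b := by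
    rcases fcase i j with hi | hi | hi
    · rw [hi]
    · rw [hi, h1]
    · rw [hi, h2]
  rw [hi]
  exact ⟨fun hb => by rw [hb], fun h3 => (Y.e i).injective h3⟩

theorem dg_eps_c1_i : ∀ x e : ZMod 4, epsi (e + x) + epsi (e + (x - 2)) = 0 := by decide

theorem S_digon_marked_i [Fintype B'] {X : Web B' W'} {f : B' → B} {g : W' → W}
    (R : DgRel Y X f g j b)
    (L : Lab Y V) (L' : Lab X {v : V // v ≠ L.c j b})
    (hL' : ∀ k a, ((L'.c k a : {v : V // v ≠ L.c j b}) : V) = L.c k (f a))
    (m : V → ZMod 4) (hm : m (L.c j b) = 1) :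
    L.Si m = L'.Si (fun v => m v.1 + if v.1 = L.c (j + 2) b then 1 else 0)
      + L'.Si (fun v => m v.1 + if v.1 = L.c (j + 1) b then 1 else 0) := by
  classical
  obtain ⟨β, hβ⟩ := R.exists_beta
  have hvs : L.c (j + 2) b ≠ L.c j b := fun h => fne2 j (L.cls _ _ _ _ h)
  have hus : L.c (j + 1) b ≠ L.c j b := fun h => fne1 j (L.cls _ _ _ _ h)
  rw [Lab.Si_eq_dg, Lab.Si_eq_dg, Lab.Si_eq_dg, ← Finset.sum_add_distrib]
  rw [← (Equiv.funSplitAt (L.c j b) (ZMod 12)).symm.sum_comp, Fintype.sum_prod_type_right]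
  refine Finset.sum_congr rfl fun h' _ => ?_
  -- the exponent of `X`
  set E0 : ZMod 4 := ∑ v : {v : V // v ≠ L.c j b}, (3 + m v.1) * kap (h' v)
      - ∑ a : B', ∑ k, kap (h' (L'.c k a)) with hE0
  set v0 : {v : V // v ≠ L.c j b} := ⟨L.c (j + 2) b, hvs⟩ with hv0
  set u0 : {v : V // v ≠ L.c j b} := ⟨L.c (j + 1) b, hus⟩ with hu0
  have hEX : ∀ z : {v : V // v ≠ L.c j b}, L'.E (fun v => m v.1 + if v.1 = z.1 then 1 else 0) h' =
      E0 + kap (h' z) := by
    intro z
    have e1 : ∑ v : {v : V // v ≠ L.c j b}, (3 + (m v.1 + if v.1 = z.1 then 1 else 0)) * kap (h' v) =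
        ∑ v : {v : V // v ≠ L.c j b}, (3 + m v.1) * kap (h' v) + kap (h' z) := by
      have e2 : kap (h' z) = ∑ v : {v : V // v ≠ L.c j b}, if v = z then kap (h' v) else 0 := by
        rw [Finset.sum_ite_eq' Finset.univ z, if_pos (Finset.mem_univ _)]
      rw [e2, ← Finset.sum_add_distrib]
      refine Finset.sum_congr rfl fun v _ => ?_
      by_cases hz : v = z
      · rw [if_pos hz, if_pos (by rw [hz])]
        ring
      · rw [if_neg hz, if_neg (fun h => hz (Subtype.ext h))]
        ring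
    unfold Lab.E
    rw [e1, hE0]
    ring
  have hex : ∀ (t : ZMod 12) (v : {v : V // v ≠ L.c j b}),
      (Equiv.funSplitAt (L.c j b) (ZMod 12)).symm (t, h') v.1 = h' v := by
    intro t v
    simp [Equiv.funSplitAt, Equiv.piSplitAt, v.2]
  have hexs : ∀ (t : ZMod 12), (Equiv.funSplitAt (L.c j b) (ZMod 12)).symm (t, h') (L.c j b) = t := by
    intro t
    simp [Equiv.funSplitAt, Equiv.piSplitAt]
  have hEY : ∀ t : ZMod 12, L.E m ((Equiv.funSplitAt (L.c j b) (ZMod 12)).symm (t, h')) =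
      E0 - kap t - kap (h' u0) - kap (h' v0) := by
    intro t
    have hHv := hex t v0
    have hHu := hex t u0
    change (Equiv.funSplitAt (L.c j b) (ZMod 12)).symm (t, h') (L.c (j + 2) b) = h' v0 at hHv
    change (Equiv.funSplitAt (L.c j b) (ZMod 12)).symm (t, h') (L.c (j + 1) b) = h' u0 at hHu
    have e1 : ∑ v : {v : V // v ≠ L.c j b}, (3 + m v.1) *
        kap ((Equiv.funSplitAt (L.c j b) (ZMod 12)).symm (t, h') v.1) =
        ∑ v : {v : V // v ≠ L.c j b}, (3 + m v.1) * kap (h' v) :=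
      Finset.sum_congr rfl fun v _ => by rw [hex]
    have e2 : ∑ a : B', ∑ k, kap ((Equiv.funSplitAt (L.c j b) (ZMod 12)).symm (t, h') (L.c k (f a))) =
        ∑ a : B', ∑ k, kap (h' (L'.c k a)) :=
      Finset.sum_congr rfl fun a _ => Finset.sum_congr rfl fun k _ => by
        rw [← hL', hex]
    rw [L.dg_E_split (j := j) (b := b) R.fi R.fr]
    rw [e1, e2, hexs, hm, hHv, hHu, hE0]
    linear_combination (kap t) * dg_four4
  have hSol : ∀ t : ZMod 12, L.Sol ((Equiv.funSplitAt (L.c j b) (ZMod 12)).symm (t, h')) ↔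
      L'.Sol h' ∧ h' v0 = h' u0 + 1 ∧ (t = h' v0 + 1 ∨ t = h' v0 - 2) := by
    intro t
    have hHv := hex t v0
    have hHu := hex t u0
    change (Equiv.funSplitAt (L.c j b) (ZMod 12)).symm (t, h') (L.c (j + 2) b) = h' v0 at hHv
    change (Equiv.funSplitAt (L.c j b) (ZMod 12)).symm (t, h') (L.c (j + 1) b) = h' u0 at hHu
    have hres : (fun v : {v : V // v ≠ L.c j b} =>
        (Equiv.funSplitAt (L.c j b) (ZMod 12)).symm (t, h') v.1) = h' := funext fun v => hex t v
    rw [R.sol_iff L L' hL', hres, hHv, hHu, hexs]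
  by_cases hs : L'.Sol h'
  · rw [if_pos hs, if_pos hs]
    have hEv := hEX v0
    have hEu := hEX u0
    have hvu : h' v0 = h' u0 + 1 ∨ h' v0 = h' u0 - 2 := by
      have h1 := hs.1 j β
      have c1 : L'.c (j + 1) β = u0 := Subtype.ext (by rw [hL', R.c1 L hβ])
      have c2 : L'.c (j + 2) β = v0 := Subtype.ext (by rw [hL', R.c2 L hβ])
      rwa [c1, c2] at h1
    change _ = epsi (L'.E (fun v => m v.1 + if v.1 = v0.1 then 1 else 0) h') +
      epsi (L'.E (fun v => m v.1 + if v.1 = u0.1 then 1 else 0) h')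
    rw [hEv, hEu]
    rcases hvu with h1 | h1
    · have hne : h' v0 + 1 ≠ h' v0 - 2 := by
        generalize h' v0 = x
        revert x
        decide
      rw [Fintype.sum_eq_add (h' v0 + 1) (h' v0 - 2) hne]
      · rw [if_pos ((hSol _).2 ⟨hs, h1, Or.inl rfl⟩), if_pos ((hSol _).2 ⟨hs, h1, Or.inr rfl⟩),
          hEY, hEY, h1]
        simp only [map_add, map_sub, map_one, dg_kap_two]
        congr 2
        · linear_combination (-(kap (h' u0)) - 1) * dg_four4
        · linear_combination (-(kap (h' u0))) * dg_four4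
      · rintro t ⟨ht1, ht2⟩
        rw [if_neg]
        rw [hSol]
        rintro ⟨-, -, ht | ht⟩
        · exact ht1 ht
        · exact ht2 ht
    · rw [Finset.sum_eq_zero]
      · rw [h1, map_sub, dg_kap_two, add_comm, dg_eps_c1_i]
      · intro t _
        rw [if_neg]
        rw [hSol, h1]
        rintro ⟨-, h2, -⟩
        revert h2
        generalize h' u0 = x
        revert x
        decide
  · rw [if_neg hs, if_neg hs, add_zero]
    exact Finset.sum_eq_zero fun t _ => if_neg fun h => hs ((hSol t).1 h).1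

end dg

section theta

theorem thT_sum_i : ∀ i i' : Fin 3, i ≠ i' → ∑ p : ZMod 12 × Fin 3,
    epsi (∑ k : Fin 3, (3 + ((if k = i then 1 else 0) + if k = i' then 1 else 0)) *
      kap (p.1 + thT p.2 k) - ∑ k : Fin 3, kap (p.1 + thT p.2 k)) = 0 := by
  decide +kernel

variable {X : Web B W} [Fintype B] [Fintype V] [DecidableEq V]

open Classical in
theorem th_S_eq_i (L : Lab X V) (m : V → ZMod 4) :
    L.Si m = ∑ h : V → ZMod 12, if L.Sol h then epsi (L.E m h) else 0 := by
  unfold Lab.Si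
  apply Finset.sum_congr _ (fun _ _ => rfl)
  ext x
  simp only [Finset.mem_univ]

theorem S_theta_i (L : Lab X V) (hB : Fintype.card B = 1) {x y : V} (hxy : x ≠ y) :
    L.Si (fun v => (if v = x then 1 else 0) + if v = y then 1 else 0) = 0 := by
  classical
  obtain ⟨b, hb⟩ := Fintype.card_eq_one_iff.1 hB
  have hW : ∀ w w' : W, w = w' := fun w w' => by
    apply (X.e 0).symm.injective
    rw [hb ((X.e 0).symm w), hb ((X.e 0).symm w')]
  -- the three faces
  let e : Fin 3 ≃ V := Equiv.ofBijective (fun k => L.c k b)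
    ⟨fun k k' h => L.cls _ _ _ _ h, fun v => by
      obtain ⟨k, b', h⟩ := L.surj v
      exact ⟨k, by rw [← h, hb b']⟩⟩
  have he : ∀ k, L.c k b = e k := fun k => rfl
  have hec : ∀ k b', L.c k b' = e k := fun k b' => by rw [hb b', he]
  obtain ⟨i, rfl⟩ := e.surjective x
  obtain ⟨i', rfl⟩ := e.surjective y
  have hii : i ≠ i' := fun h => hxy (by rw [h])
  let φ : ZMod 12 × Fin 3 → (V → ZMod 12) := fun p v => p.1 + thT p.2 (e.symm v)
  have hφe : ∀ p k, φ p (e k) = p.1 + thT p.2 k := fun p k => by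
    simp only [φ, Equiv.symm_apply_apply]
  have hφ : Function.Injective φ := by
    rintro ⟨a, t⟩ ⟨a', t'⟩ h
    have h0 : ∀ k, a + thT t k = a' + thT t' k := fun k => by
      rw [← hφe (a, t) k, h, hφe]
    have h1 : a = a' := by
      have := h0 0
      rwa [thT_zero, thT_zero, add_zero, add_zero] at this
    subst h1
    have h2 : t = t' := thT_inj t t' fun k => add_left_cancel (h0 k)
    rw [h2]
  have hsol : ∀ p, L.Sol (φ p) := by
    intro p
    constructor
    · intro i b'
      rw [hec, hec, hφe, hφe]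
      exact thT_valid _ _ _
    · obtain ⟨i, hi⟩ := thT_up p.1 p.2
      have key : ∀ w : W, Relation.EqvGen (L.HE (φ p)) (Sum.inl b) (Sum.inr w) := by
        intro w
        refine Relation.EqvGen.rel _ _ ⟨i, b, ?_, rfl, by rw [hW w]⟩
        rw [hec, hec, hφe, hφe]
        exact hi
      intro x y
      rcases x with x | x <;> rcases y with y | y
      · rw [hb x, hb y]; exact Relation.EqvGen.refl _
      · rw [hb x]; exact key y
      · rw [hb y]; exact Relation.EqvGen.symm _ _ (key x)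
      · rw [hW x y]; exact Relation.EqvGen.refl _
  have hE : ∀ p, L.E (fun v => (if v = e i then 1 else 0) + if v = e i' then 1 else 0) (φ p) =
      ∑ k : Fin 3, (3 + ((if k = i then 1 else 0) + if k = i' then 1 else 0)) *
      kap (p.1 + thT p.2 k) - ∑ k : Fin 3, kap (p.1 + thT p.2 k) := by
    intro p
    unfold Lab.E
    congr 1
    · rw [← e.sum_comp]
      refine Finset.sum_congr rfl fun k _ => ?_
      rw [hφe]
      simp only [e.injective.eq_iff]
    · rw [Fintype.sum_eq_single b (fun b' h => absurd (hb b') h)]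
      refine Finset.sum_congr rfl fun k _ => ?_
      rw [hec, hφe]
  rw [th_S_eq_i]
  refine Eq.trans ?_ (thT_sum_i i i' hii)
  symm
  refine Fintype.sum_of_injective (M := ℤ) φ hφ _ _ ?_ ?_
  · intro h hh
    rw [if_neg]
    rintro ⟨hv, -⟩
    apply hh
    have v0 := hv 0 b
    have v1 := hv 1 b
    have v2 := hv 2 b
    rw [hec, hec] at v0 v1 v2
    obtain ⟨t, t0, t1, t2⟩ := thT_ex (h (e 0)) (h (e 1)) (h (e 2)) v0 v1 v2
    refine ⟨(h (e 0), t), ?_⟩
    funext v
    obtain ⟨k, rfl⟩ := e.surjective v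
    rw [hφe]
    fin_cases k
    · exact t0
    · exact t1
    · exact t2
  · intro p
    rw [if_pos (hsol p), hE]


end theta

end Vale.Agent.P039.Sk
end

section

/-! The imaginary part vanishes. -/

namespace Vale.Agent.P039.Sk

variable {B W V B' W' : Type}

namespace PosAux

/-- one of the two terms of the square rule -/
theorem term_step_i {B W V : Type} {X : Web B W} [Fintype B] [Fintype W] [Fintype V]
    [DecidableEq V] {j : Fin 3} {b₁ b₂ : B}
    (Q : Sq4 X j b₁ b₂) (L : Lab X V) (hc : Fintype.card V = Fintype.card B + 2)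
    (m : V → ZMod 4) (hm : m (L.c j b₁) = 0) (hp : L.c (j + 1) b₁ ≠ L.c (j + 1) b₂) :
    ∃ (B' W' V' : Type) (_ : Fintype B') (_ : Fintype W') (_ : Fintype V') (_ : DecidableEq V')
      (X' : Web B' W') (L' : Lab X' V') (π : V → V'),
      Fintype.card B = Fintype.card B' + 2 ∧ Fintype.card V' = Fintype.card B' + 2 ∧
      2 ≤ Fintype.card B' ∧ L.T1i j b₁ b₂ m + L.M1i j b₁ b₂ m = L'.Si (push π m) := by
  classical
  obtain ⟨X', R⟩ := Q.exists_rel
  obtain ⟨L', hL'⟩ := R.exists_lab L hp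
  obtain ⟨π, hπ⟩ := m1_eq_push L hp m hm
  obtain ⟨β₁, β₂, hβ, -, -⟩ := R.betas
  refine ⟨{b : B // b ≠ b₁ ∧ b ≠ b₂}, {w : W // w ≠ X.e (j + 2) b₁ ∧ w ≠ X.e (j + 2) b₂},
    L.V1 j b₁ b₂, inferInstance, inferInstance, inferInstance, inferInstance, X', L', π,
    R.card_B, ?_, ?_, ?_⟩
  · have h1 := R.card_V L hp
    have h2 := R.card_B
    omega
  · exact Fintype.one_lt_card_iff.2 ⟨β₁, β₂, hβ⟩
  · rw [T1_add_M1_i R L hp L' hL' m hm, hπ]

theorem sq_rule_i {B W V : Type} {X : Web B W} [Fintype B] [Fintype W] [Fintype V]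
    [DecidableEq V] {j : Fin 3} {b₁ b₂ : B}
    (Q : Sq4 X j b₁ b₂) (L : Lab X V) (hc : Fintype.card V = Fintype.card B + 2)
    (m : V → ZMod 4) (hm : m (L.c j b₁) = 0) (P : ℤ → Prop) (h0 : P 0)
    (hadd : ∀ a b, P a → P b → P (a + b)) (hneg : ∀ a, P a → P (-a))
    (H : ∀ (B' W' V' : Type) [Fintype B'] [Fintype W'] [Fintype V'] [DecidableEq V']
      (X' : Web B' W') (L' : Lab X' V') (π : V → V'),
      Fintype.card B = Fintype.card B' + 2 → Fintype.card V' = Fintype.card B' + 2 →
      2 ≤ Fintype.card B' → P (L'.Si (push π m))) : P (L.Si m) := by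
  have hcW : Fintype.card W = Fintype.card B := (Fintype.card_congr (X.e 0)).symm
  have hcd : Fintype.card V = Fintype.card W + 2 := by omega
  obtain ⟨d0, d1, d2, d3, d4⟩ := Q.dual_c L
  have hmd : m (L.dual.c (-j) (X.e (j + 2) b₁)) = 0 := by rw [d0]; exact hm
  have hS := S_eq_T1_add_T2_i Q L m
  by_cases hp : L.c (j + 1) b₁ = L.c (j + 1) b₂
  · have hT1 := T1_zero_i Q L hc hp m
    by_cases hq : L.c (j + 2) b₁ = L.c (j + 2) b₂
    · have hT2 := T2_zero_i Q L hc hq m
      rw [hS, hT1, hT2]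
      simpa using h0
    · have hpd : L.dual.c (-j + 1) (X.e (j + 2) b₁) ≠ L.dual.c (-j + 1) (X.e (j + 2) b₂) := by
        rw [d1, d2]
        exact fun h => hq h.symm
      have hqd : L.dual.c (-j + 2) (X.e (j + 2) b₁) = L.dual.c (-j + 2) (X.e (j + 2) b₂) := by
        rw [d3, d4]
        exact hp
      obtain ⟨B', W', V', i1, i2, i3, i4, X', L', π, h1, h2, h3, h4⟩ :=
        term_step_i Q.dual L.dual hcd m hmd hpd
      rw [M1_zero_i Q.dual L.dual hcd hpd hqd m hmd, dual_T1_i Q L m, add_zero] at h4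
      have h5 : L.Si m = - L'.Si (push π m) := by
        rw [hS, hT1, ← h4]
        ring
      rw [h5]
      exact hneg _ (H B' W' V' X' L' π (by omega) h2 h3)
  · obtain ⟨B', W', V', i1, i2, i3, i4, X', L', π, h1, h2, h3, h4⟩ :=
      term_step_i Q L hc m hm hp
    by_cases hq : L.c (j + 2) b₁ = L.c (j + 2) b₂
    · rw [M1_zero_i Q L hc hp hq m hm] at h4
      rw [hS, T2_zero_i Q L hc hq m, h4]
      exact H B' W' V' X' L' π h1 h2 h3
    · have hpd : L.dual.c (-j + 1) (X.e (j + 2) b₁) ≠ L.dual.c (-j + 1) (X.e (j + 2) b₂) := by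
        rw [d1, d2]
        exact fun h => hq h.symm
      obtain ⟨B'', W'', V'', i1', i2', i3', i4', X'', L'', π', h1', h2', h3', h4'⟩ :=
        term_step_i Q.dual L.dual hcd m hmd hpd
      rw [dual_T1_i Q L m, dual_M1_i Q L m] at h4'
      have : L.Si m = L'.Si (push π m) + - L''.Si (push π' m) := by
        rw [hS, ← h4, ← h4']
        ring
      rw [this]
      exact hadd _ _ (H B' W' V' X' L' π h1 h2 h3)
        (hneg _ (H B'' W'' V'' X'' L'' π' (by omega) h2' h3'))

section choose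

variable {X : Web B W} [Fintype B] [Fintype V] [DecidableEq V]

/-- an unmarked digon kills the sum -/
theorem S_of_unmarked_i (L : Lab X V) (hN : 2 ≤ Fintype.card B) (m : V → ZMod 4) {v : V}
    (hv : deg L v = 1) (hm : m v = 0) : L.Si m = 0 := by
  obtain ⟨k, b, hb, hd⟩ := deg_one L hv
  refine S_digon_i (j := k) (b := b) L m (by rw [hb]; exact hm) (fun b' h => digon_unique L hd h)
    (exists_other hN b)

end choose

theorem double_aux_i (n : ℕ) : ∀ {B W V : Type} {X : Web B W} [Fintype B] [Fintype W] [Fintype V]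
    [DecidableEq V] (L : Lab X V), Fintype.card B = n → Fintype.card V = Fintype.card B + 2 →
    2 ≤ Fintype.card B → ∀ x : V, L.Si (fun v => if v = x then 2 else 0) = 0 := by
  induction n using Nat.strong_induction_on with
  | _ n ih =>
    intro B W V X _ _ _ _ L hn hc hN x
    by_cases hU : ∃ v, v ≠ x ∧ deg L v = 1
    · obtain ⟨v, hv, hd⟩ := hU
      exact S_of_unmarked_i L hN _ hd (by simp [hv])
    · push Not at hU
      have h2 : ∀ v, v ≠ x → 2 ≤ deg L v := by
        intro v hv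
        have h3 := hU v hv
        have h4 := deg_pos L v
        omega
      obtain ⟨k, b₁, b₂, hF, Q⟩ := exists_sq4 L (x := x) _ (card_F1 L hc x h2)
        (fun v hv => (Finset.mem_filter.1 hv).2.2) (by
          intro k b hd
          by_contra hne
          exact hU _ hne (deg_of_digon L hd))
      have hsx : L.c k b₁ ≠ x := (Finset.mem_filter.1 hF).2.1
      refine sq_rule_i Q L hc _ (by simp [hsx]) (fun a => a = 0) rfl
        (by rintro a b rfl rfl; rfl) (by rintro a rfl; rfl) ?_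
      intro B' W' V' _ _ _ _ X' L' π h1 h2 h3
      rw [push_single]
      exact ih (Fintype.card B') (by omega) L' rfl h2 h3 (π x)

theorem nonneg_aux_i (n : ℕ) : ∀ {B W V : Type} {X : Web B W} [Fintype B] [Fintype W] [Fintype V]
    [DecidableEq V] (L : Lab X V), Fintype.card B = n → Fintype.card V = Fintype.card B + 2 →
    ∀ x y : V, x ≠ y →
    L.Si (fun v => (if v = x then 1 else 0) + if v = y then 1 else 0) = 0 := by
  induction n using Nat.strong_induction_on with
  | _ n ih =>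
    intro B W V X _ _ _ _ L hn hc x y hxy
    have hpos : 1 ≤ Fintype.card B := by
      obtain ⟨-, b, -⟩ := L.surj x
      exact Fintype.card_pos_iff.2 ⟨b⟩
    rcases Nat.lt_or_ge 1 (Fintype.card B) with hN | hN
    swap
    · rw [S_theta_i L (by omega) hxy]
    have hN : 2 ≤ Fintype.card B := hN
    by_cases hU : ∃ v, (v ≠ x ∧ v ≠ y) ∧ deg L v = 1
    · obtain ⟨v, ⟨hv, hw⟩, hd⟩ := hU
      exact S_of_unmarked_i L hN _ hd (by simp [hv, hw])
    push Not at hU
    have h2 : ∀ v, v ≠ x → v ≠ y → 2 ≤ deg L v := by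
      intro v hv hw
      have h3 := hU v ⟨hv, hw⟩
      have h4 := deg_pos L v
      omega
    -- marks at different or equal faces of a web with at least two black vertices
    have main : ∀ {B' W' V' : Type} [Fintype B'] [Fintype W'] [Fintype V'] [DecidableEq V']
        {X' : Web B' W'} (L' : Lab X' V'), Fintype.card B' < n →
        Fintype.card V' = Fintype.card B' + 2 → ∀ x' y' : V', (x' = y' → 2 ≤ Fintype.card B') →
        L'.Si (fun v => (if v = x' then 1 else 0) + if v = y' then 1 else 0) = 0 := by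
      intro B' W' V' _ _ _ _ X' L' hlt hc' x' y' h
      by_cases he : x' = y'
      · subst he
        have h3 : (fun v : V' => ((if v = x' then (1 : ZMod 4) else 0) +
            if v = x' then (1 : ZMod 4) else 0)) = fun v => if v = x' then 2 else 0 := by
          ext v
          split_ifs
          · decide
          · simp
        rw [h3, double_aux_i _ L' rfl hc' (h rfl) x']
      · exact ih _ hlt L' rfl hc' x' y' he
    -- a marked digon
    have dig : ∀ x y : V, x ≠ y → (∀ v, v ≠ x → v ≠ y → 2 ≤ deg L v) → deg L x = 1 →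
        L.Si (fun v => (if v = x then 1 else 0) + if v = y then 1 else 0) = 0 := by
      intro x y hxy h2 hx
      classical
      obtain ⟨k, b, hb, hd⟩ := deg_one L hx
      by_cases hiso : X.e k b = X.e (k + 2) b
      · exact (S_isolated_i (j := k) (b := b) L _ (hd.trans hiso.symm) hiso.symm
          (exists_other hN b))
      obtain ⟨X', R⟩ := exists_dg hd hiso
      obtain ⟨L', hL'⟩ := R.exists_lab L
      have hyx : y ≠ L.c k b := by rw [hb]; exact hxy.symm
      rw [S_digon_marked_i R L L' hL' _ (by simp [hb, hxy])]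
      have hcard := R.card_B
      have hcardV := DgRel.card_V (j := k) (b := b) L
      have hterm : ∀ u : V, u ≠ L.c k b → (u = y → ∃ i, i ≠ k ∧ L.c i b = y ∧
          (X.e (i + 1) b = X.e (i + 2) b → X.e k b = X.e (k + 2) b)) →
          L'.Si (fun v => ((if v.1 = x then 1 else 0) + if v.1 = y then 1 else 0) +
            if v.1 = u then 1 else 0) = 0 := by
        intro u hu huy
        have h3 : (fun v : {v : V // v ≠ L.c k b} => (((if v.1 = x then (1 : ZMod 4) else 0) +
            if v.1 = y then (1 : ZMod 4) else 0) + if v.1 = u then (1 : ZMod 4) else 0)) =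
            fun v => (if v = ⟨y, hyx⟩ then (1 : ZMod 4) else 0) +
              if v = ⟨u, hu⟩ then (1 : ZMod 4) else 0 := by
          ext v
          have h4 : v.1 ≠ x := by
            rw [← hb]
            exact v.2
          rw [if_neg h4, zero_add]
          simp only [Subtype.ext_iff]
        rw [h3]
        refine main L' (by omega) (by omega) _ _ ?_
        intro he
        have hyu : y = u := congrArg Subtype.val he
        obtain ⟨i, hi, hi1, hi2⟩ := huy hyu.symm
        by_contra hlt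
        have hB2 : Fintype.card B = 2 := by omega
        have hdy := deg_y L hc hB2 hxy h2
        obtain ⟨k', b', hb', hd'⟩ := deg_one L hdy
        have h5 : L.c i b = L.c k' b' := hi1.trans hb'.symm
        have h6 : i = k' := L.cls _ _ _ _ h5
        subst h6
        have h7 : b = b' := digon_unique L hd' h5
        subst h7
        exact hiso (hi2 hd')
      refine (congrArg₂ (· + ·) (hterm (L.c (k + 2) b) ?_ ?_)
        (hterm (L.c (k + 1) b) ?_ ?_)).trans (add_zero 0)
      · exact fun h => fne2 k (L.cls _ _ _ _ h)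
      · intro h
        refine ⟨k + 2, fne2 k, h, ?_⟩
        rw [f21, f22]
        intro h'
        exact h'.trans hd
      · exact fun h => fne1 k (L.cls _ _ _ _ h)
      · intro h
        refine ⟨k + 1, fne1 k, h, ?_⟩
        rw [f11, f12]
        intro h'
        exact h'.symm
    by_cases hx : deg L x = 1
    · exact dig x y hxy h2 hx
    by_cases hy : deg L y = 1
    · have h3 := dig y x hxy.symm (fun v hv hw => h2 v hw hv) hy
      have h4 : (fun v : V => (if v = y then (1 : ZMod 4) else 0) +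
          if v = x then (1 : ZMod 4) else 0) = fun v => (if v = x then 1 else 0) +
          if v = y then 1 else 0 := by
        ext v
        rw [add_comm]
      rw [h4] at h3
      exact h3
    -- no digons
    have h2' : ∀ v, 2 ≤ deg L v := by
      intro v
      have h4 := deg_pos L v
      by_cases hv : v = x
      · subst hv
        omega
      · by_cases hw : v = y
        · subst hw
          omega
        · exact h2 v hv hw
    obtain ⟨k, b₁, b₂, hF, Q⟩ := exists_sq4 L (x := x) _ (card_F2 L hc x y h2')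
      (fun v hv => (Finset.mem_filter.1 hv).2.2) (by
        intro k b hd
        have h3 := deg_of_digon L hd
        have h4 := h2' (L.c k b)
        omega)
    have hs := (Finset.mem_filter.1 hF).2.1
    refine sq_rule_i Q L hc _ (by simp [hs.1, hs.2]) (fun a => a = 0) rfl
      (by rintro a b rfl rfl; rfl) (by rintro a rfl; rfl) ?_
    intro B' W' V' _ _ _ _ X' L' π h1 h2 h3
    rw [push_add, push_single, push_single]
    exact main L' (by omega) h2 (π x) (π y) (fun _ => h3)

end PosAux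

open PosAux

variable {X : Web B W} [Fintype B] [Fintype W] [Fintype V] [DecidableEq V]

/-- the imaginary part of the sum for two marks is zero -/
theorem Si_zero (L : Lab X V) (hc : Fintype.card V = Fintype.card B + 2)
    (hN : 2 ≤ Fintype.card B) (x y : V) :
    L.Si (fun v => (if v = x then 1 else 0) + if v = y then 1 else 0) = 0 := by
  by_cases h : x = y
  · subst h
    have h3 : (fun v : V => ((if v = x then (1 : ZMod 4) else 0) +
        if v = x then (1 : ZMod 4) else 0)) = fun v => if v = x then 2 else 0 := by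
      ext v
      split_ifs
      · decide
      · simp
    rw [h3]
    exact double_aux_i _ L rfl hc hN x
  · exact nonneg_aux_i _ L rfl hc x y h

end Vale.Agent.P039.Sk
end

section

/-! A solution gives a Hamiltonian cycle. -/

namespace Vale.Agent.P039.Sk

variable {B W V B' W' : Type}

theorem hsol_arith {a : Fin 3 → ZMod 12}
    (ha : ∀ i, a (i + 2) = a (i + 1) + 1 ∨ a (i + 2) = a (i + 1) - 2) :
    ∃ k, a (k + 2) ≠ a (k + 1) + 1 ∧ a (k + 1 + 2) = a (k + 1 + 1) + 1 ∧
      a (k + 2 + 2) = a (k + 2 + 1) + 1 := by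
  have h0 := ha 0
  have h1 := ha 1
  have h2 := ha 2
  have e02 : (0 : Fin 3) + 2 = 2 := by decide
  have e01 : (0 : Fin 3) + 1 = 1 := by decide
  have e12 : (1 : Fin 3) + 2 = 0 := by decide
  have e11 : (1 : Fin 3) + 1 = 2 := by decide
  have e22 : (2 : Fin 3) + 2 = 1 := by decide
  have e21 : (2 : Fin 3) + 1 = 0 := by decide
  rw [e02, e01] at h0
  rw [e12, e11] at h1
  rw [e22, e21] at h2
  have n3 : ∀ x : ZMod 12, x ≠ x + 3 := by decide
  have n3' : ∀ x : ZMod 12, x ≠ x - 3 := by decide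
  have n6 : ∀ x : ZMod 12, x ≠ x - 6 := by decide
  have hx : ∀ x y : ZMod 12, x = y - 2 → x ≠ y + 1 := by decide
  have key : ∀ x y z : ZMod 12, (z = y + 1 ∨ z = y - 2) → (x = z + 1 ∨ x = z - 2) →
      (y = x + 1 ∨ y = x - 2) →
      (z ≠ y + 1 ∧ x = z + 1 ∧ y = x + 1) ∨ (x ≠ z + 1 ∧ y = x + 1 ∧ z = y + 1) ∨
        (y ≠ x + 1 ∧ z = y + 1 ∧ x = z + 1) := by
    rintro x y z (h0 | h0) (h1 | h1) (h2 | h2)
    · exfalso; apply n3 y; rw [h0] at h1; rw [h1] at h2; nth_rw 1 [h2]; ring
    · exact Or.inr (Or.inr ⟨hx _ _ h2, h0, h1⟩)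
    · exact Or.inr (Or.inl ⟨hx _ _ h1, h2, h0⟩)
    · exfalso; apply n3' y; rw [h0] at h1; rw [h1] at h2; nth_rw 1 [h2]; ring
    · exact Or.inl ⟨hx _ _ h0, h1, h2⟩
    · exfalso; apply n3' y; rw [h0] at h1; rw [h1] at h2; nth_rw 1 [h2]; ring
    · exfalso; apply n3' y; rw [h0] at h1; rw [h1] at h2; nth_rw 1 [h2]; ring
    · exfalso; apply n6 y; rw [h0] at h1; rw [h1] at h2; nth_rw 1 [h2]; ring
  rcases key _ _ _ h0 h1 h2 with h | h | h
  · refine ⟨0, ?_⟩
    rw [e02, e01, e12, e11, e22, e21]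
    exact h
  · refine ⟨1, ?_⟩
    rw [e12, e11, e22, e21, e02, e01]
    exact h
  · refine ⟨2, ?_⟩
    rw [e22, e21, e02, e01, e12, e11]
    exact h

/-- The edge of colour `i` at `b` lies in the 2-factor. -/
def HI {X : Web B W} (L : Lab X V) (h : V → ZMod 12) (i : Fin 3) (b : B) : Prop :=
  h (L.c (i + 2) b) = h (L.c (i + 1) b) + 1

theorem hi_black {X : Web B W} {L : Lab X V} {h : V → ZMod 12} (hv : L.Valid h) (b : B) :
    ∃ k, ¬ HI L h k b ∧ HI L h (k + 1) b ∧ HI L h (k + 2) b :=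
  hsol_arith (a := fun i => h (L.c i b)) fun i => hv i b

theorem hi_iff {X : Web B W} (L : Lab X V) (h : V → ZMod 12) (w : W) (i : Fin 3) :
    HI L h i ((X.e i).symm w) ↔
      h (L.c (i + 2) ((X.e (i + 2 + 1)).symm w)) = h (L.c (i + 1) ((X.e (i + 1 + 1)).symm w)) + 1
      := by
  have h1 : L.c (i + 1) ((X.e (i + 1 + 1)).symm w) = L.c (i + 1) ((X.e i).symm w) := by
    apply L.step
    rw [f12, Equiv.apply_symm_apply, Equiv.apply_symm_apply]
  rw [HI, h1, f21]

theorem hi_white {X : Web B W} {L : Lab X V} {h : V → ZMod 12} (hv : L.Valid h) (w : W) :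
    ∃ k, ¬ HI L h k ((X.e k).symm w) ∧ HI L h (k + 1) ((X.e (k + 1)).symm w) ∧
      HI L h (k + 2) ((X.e (k + 2)).symm w) := by
  have ha : ∀ i : Fin 3, h (L.c (i + 2) ((X.e (i + 2 + 1)).symm w)) =
      h (L.c (i + 1) ((X.e (i + 1 + 1)).symm w)) + 1 ∨
      h (L.c (i + 2) ((X.e (i + 2 + 1)).symm w)) =
      h (L.c (i + 1) ((X.e (i + 1 + 1)).symm w)) - 2 := by
    intro i
    have h1 : L.c (i + 1) ((X.e (i + 1 + 1)).symm w) = L.c (i + 1) ((X.e i).symm w) := by
      apply L.step
      rw [f12, Equiv.apply_symm_apply, Equiv.apply_symm_apply]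
    have := hv i ((X.e i).symm w)
    rw [f21, h1]
    exact this
  obtain ⟨k, hk0, hk1, hk2⟩ := hsol_arith (a := fun i => h (L.c i ((X.e (i + 1)).symm w))) ha
  exact ⟨k, fun hh => hk0 ((hi_iff L h w k).1 hh), (hi_iff L h w (k + 1)).2 hk1,
    (hi_iff L h w (k + 2)).2 hk2⟩

theorem eqvGen_iff {α : Type} {R : α → α → Prop} {P : α → Prop}
    (hR : ∀ x y, R x y → (P x ↔ P y)) {x y : α} (h : Relation.EqvGen R x y) : P x ↔ P y := by
  induction h with
  | rel x y h => exact hR x y h
  | refl x => exact Iff.rfl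
  | symm x y _ ih => exact ih.symm
  | trans x y z _ _ ih1 ih2 => exact ih1.trans ih2

/-- Two edges of the 2-factor are never parallel. -/
theorem hi_ne {X : Web B W} [Fintype B] {L : Lab X V} (hN : 2 ≤ Fintype.card B)
    {h : V → ZMod 12} (hs : L.Sol h) {b : B} {k : Fin 3} (h0 : ¬ HI L h k b)
    (h1 : HI L h (k + 1) b) (h2 : HI L h (k + 2) b) : X.e (k + 1) b ≠ X.e (k + 2) b := by
  intro hp
  obtain ⟨b', hb'⟩ : ∃ b', b' ≠ b := by
    have : Nontrivial B := Fintype.one_lt_card_iff_nontrivial.1 (by omega)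
    exact exists_ne b
  have hw : ∀ i b'', HI L h i b'' → X.e i b'' = X.e (k + 2) b → b'' = b := by
    intro i b'' hi he
    obtain ⟨k', g0, g1, g2⟩ := hi_white hs.1 (X.e (k + 2) b)
    have e1 : (X.e (k + 1)).symm (X.e (k + 2) b) = b := by
      rw [Equiv.symm_apply_eq, hp]
    have e2 : (X.e (k + 2)).symm (X.e (k + 2) b) = b := by rw [Equiv.symm_apply_apply]
    have q1 : HI L h (k + 1) ((X.e (k + 1)).symm (X.e (k + 2) b)) := by rw [e1]; exact h1
    have q2 : HI L h (k + 2) ((X.e (k + 2)).symm (X.e (k + 2) b)) := by rw [e2]; exact h2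
    rcases fcase i k with rfl | rfl | rfl
    · exfalso
      have e3 : (X.e i).symm (X.e (i + 2) b) = b'' := by rw [← he, Equiv.symm_apply_apply]
      rcases fcase k' i with rfl | rfl | rfl
      · exact g0 (e3 ▸ hi)
      · exact g0 q1
      · exact g0 q2
    · rw [← e1, ← he, Equiv.symm_apply_apply]
    · exact (X.e (k + 2)).injective he
  have hP : ∀ x y, L.HE h x y →
      ((x = Sum.inl b ∨ x = Sum.inr (X.e (k + 2) b)) ↔
        (y = Sum.inl b ∨ y = Sum.inr (X.e (k + 2) b))) := by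
    rintro x y ⟨i, b'', hi, rfl, rfl⟩
    constructor
    · rintro (h3 | h3)
      · have h3 : b'' = b := Sum.inl_injective h3
        subst h3
        right
        rcases fcase i k with rfl | rfl | rfl
        · exact absurd hi h0
        · rw [hp]
        · rfl
      · cases h3
    · rintro (h3 | h3)
      · cases h3
      · left
        rw [hw i b'' hi (Sum.inr_injective h3)]
  have := (eqvGen_iff (P := fun x => x = Sum.inl b ∨ x = Sum.inr (X.e (k + 2) b)) hP
    (hs.2 (Sum.inl b) (Sum.inl b'))).1 (Or.inl rfl)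
  rcases this with h3 | h3
  · exact hb' (Sum.inl_injective h3)
  · cases h3

/-- The same at white vertices. -/
theorem hi_ne' {X : Web B W} [Fintype B] {L : Lab X V} (hN : 2 ≤ Fintype.card B)
    {h : V → ZMod 12} (hs : L.Sol h) {w : W} {k : Fin 3}
    (h1 : HI L h (k + 1) ((X.e (k + 1)).symm w)) (h2 : HI L h (k + 2) ((X.e (k + 2)).symm w)) :
    (X.e (k + 1)).symm w ≠ (X.e (k + 2)).symm w := by
  intro hp
  obtain ⟨k', g0, g1, g2⟩ := hi_black hs.1 ((X.e (k + 2)).symm w)
  rw [hp] at h1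
  have hk : k' = k := by
    rcases fcase k' k with rfl | rfl | rfl
    · rfl
    · exact absurd h1 g0
    · exact absurd h2 g0
  subst hk
  refine hi_ne hN hs g0 g1 g2 ?_
  rw [Equiv.apply_symm_apply, ← hp, Equiv.apply_symm_apply]

/-- The graph of the 2-factor. -/
def HG {X : Web B W} (L : Lab X V) (h : V → ZMod 12) : SimpleGraph (B ⊕ W) :=
  SimpleGraph.fromRel (L.HE h)

theorem hg_adj_black {X : Web B W} {L : Lab X V} {h : V → ZMod 12} {b : B} {y : B ⊕ W} :
    (HG L h).Adj (Sum.inl b) y ↔ ∃ i, HI L h i b ∧ y = Sum.inr (X.e i b) := by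
  rw [HG, SimpleGraph.fromRel_adj]
  constructor
  · rintro ⟨_, ⟨i, b', hi, hx, hy⟩ | ⟨i, b', hi, hx, hy⟩⟩
    · have : b' = b := (Sum.inl_injective hx).symm
      subst this
      exact ⟨i, hi, hy⟩
    · cases hy
  · rintro ⟨i, hi, rfl⟩
    exact ⟨by simp, Or.inl ⟨i, b, hi, rfl, rfl⟩⟩

theorem hg_adj_white {X : Web B W} {L : Lab X V} {h : V → ZMod 12} {w : W} {y : B ⊕ W} :
    (HG L h).Adj (Sum.inr w) y ↔
      ∃ i, HI L h i ((X.e i).symm w) ∧ y = Sum.inl ((X.e i).symm w) := by
  rw [HG, SimpleGraph.fromRel_adj]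
  constructor
  · rintro ⟨_, ⟨i, b', hi, hx, hy⟩ | ⟨i, b', hi, hx, hy⟩⟩
    · cases hx
    · have : w = X.e i b' := Sum.inr_injective hy
      subst this
      refine ⟨i, ?_, ?_⟩
      · rw [Equiv.symm_apply_apply]; exact hi
      · rw [Equiv.symm_apply_apply]; exact hx
  · rintro ⟨i, hi, rfl⟩
    exact ⟨by simp, Or.inr ⟨i, _, hi, rfl, by rw [Equiv.apply_symm_apply]⟩⟩

theorem hg_isCycles {X : Web B W} [Fintype B] {L : Lab X V} (hN : 2 ≤ Fintype.card B)
    {h : V → ZMod 12} (hs : L.Sol h) : (HG L h).IsCycles := by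
  intro v _
  rw [Set.ncard_eq_two]
  rcases v with b | w
  · obtain ⟨k, h0, h1, h2⟩ := hi_black hs.1 b
    refine ⟨Sum.inr (X.e (k + 1) b), Sum.inr (X.e (k + 2) b), ?_, ?_⟩
    · exact fun hh => hi_ne hN hs h0 h1 h2 (Sum.inr_injective hh)
    · ext y
      rw [SimpleGraph.mem_neighborSet, hg_adj_black, Set.mem_insert_iff, Set.mem_singleton_iff]
      constructor
      · rintro ⟨i, hi, rfl⟩
        rcases fcase i k with rfl | rfl | rfl
        · exact absurd hi h0
        · exact Or.inl rfl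
        · exact Or.inr rfl
      · rintro (rfl | rfl)
        · exact ⟨_, h1, rfl⟩
        · exact ⟨_, h2, rfl⟩
  · obtain ⟨k, h0, h1, h2⟩ := hi_white hs.1 w
    refine ⟨Sum.inl ((X.e (k + 1)).symm w), Sum.inl ((X.e (k + 2)).symm w), ?_, ?_⟩
    · exact fun hh => hi_ne' hN hs h1 h2 (Sum.inl_injective hh)
    · ext y
      rw [SimpleGraph.mem_neighborSet, hg_adj_white, Set.mem_insert_iff, Set.mem_singleton_iff]
      constructor
      · rintro ⟨i, hi, rfl⟩
        rcases fcase i k with rfl | rfl | rfl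
        · exact absurd hi h0
        · exact Or.inl rfl
        · exact Or.inr rfl
      · rintro (rfl | rfl)
        · exact ⟨_, h1, rfl⟩
        · exact ⟨_, h2, rfl⟩

theorem hg_reachable {X : Web B W} {L : Lab X V} {h : V → ZMod 12} (hs : L.Conn h)
    (x y : B ⊕ W) : (HG L h).Reachable x y := by
  have : ∀ x y, Relation.EqvGen (L.HE h) x y → (HG L h).Reachable x y := by
    intro x y hxy
    induction hxy with
    | rel x y hxy =>
      refine SimpleGraph.Adj.reachable ?_
      obtain ⟨i, b, hi, rfl, rfl⟩ := hxy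
      exact hg_adj_black.2 ⟨i, hi, rfl⟩
    | refl x => exact SimpleGraph.Reachable.refl x
    | symm x y _ ih => exact ih.symm
    | trans x y z _ _ ih1 ih2 => exact ih1.trans ih2
  exact this x y (hs x y)

theorem hg_le {X : Web B W} {L : Lab X V} {h : V → ZMod 12} : HG L h ≤ X.graph := by
  intro x y hxy
  rw [HG, SimpleGraph.fromRel_adj] at hxy
  rw [Web.graph, SimpleGraph.fromRel_adj]
  refine ⟨hxy.1, ?_⟩
  rcases hxy.2 with ⟨i, b, _, rfl, rfl⟩ | ⟨i, b, _, rfl, rfl⟩
  · exact Or.inl ⟨i, b, rfl, rfl⟩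
  · exact Or.inr ⟨i, b, rfl, rfl⟩

theorem hsol_count {α : Type} [DecidableEq α] {l : List α} {a : α} (h : l.Nodup) (ha : a ∈ l) :
    l.count a = 1 := List.count_eq_one_of_mem h ha

theorem ham_of_sol {X : Web B W} [Fintype B] [Fintype W] [DecidableEq B] [DecidableEq W]
    (L : Lab X V) (hN : 2 ≤ Fintype.card B) {h : V → ZMod 12} (hs : L.Sol h) :
    X.graph.IsHamiltonian := by
  intro _
  obtain ⟨b⟩ : Nonempty B := Fintype.card_pos_iff.1 (by omega)
  obtain ⟨k, h0, h1, h2⟩ := hi_black hs.1 b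
  have hn : ((HG L h).neighborSet (Sum.inl b)).Nonempty :=
    ⟨Sum.inr (X.e (k + 1) b), hg_adj_black.2 ⟨_, h1, rfl⟩⟩
  obtain ⟨p, hp, hv⟩ :=
    (hg_isCycles hN hs).exists_cycle_toSubgraph_verts_eq_connectedComponentSupp
      (c := (HG L h).connectedComponentMk (Sum.inl b)) (v := Sum.inl b) rfl hn
  have hall : ∀ a, a ∈ p.support := by
    intro a
    rw [← SimpleGraph.Walk.mem_verts_toSubgraph, hv]
    exact SimpleGraph.ConnectedComponent.eq.2 (hg_reachable hs.2 _ _)
  refine ⟨Sum.inl b, p.mapLe hg_le, ?_⟩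
  rw [SimpleGraph.Walk.isHamiltonianCycle_iff_isCycle_and_support_count_tail_eq_one]
  refine ⟨hp.mapLe _, fun a => ?_⟩
  rw [SimpleGraph.Walk.support_mapLe_eq_support]
  refine hsol_count hp.support_nodup ?_
  have ha := hall a
  rw [SimpleGraph.Walk.mem_support_iff] at ha
  rcases ha with rfl | ha
  · exact SimpleGraph.Walk.end_mem_tail_support hp.not_nil
  · exact ha

end Vale.Agent.P039.Sk
end

section

/-! The class and the result. -/

namespace Vale.Agent.P039.Sk

variable {B W V B' W' : Type}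

theorem Final_exists_lab [Finite B] (X : Web B W) :
    ∃ (V : Type) (_ : Fintype V) (_ : DecidableEq V), Nonempty (Lab X V) := by
  classical
  let r : Fin 3 → B → B → Prop := fun j x y => X.e (j + 1) y = X.e (j + 2) x
  have : ∀ j, Finite (Quot (r j)) := fun j => Quot.finite _
  refine ⟨Σ j : Fin 3, Quot (r j), Fintype.ofFinite _, Classical.decEq _, ⟨?_⟩⟩
  exact
    { c := fun j b => ⟨j, Quot.mk (r j) b⟩
      step := fun j b b' h => by
        have h1 : Quot.mk (r j) b = Quot.mk (r j) b' := Quot.sound h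
        rw [h1]
      exact := fun j b b' h => by
        have h2 := Sigma.mk.inj_iff.1 h
        exact Quot.eqvGen_exact (eq_of_heq h2.2)
      cls := fun j j' b b' h => congrArg Sigma.fst h
      surj := by
        rintro ⟨j, q⟩
        induction q using Quot.ind with
        | mk b => exact ⟨j, b, rfl⟩ }

/-- invariants of faces -/
theorem Final_inv {X : Web B W} (L : Lab X V) {j : Fin 3} {α : Type} (F : B → α)
    (hF : ∀ x y, X.e (j + 1) y = X.e (j + 2) x → F x = F y) {b b' : B}
    (h : L.c j b = L.c j b') : F b = F b' := by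
  have h1 := L.exact j b b' h
  clear h
  induction h1 with
  | rel x y h => exact hF x y h
  | refl x => rfl
  | symm x y _ ih => exact ih.symm
  | trans x y z _ _ ih1 ih2 => exact ih1.trans ih2

theorem Lab.sameFace {X : Web B W} [Finite B] (L : Lab X V) (j : Fin 3) (b b' : B) :
    X.SameFace j b b' ↔ L.c j b = L.c j b' := by
  have hr : ∀ x, X.e (j + 1) (X.rho j x) = X.e (j + 2) x := fun x => by
    simp [Web.rho]
  have h1 : ∀ x, L.c j (X.rho j x) = L.c j x := fun x => L.step j x _ (hr x)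
  constructor
  · rintro ⟨n, hn⟩
    have hz : ∀ (n : ℤ) (x : B), L.c j ((X.rho j ^ n) x) = L.c j x := by
      intro n
      induction n using Int.induction_on with
      | zero => intro x; rw [zpow_zero]; rfl
      | succ i ih => intro x; rw [zpow_add_one, Equiv.Perm.mul_apply, ih, h1]
      | pred i ih =>
        intro x
        rw [zpow_sub_one, Equiv.Perm.mul_apply, ih]
        have h2 := h1 ((X.rho j)⁻¹ x)
        have h3 : X.rho j ((X.rho j)⁻¹ x) = x := (X.rho j).apply_symm_apply x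
        rw [h3] at h2
        exact h2.symm
    rw [← hn, hz]
  · intro h
    have h2 := L.exact j b b' h
    clear h
    induction h2 with
    | rel x y h =>
      have h3 : y = X.rho j x := (X.e (j + 1)).injective (h.trans (hr x).symm)
      rw [h3]
      exact ⟨1, by rw [zpow_one]⟩
    | refl x => exact Equiv.Perm.SameCycle.refl _ _
    | symm x y _ ih => exact Equiv.Perm.SameCycle.symm ih
    | trans x y z _ _ ih1 ih2 => exact Equiv.Perm.SameCycle.trans ih1 ih2

theorem Final_f1 (j : Fin 3) : j + 2 + 1 + 1 = j + 1 := by revert j; decide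
theorem Final_f2 (j : Fin 3) : j + 2 + 2 + 1 = j + 2 := by revert j; decide
theorem Final_f3 (j : Fin 3) : j + 1 + 2 = j + 2 + 1 := by revert j; decide

/-- the labelling of `X.rot` -/
def Lab.rot {X : Web B W} (L : Lab X.rot V) : Lab X V where
  c j b := L.c (j + 2) b
  step := by
    intro j b b' h
    refine L.step (j + 2) b b' ?_
    change X.e (j + 2 + 1 + 1) b' = X.e (j + 2 + 2 + 1) b
    rw [Final_f1, Final_f2]
    exact h
  exact := by
    intro j b b' h
    have h1 := L.exact (j + 2) b b' h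
    change Relation.EqvGen (fun x y => X.e (j + 2 + 1 + 1) y = X.e (j + 2 + 2 + 1) x) b b' at h1
    rw [Final_f1, Final_f2] at h1
    exact h1
  cls := by
    intro j j' b b' h
    exact add_right_cancel (L.cls _ _ _ _ h)
  surj := by
    intro v
    obtain ⟨j, b, h⟩ := L.surj v
    refine ⟨j + 1, b, ?_⟩
    rw [f12]
    exact h

theorem Final_rot_HE {X : Web B W} (L : Lab X.rot V) (h : V → ZMod 12) :
    L.rot.HE h = L.HE h := by
  funext x y
  apply propext
  constructor
  · rintro ⟨i, b, h1, h2, h3⟩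
    refine ⟨i + 2, b, ?_, h2, ?_⟩
    · change h (L.c (i + 2 + 2) b) = h (L.c (i + 1 + 2) b) + 1 at h1
      rw [Final_f3] at h1
      exact h1
    · change y = Sum.inr (X.e (i + 2 + 1) b)
      rw [f21]
      exact h3
  · rintro ⟨i, b, h1, h2, h3⟩
    refine ⟨i + 1, b, ?_, h2, h3⟩
    change h (L.c (i + 1 + 2 + 2) b) = h (L.c (i + 1 + 1 + 2) b) + 1
    rw [f12, f11, f22]
    exact h1

theorem Final_rot_valid {X : Web B W} (L : Lab X.rot V) (h : V → ZMod 12) :
    L.rot.Valid h ↔ L.Valid h := by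
  constructor
  · intro hv i b
    have h1 := hv (i + 1) b
    change h (L.c (i + 1 + 2 + 2) b) = h (L.c (i + 1 + 1 + 2) b) + 1 ∨
      h (L.c (i + 1 + 2 + 2) b) = h (L.c (i + 1 + 1 + 2) b) - 2 at h1
    rw [f12, f11, f22] at h1
    exact h1
  · intro hv i b
    have h1 := hv (i + 2) b
    rw [← Final_f3] at h1
    exact h1

theorem rot_S {X : Web B W} [Fintype B] [Fintype V] [DecidableEq V] (L : Lab X.rot V)
    (m : V → ZMod 4) : L.rot.S m = L.S m := by
  classical
  unfold Lab.S
  refine Finset.sum_congr rfl fun h _ => ?_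
  have h1 : L.rot.Sol h ↔ L.Sol h := by
    unfold Lab.Sol Lab.Conn
    rw [Final_rot_valid, Final_rot_HE]
  have h2 : L.rot.E m h = L.E m h := by
    unfold Lab.E
    congr 1
    refine Finset.sum_congr rfl fun b _ => ?_
    exact Equiv.sum_comp (Equiv.addRight (2 : Fin 3)) (fun j => kap (h (L.c j b)))
  rw [h2]
  exact if_congr h1 rfl rfl

/-- what is proved by induction for the webs of the class -/
def PosWeb (X : Web B W) : Prop :=
  ∀ (V : Type) [Fintype B] [Fintype W] [Fintype V] [DecidableEq V] (L : Lab X V),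
    Fintype.card V = Fintype.card B + 2 ∧ 2 ≤ Fintype.card B ∧
    ∃ x y : V, x ≠ y ∧ 0 < L.S (fun v => (if v = x then 1 else 0) + if v = y then 1 else 0)

/-- two black vertices and a digon, the digon and the other face of the same class are marked -/
theorem Final_two [Fintype B] [Fintype V] [DecidableEq V] {X : Web B W} (L : Lab X V)
    (hB : Fintype.card B = 2) {j : Fin 3} {b b' : B} (hf : X.e (j + 1) b = X.e (j + 2) b)
    (hne : X.e j b ≠ X.e (j + 2) b) (hbb : L.c j b' ≠ L.c j b) :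
    L.S (fun v => (if v = L.c j b then 1 else 0) + if v = L.c j b' then 1 else 0) = 24 := by
  classical
  obtain ⟨X', R⟩ := exists_dg hf hne
  obtain ⟨L', hL'⟩ := R.exists_lab L
  have hc := R.card_B
  rw [S_digon_marked R L L' hL' _ (by rw [if_pos rfl, if_neg (Ne.symm hbb), add_zero])]
  have hc1 : Fintype.card {a : B // a ≠ b} = 1 := by omega
  have key : ∀ k : Fin 3, k ≠ j → L'.S (fun v => ((if v.1 = L.c j b then 1 else 0) +
      if v.1 = L.c j b' then 1 else 0) + if v.1 = L.c k b then 1 else 0) = 12 := by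
    intro k hk
    have hne1 : L.c k b ≠ L.c j b := fun h => hk (L.cls _ _ _ _ h)
    have hne2 : L.c k b ≠ L.c j b' := fun h => hk (L.cls _ _ _ _ h)
    rw [← S_theta L' hc1 (x := ⟨L.c j b', hbb⟩) (y := ⟨L.c k b, hne1⟩)
      (fun h => hne2 (congrArg Subtype.val h).symm)]
    congr 1
    funext v
    rw [if_neg v.2, zero_add]
    congr 1
    · exact if_congr ⟨fun h => Subtype.ext h, fun h => congrArg Subtype.val h⟩ rfl rfl
    · exact if_congr ⟨fun h => Subtype.ext h, fun h => congrArg Subtype.val h⟩ rfl rfl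
  rw [key _ (fne2 j), key _ (fne1 j)]
  norm_num

theorem Final_base4 [Fintype V] [DecidableEq V] (L : Lab base4 V) :
    Fintype.card V = Fintype.card (Fin 2) + 2 ∧ 2 ≤ Fintype.card (Fin 2) ∧
    ∃ x y : V, x ≠ y ∧ 0 < L.S (fun v => (if v = x then 1 else 0) + if v = y then 1 else 0) := by
  have hcB : Fintype.card (Fin 2) = 2 := Fintype.card_fin 2
  have d21 : L.c 2 1 ≠ L.c 2 0 := by
    intro h
    have h1 := Final_inv L (fun x : Fin 2 => x) (by decide) h
    exact absurd h1 (by decide)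
  have s0 : L.c 0 1 = L.c 0 0 := L.step 0 0 1 (by decide)
  have s1 : L.c 1 1 = L.c 1 0 := L.step 1 0 1 (by decide)
  have hcV : Fintype.card V = 4 := by
    have hu : (Finset.univ : Finset V) = {L.c 0 0, L.c 1 0, L.c 2 0, L.c 2 1} := by
      ext v
      simp only [Finset.mem_univ, true_iff, Finset.mem_insert, Finset.mem_singleton]
      obtain ⟨j, b, rfl⟩ := L.surj v
      fin_cases j <;> fin_cases b <;> simp_all
    rw [← Finset.card_univ, hu]
    rw [Finset.card_insert_of_notMem, Finset.card_insert_of_notMem,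
      Finset.card_insert_of_notMem, Finset.card_singleton]
    · rw [Finset.mem_singleton]
      exact fun h => d21 h.symm
    · simp only [Finset.mem_insert, Finset.mem_singleton, not_or]
      exact ⟨fun h => absurd (L.cls _ _ _ _ h) (by decide),
        fun h => absurd (L.cls _ _ _ _ h) (by decide)⟩
    · simp only [Finset.mem_insert, Finset.mem_singleton, not_or]
      exact ⟨fun h => absurd (L.cls _ _ _ _ h) (by decide),
        fun h => absurd (L.cls _ _ _ _ h) (by decide),
        fun h => absurd (L.cls _ _ _ _ h) (by decide)⟩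
  refine ⟨by rw [hcV, hcB], hcB.ge, L.c 2 0, L.c 2 1, d21.symm, ?_⟩
  rw [Final_two L hcB (j := 2) (b := 0) (b' := 1) (by decide) (by decide) d21]
  norm_num

theorem posWeb_base4 : PosWeb base4 := by
  intro V iB iW _ _ L
  obtain rfl : iB = Fin.fintype 2 := Subsingleton.elim _ _
  exact Final_base4 L

theorem Final_base6 [Fintype V] [DecidableEq V] (L : Lab base6 V) :
    Fintype.card V = Fintype.card (Fin 3) + 2 ∧ 2 ≤ Fintype.card (Fin 3) ∧
    ∃ x y : V, x ≠ y ∧ 0 < L.S (fun v => (if v = x then 1 else 0) + if v = y then 1 else 0) := by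
  classical
  have hcB : Fintype.card (Fin 3) = 3 := Fintype.card_fin 3
  have d2 : L.c 2 0 ≠ L.c 2 2 := by
    intro h
    have h1 := Final_inv L (fun x : Fin 3 => decide (x = 2)) (by decide) h
    exact absurd h1 (by decide)
  have d1 : L.c 1 1 ≠ L.c 1 0 := by
    intro h
    have h1 := Final_inv L (fun x : Fin 3 => decide (x = 0)) (by decide) h
    exact absurd h1 (by decide)
  have s01 : L.c 0 1 = L.c 0 0 := L.step 0 0 1 (by decide)
  have s02 : L.c 0 2 = L.c 0 1 := L.step 0 1 2 (by decide)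
  have s1 : L.c 1 2 = L.c 1 1 := L.step 1 1 2 (by decide)
  have s2 : L.c 2 1 = L.c 2 0 := L.step 2 0 1 (by decide)
  have hcV : Fintype.card V = 5 := by
    have hu : (Finset.univ : Finset V) = {L.c 0 0, L.c 1 0, L.c 1 1, L.c 2 0, L.c 2 2} := by
      ext v
      simp only [Finset.mem_univ, true_iff, Finset.mem_insert, Finset.mem_singleton]
      obtain ⟨j, b, rfl⟩ := L.surj v
      fin_cases j <;> fin_cases b <;> simp_all
    rw [← Finset.card_univ, hu]
    rw [Finset.card_insert_of_notMem, Finset.card_insert_of_notMem,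
      Finset.card_insert_of_notMem, Finset.card_insert_of_notMem, Finset.card_singleton]
    · rw [Finset.mem_singleton]
      exact d2
    · simp only [Finset.mem_insert, Finset.mem_singleton, not_or]
      exact ⟨fun h => absurd (L.cls _ _ _ _ h) (by decide),
        fun h => absurd (L.cls _ _ _ _ h) (by decide)⟩
    · simp only [Finset.mem_insert, Finset.mem_singleton, not_or]
      exact ⟨fun h => d1 h.symm, fun h => absurd (L.cls _ _ _ _ h) (by decide),
        fun h => absurd (L.cls _ _ _ _ h) (by decide)⟩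
    · simp only [Finset.mem_insert, Finset.mem_singleton, not_or]
      exact ⟨fun h => absurd (L.cls _ _ _ _ h) (by decide),
        fun h => absurd (L.cls _ _ _ _ h) (by decide),
        fun h => absurd (L.cls _ _ _ _ h) (by decide),
        fun h => absurd (L.cls _ _ _ _ h) (by decide)⟩
  have d12 : L.c 1 0 ≠ L.c 2 2 := fun h => absurd (L.cls _ _ _ _ h) (by decide)
  have d112 : L.c 1 1 ≠ L.c 2 2 := fun h => absurd (L.cls _ _ _ _ h) (by decide)
  have d02 : L.c 0 2 ≠ L.c 2 2 := fun h => absurd (L.cls _ _ _ _ h) (by decide)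
  have d10 : L.c 1 0 ≠ L.c 0 2 := fun h => absurd (L.cls _ _ _ _ h) (by decide)
  have hf : base6.e (2 + 1) 2 = base6.e (2 + 2) 2 := by decide
  have hne : base6.e 2 2 ≠ base6.e (2 + 2) 2 := by decide
  obtain ⟨X', R⟩ := exists_dg hf hne
  obtain ⟨L', hL'⟩ := R.exists_lab L
  have hc' := R.card_B
  have hcV' := DgRel.card_V (j := 2) (b := 2) L
  have hcB' : Fintype.card {a : Fin 3 // a ≠ 2} = 2 := by omega
  refine ⟨by rw [hcV, hcB], by rw [hcB]; norm_num, L.c 2 2, L.c 1 0, d12.symm, ?_⟩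
  rw [S_digon_marked R L L' hL' _ (by rw [if_pos rfl, if_neg (Ne.symm d12), add_zero])]
  -- the smaller web
  have e00 : X'.e 0 ⟨0, by decide⟩ = ⟨0, by decide⟩ := by
    apply Subtype.ext
    rw [← R.other 0 (by decide)]
    decide
  have e10 : X'.e 1 ⟨0, by decide⟩ = ⟨1, by decide⟩ := by
    apply Subtype.ext
    rw [← R.other 1 (by decide)]
    decide
  have e20 : X'.e 2 ⟨0, by decide⟩ = ⟨0, by decide⟩ := by
    apply Subtype.ext
    rw [← R.same _ (by decide)]
    decide
  have c10 : L'.c 1 ⟨0, by decide⟩ = ⟨L.c 1 0, d12⟩ := Subtype.ext (hL' _ _)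
  have c11 : L'.c 1 ⟨1, by decide⟩ = ⟨L.c 1 1, d112⟩ := Subtype.ext (hL' _ _)
  have h1 := Final_two L' hcB' (j := 1) (b := ⟨0, by decide⟩) (b' := ⟨1, by decide⟩)
    (by
      change X'.e 2 _ = X'.e 0 _
      rw [e20, e00])
    (by
      change X'.e 1 _ ≠ X'.e 0 _
      rw [e10, e00]
      decide)
    (by
      rw [c10, c11]
      exact fun h => d1 (congrArg Subtype.val h))
  have h2 := S_nonneg L' (by omega) ⟨L.c 1 0, d12⟩ ⟨L.c 0 2, d02⟩
    (fun h => d10 (congrArg Subtype.val h))
  have e1 : L'.S (fun v => ((if v.1 = L.c 2 2 then 1 else 0) +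
      if v.1 = L.c 1 0 then 1 else 0) + if v.1 = L.c (2 + 2) 2 then 1 else 0) = 24 := by
    rw [← h1]
    congr 1
    funext v
    rw [if_neg v.2, zero_add, c10, c11]
    congr 1
    · exact if_congr ⟨fun h => Subtype.ext h, fun h => congrArg Subtype.val h⟩ rfl rfl
    · refine if_congr ⟨fun h => Subtype.ext (h.trans s1), fun h => ?_⟩ rfl rfl
      exact (congrArg Subtype.val h).trans s1.symm
  have e2 : 0 ≤ L'.S (fun v => ((if v.1 = L.c 2 2 then 1 else 0) +
      if v.1 = L.c 1 0 then 1 else 0) + if v.1 = L.c (2 + 1) 2 then 1 else 0) := by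
    refine le_of_le_of_eq h2 ?_
    congr 1
    funext v
    rw [if_neg v.2, zero_add]
    congr 1
    · exact if_congr ⟨fun h => congrArg Subtype.val h, fun h => Subtype.ext h⟩ rfl rfl
    · exact if_congr ⟨fun h => congrArg Subtype.val h, fun h => Subtype.ext h⟩ rfl rfl
  rw [e1]
  omega

theorem posWeb_base6 : PosWeb base6 := by
  intro V iB iW _ _ L
  obtain rfl : iB = Fin.fintype 3 := Subsingleton.elim _ _
  exact Final_base6 L

theorem posWeb_rot {X : Web B W} (h : PosWeb X) : PosWeb X.rot := by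
  intro V _ _ _ _ L
  obtain ⟨h1, h2, x, y, hxy, h3⟩ := h V L.rot
  rw [rot_S] at h3
  exact ⟨h1, h2, x, y, hxy, h3⟩

theorem posWeb_dual {X : Web B W} (h : PosWeb X) : PosWeb X.dual := by
  intro V _ _ _ _ L
  have h' : PosWeb X.dual.dual := by
    rw [Web.dual_dual]
    exact h
  obtain ⟨h1, h2, x, y, hxy, h3⟩ := h' V L.dual
  rw [dual_S] at h3
  have hc := Fintype.card_congr (X.e 0)
  exact ⟨by rw [h1, hc], by rw [← hc]; exact h2, x, y, hxy, h3⟩

/-- marks on the smaller web -/
theorem Final_marks [DecidableEq V] {s p p' : V} (hps : p ≠ s) (hp : p ≠ p') {x y : V}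
    (hxy : x ≠ y) (hx : x ≠ s) (hy : y ≠ s) (m : V → ZMod 4)
    (hm : ∀ v, m v = (if v = x then 1 else 0) + if v = y then 1 else 0) :
    (∃ z w : {v : V // v ≠ s ∧ v ≠ p'}, z ≠ w ∧
      (fun v : {v : V // v ≠ s ∧ v ≠ p'} => if v.1 = p then m p + m p' else m v.1) =
        fun v => (if v = z then 1 else 0) + if v = w then 1 else 0) ∨
    ∃ z : {v : V // v ≠ s ∧ v ≠ p'},
      (fun v : {v : V // v ≠ s ∧ v ≠ p'} => if v.1 = p then m p + m p' else m v.1) =
        fun v => if v = z then 2 else 0 := by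
  by_cases hxp : x = p'
  · have hyp : y ≠ p' := fun h => hxy (hxp.trans h.symm)
    by_cases hyp2 : y = p
    · right
      refine ⟨⟨p, hps, hp⟩, ?_⟩
      funext v
      by_cases hv : v.1 = p
      · rw [if_pos hv, if_pos (Subtype.ext hv), hm, hm, hxp, hyp2, if_neg hp, if_pos rfl,
          if_pos rfl, if_neg (Ne.symm hp)]
        rfl
      · rw [if_neg hv, if_neg (fun h => hv (congrArg Subtype.val h)), hm, hxp, hyp2,
          if_neg v.2.2, if_neg hv, add_zero]
    · left
      refine ⟨⟨p, hps, hp⟩, ⟨y, hy, hyp⟩, fun h => hyp2 (congrArg Subtype.val h).symm, ?_⟩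
      funext v
      by_cases hv : v.1 = p
      · rw [if_pos hv, if_pos (Subtype.ext hv), if_neg
          (fun h => hyp2 ((congrArg Subtype.val h).symm.trans hv)), hm, hm, hxp, if_neg hp,
          if_neg (Ne.symm hyp2), if_pos rfl, if_neg (Ne.symm hyp), add_zero, add_zero, zero_add]
      · rw [if_neg hv, if_neg (fun h => hv (congrArg Subtype.val h)), hm, hxp, if_neg v.2.2]
        congr 1
        exact if_congr ⟨fun h => Subtype.ext h, fun h => congrArg Subtype.val h⟩ rfl rfl
  · by_cases hyp : y = p'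
    · by_cases hxp2 : x = p
      · right
        refine ⟨⟨p, hps, hp⟩, ?_⟩
        funext v
        by_cases hv : v.1 = p
        · rw [if_pos hv, if_pos (Subtype.ext hv), hm, hm, hyp, hxp2, if_neg hp, if_pos rfl,
            if_pos rfl, if_neg (Ne.symm hp)]
          rfl
        · rw [if_neg hv, if_neg (fun h => hv (congrArg Subtype.val h)), hm, hyp, hxp2,
            if_neg v.2.2, if_neg hv, add_zero]
      · left
        refine ⟨⟨x, hx, hxp⟩, ⟨p, hps, hp⟩, fun h => hxp2 (congrArg Subtype.val h), ?_⟩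
        funext v
        by_cases hv : v.1 = p
        · rw [if_pos hv, if_neg (fun h => hxp2 ((congrArg Subtype.val h).symm.trans hv)),
            if_pos (Subtype.ext hv), hm, hm, hyp, if_neg hp, if_neg (Ne.symm hxp2), if_pos rfl,
            if_neg (Ne.symm hxp), add_zero, zero_add]
        · rw [if_neg hv, if_neg (fun h => hv (congrArg Subtype.val h)) (c := v = ⟨p, hps, hp⟩),
            hm, hyp, if_neg v.2.2]
          congr 1
          exact if_congr ⟨fun h => Subtype.ext h, fun h => congrArg Subtype.val h⟩ rfl rfl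
    · left
      refine ⟨⟨x, hx, hxp⟩, ⟨y, hy, hyp⟩, fun h => hxy (congrArg Subtype.val h), ?_⟩
      funext v
      have e : ((if v = (⟨x, hx, hxp⟩ : {v : V // v ≠ s ∧ v ≠ p'}) then 1 else 0) +
          if v = (⟨y, hy, hyp⟩ : {v : V // v ≠ s ∧ v ≠ p'}) then 1 else 0 : ZMod 4) = m v.1 := by
        rw [hm]
        congr 1
        · exact if_congr ⟨fun h => congrArg Subtype.val h, fun h => Subtype.ext h⟩ rfl rfl
        · exact if_congr ⟨fun h => congrArg Subtype.val h, fun h => Subtype.ext h⟩ rfl rfl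
      rw [e]
      by_cases hv : v.1 = p
      · rw [if_pos hv, hv, hm p', if_neg (Ne.symm hxp), if_neg (Ne.symm hyp), add_zero, add_zero]
      · rw [if_neg hv]

theorem Final_nonneg {X : Web B' W'} {j : Fin 3}
    {b₁ b₂ : B} {Y : Web B W} [Fintype V] [DecidableEq V] [Fintype B'] [Fintype W']
    (L : Lab Y V) (hp : L.c (j + 1) b₁ ≠ L.c (j + 1) b₂)
    (L' : Lab X (L.V1 j b₁ b₂)) (hc' : Fintype.card (L.V1 j b₁ b₂) = Fintype.card B' + 2)
    (hN' : 2 ≤ Fintype.card B') {x y : V} (hxy : x ≠ y) (hx : x ≠ L.c j b₁)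
    (hy : y ≠ L.c j b₁) : 0 ≤ L'.S (L.m1 j b₁ b₂
      (fun v => (if v = x then 1 else 0) + if v = y then 1 else 0)) := by
  have hps : L.c (j + 1) b₁ ≠ L.c j b₁ := fun h => fne1 j (L.cls _ _ _ _ h)
  rcases Final_marks hps hp hxy hx hy _ (fun _ => rfl) with ⟨z, w, hzw, h⟩ | ⟨z, h⟩
  · have h1 := S_nonneg L' hc' z w hzw
    rw [← h] at h1
    exact h1
  · have h1 := S_double L' hc' hN' z
    rw [← h] at h1
    exact h1.ge

theorem posWeb_square {Y : Web B W} {X : Web B' W'} {f : B' → B} {g : W' → W} {j : Fin 3}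
    {b₁ b₂ : B} (R : SqRel Y X f g j b₁ b₂) (hf : ¬ Y.SameFace (j + 1) b₁ b₂) (h : PosWeb X) :
    PosWeb Y := by
  classical
  intro V _ _ _ _ L
  let _ : Fintype B' := Fintype.ofInjective f R.fi
  let _ : Fintype W' := Fintype.ofInjective g R.gi
  have hp : L.c (j + 1) b₁ ≠ L.c (j + 1) b₂ := fun h' => hf ((L.sameFace _ _ _).2 h')
  obtain ⟨L', hL'⟩ := R.exists_lab L hp
  obtain ⟨h1, h2, x', y', hxy, h3⟩ := h _ L'
  have hcV := R.card_V L hp
  have hcB := R.card_B
  have hcV2 : Fintype.card V = Fintype.card B + 2 := by omega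
  have Q := R.sq4
  set m : V → ZMod 4 := fun v => (if v = x'.1 then 1 else 0) + if v = y'.1 then 1 else 0 with hm
  have hm0 : m (L.c j b₁) = 0 := by
    rw [hm]
    simp only
    rw [if_neg (Ne.symm x'.2.1), if_neg (Ne.symm y'.2.1), add_zero]
  have hm1 : L.m1 j b₁ b₂ m = fun v => (if v = x' then 1 else 0) + if v = y' then 1 else 0 := by
    funext v
    unfold Lab.m1
    have e : ((if v = x' then 1 else 0) + if v = y' then 1 else 0 : ZMod 4) = m v.1 := by
      rw [hm]
      simp only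
      congr 1
      · exact if_congr ⟨fun h => congrArg Subtype.val h, fun h => Subtype.ext h⟩ rfl rfl
      · exact if_congr ⟨fun h => congrArg Subtype.val h, fun h => Subtype.ext h⟩ rfl rfl
    have hp0 : m (L.c (j + 1) b₂) = 0 := by
      rw [hm]
      simp only
      rw [if_neg (Ne.symm x'.2.2), if_neg (Ne.symm y'.2.2), add_zero]
    rw [e]
    by_cases hv : v.1 = L.c (j + 1) b₁
    · rw [if_pos hv, hv, hp0, add_zero]
    · rw [if_neg hv]
  have h4 := T1_add_M1 R L hp L' hL' m hm0
  rw [hm1] at h4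
  have h5 := S_eq_T1_add_T2 Q L m
  refine ⟨hcV2, by omega, x'.1, y'.1, fun h' => hxy (Subtype.ext h'), ?_⟩
  change 0 < L.S m
  by_cases hq : L.c (j + 2) b₁ = L.c (j + 2) b₂
  · rw [h5, T2_zero Q L hcV2 hq m]
    rw [M1_zero Q L hcV2 hp hq m hm0] at h4
    omega
  · -- the other way to resolve the 4-face
    have Qd := Q.dual
    obtain ⟨X'', R''⟩ := Qd.exists_rel
    obtain ⟨d0, d1, d2, d3, d4⟩ := Q.dual_c L
    have hp'' : L.dual.c (-j + 1) (Y.e (j + 2) b₁) ≠ L.dual.c (-j + 1) (Y.e (j + 2) b₂) := by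
      rw [d1, d2]
      exact Ne.symm hq
    obtain ⟨L'', hL''⟩ := R''.exists_lab L.dual hp''
    have h6 := T1_add_M1 R'' L.dual hp'' L'' hL'' m (by rw [d0]; exact hm0)
    rw [dual_T1 Q L m, dual_M1 Q L m hm0] at h6
    have hcV'' := R''.card_V L.dual hp''
    have hcB'' := R''.card_B
    have hWB := Fintype.card_congr (Y.e 0)
    have h7 := Final_nonneg L.dual hp'' L'' (by omega) (by omega)
      (x := x'.1) (y := y'.1) (fun h' => hxy (Subtype.ext h'))
      (by rw [d0]; exact x'.2.1) (by rw [d0]; exact y'.2.1)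
    rw [h5]
    have h8 : 0 ≤ L''.S (L.dual.m1 (-j) (Y.e (j + 2) b₁) (Y.e (j + 2) b₂) m) := h7
    omega

theorem posWeb_of_gen : ∀ {B W : Type} (X : Web B W), Gen X → PosWeb X := by
  intro B W X h
  induction h with
  | base4 => exact posWeb_base4
  | base6 => exact posWeb_base6
  | rot X _ ih => exact posWeb_rot ih
  | mirror X _ ih => exact posWeb_dual ih
  | square Y X f g j b₁ b₂ R hf _ ih => exact posWeb_square R hf ih

theorem final {B W : Type} [Fintype B] [Fintype W] [DecidableEq B] [DecidableEq W]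
    (X : Web B W) (hX : Gen X) : X.graph.IsHamiltonian := by
  classical
  obtain ⟨V, _, _, ⟨L⟩⟩ := Final_exists_lab X
  obtain ⟨_, hN, x, y, _, hpos⟩ := posWeb_of_gen X hX V L
  by_contra hcon
  have h0 : ∀ h, ¬ L.Sol h := fun h hs => hcon (ham_of_sol L hN hs)
  have h1 : L.S (fun v => (if v = x then 1 else 0) + if v = y then 1 else 0) = 0 := by
    unfold Lab.S
    exact Finset.sum_eq_zero fun h _ => if_neg (h0 h)
  omega

end Vale.Agent.P039.Sk
end

section

/-! Splittings of the black vertices. -/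

namespace Vale.Agent.P039.Sk

variable {B W V B' W' : Type}

/-- all white vertices are connected through black vertices of colour `σ` -/
def Web.WConn (X : Web B W) (col : B → Bool) (σ : Bool) : Prop :=
  ∀ w w' : W, Relation.EqvGen
    (fun w w' => ∃ b i i', col b = σ ∧ X.e i b = w ∧ X.e i' b = w') w w'

/-- the white vertices are connected through the black vertices of either colour -/
structure Web.Split (X : Web B W) (col : B → Bool) : Prop where
  t : X.WConn col true
  f : X.WConn col false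

/-- all black vertices on the face `v` have the same colour -/
def Lab.Mono {X : Web B W} (L : Lab X V) (col : B → Bool) (v : V) : Prop :=
  ∀ k b b', L.c k b = v → L.c k b' = v → col b = col b'

/-- orientation reversed (the colours `1` and `2` are exchanged) -/
def Web.rev (X : Web B W) : Web B W := ⟨fun i => X.e (-i)⟩

theorem Web.WConn.flip {X : Web B W} {col : B → Bool} {σ : Bool} (h : X.WConn col σ) :
    X.WConn (fun b => !(col b)) (!σ) := by
  intro w w'
  have key : ∀ w w', Relation.EqvGen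
      (fun w w' => ∃ b i i', col b = σ ∧ X.e i b = w ∧ X.e i' b = w') w w' →
      Relation.EqvGen
      (fun w w' => ∃ b i i', (!(col b)) = (!σ) ∧ X.e i b = w ∧ X.e i' b = w') w w' := by
    intro w w' h
    induction h with
    | rel x y h =>
      obtain ⟨b, i, i', h1, h2, h3⟩ := h
      exact Relation.EqvGen.rel _ _ ⟨b, i, i', by rw [h1], h2, h3⟩
    | refl x => exact Relation.EqvGen.refl _
    | symm x y _ ih => exact ih.symm
    | trans x y z _ _ ih1 ih2 => exact ih1.trans _ _ _ ih2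
  exact key w w' (h w w')

theorem Web.Split.flip {X : Web B W} {col : B → Bool} (h : X.Split col) :
    X.Split (fun b => !(col b)) := ⟨h.f.flip, h.t.flip⟩

theorem Lab.Mono.flip {X : Web B W} {L : Lab X V} {col : B → Bool} {v : V} (h : L.Mono col v) :
    L.Mono (fun b => !(col b)) v := by
  intro k b b' h1 h2
  show (!(col b)) = (!(col b'))
  rw [h k b b' h1 h2]

end Vale.Agent.P039.Sk
end

section

/-! Euler's inequality. -/

namespace Vale.Agent.P039.Sk

variable {B W V : Type}

open scoped Classical in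
/-- Extension by zero. -/
noncomputable def lemDExt (P : Finset V) (f : P → ℝ) (v : V) : ℝ := if h : v ∈ P then f ⟨v, h⟩ else 0

theorem lemDExt_of_mem {P : Finset V} (f : P → ℝ) {v : V} (h : v ∈ P) : lemDExt P f v = f ⟨v, h⟩ := by
  unfold lemDExt
  rw [dif_pos h]

theorem lemDExt_of_notMem {P : Finset V} (f : P → ℝ) {v : V} (h : v ∉ P) : lemDExt P f v = 0 := by
  unfold lemDExt
  rw [dif_neg h]

theorem lemDExt_add {P : Finset V} (f g : P → ℝ) (v : V) :
    lemDExt P (f + g) v = lemDExt P f v + lemDExt P g v := by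
  by_cases h : v ∈ P
  · rw [lemDExt_of_mem _ h, lemDExt_of_mem _ h, lemDExt_of_mem _ h]; rfl
  · rw [lemDExt_of_notMem _ h, lemDExt_of_notMem _ h, lemDExt_of_notMem _ h, add_zero]

theorem lemDExt_smul {P : Finset V} (a : ℝ) (f : P → ℝ) (v : V) :
    lemDExt P (a • f) v = a * lemDExt P f v := by
  by_cases h : v ∈ P
  · rw [lemDExt_of_mem _ h, lemDExt_of_mem _ h]; rfl
  · rw [lemDExt_of_notMem _ h, lemDExt_of_notMem _ h, mul_zero]

/-- The linear map. -/
noncomputable def lemDPsi (X : Web B W) (c : Fin 3 → B → V) (P : Finset V) (F : Finset B) :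
    ((P → ℝ) × (F → ℝ) × (W → ℝ)) →ₗ[ℝ] (Fin 3 × F → ℝ) where
  toFun x := fun y => (lemDExt P x.1 (c (y.1 + 2) y.2) - lemDExt P x.1 (c (y.1 + 1) y.2))
    + (x.2.1 y.2 + x.2.2 (X.e y.1 y.2))
  map_add' x y := by
    funext z
    show (lemDExt P (x.1 + y.1) _ - lemDExt P (x.1 + y.1) _) + ((x.2.1 z.2 + y.2.1 z.2) + (x.2.2 _ + y.2.2 _)) =
      ((lemDExt P x.1 _ - lemDExt P x.1 _) + (x.2.1 z.2 + x.2.2 _)) +
      ((lemDExt P y.1 _ - lemDExt P y.1 _) + (y.2.1 z.2 + y.2.2 _))
    rw [lemDExt_add, lemDExt_add]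
    ring
  map_smul' a x := by
    funext z
    show (lemDExt P (a • x.1) _ - lemDExt P (a • x.1) _) + ((a * x.2.1 z.2) + (a * x.2.2 _)) =
      a * ((lemDExt P x.1 _ - lemDExt P x.1 _) + (x.2.1 z.2 + x.2.2 _))
    rw [lemDExt_smul, lemDExt_smul]
    ring

theorem lemD_fin3 (i k : Fin 3) : k = i ∨ k = i + 1 ∨ k = i + 2 := by
  fin_cases i <;> fin_cases k <;> decide

section Kernel

variable [Fintype B] [Fintype W] (X : Web B W) (c : Fin 3 → B → V)
    (step : ∀ j b b', X.e (j + 1) b' = X.e (j + 2) b → c j b' = c j b)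

omit [Fintype B] [Fintype W] in
include step in
/-- corners at a white vertex -/
theorem lemD_corner1 (i : Fin 3) (w : W) :
    c (i + 2) ((X.e i).symm w) = c (i + 2) ((X.e (i + 1)).symm w) := by
  apply step (i + 2)
  have h1 : i + 2 + 1 = i := by fin_cases i <;> rfl
  have h2 : i + 2 + 2 = i + 1 := by fin_cases i <;> rfl
  rw [h1, h2, Equiv.apply_symm_apply, Equiv.apply_symm_apply]

include step in
theorem lemD_corner_eq (φ : V → ℝ) (w : W) :
    ∑ i : Fin 3, (φ (c (i + 2) ((X.e i).symm w)) - φ (c (i + 1) ((X.e i).symm w))) = 0 := by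
  rw [Finset.sum_sub_distrib, sub_eq_zero]
  rw [Finset.sum_congr rfl fun i _ => congrArg φ (lemD_corner1 X c step i w)]
  rw [← Equiv.sum_comp (Equiv.addRight (1 : Fin 3)) fun i => φ (c (i + 1) ((X.e i).symm w))]
  refine Finset.sum_congr rfl fun i _ => ?_
  have h : i + 2 = Equiv.addRight (1 : Fin 3) i + 1 := by
    rw [Equiv.coe_addRight]
    fin_cases i <;> rfl
  rw [h]
  rfl

include step in
/-- The two parts are orthogonal. -/
theorem lemD_orth (P : Finset V) (F : Finset B) (hP : ∀ k b, c k b ∈ P → b ∈ F)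
    (f : P → ℝ) (α : F → ℝ) (β : W → ℝ)
    (h : ∀ (i : Fin 3) (b : F), (lemDExt P f (c (i + 2) b) - lemDExt P f (c (i + 1) b)) + (α b + β (X.e i b)) = 0) :
    ∀ (i : Fin 3) (b : F), lemDExt P f (c (i + 2) b) = lemDExt P f (c (i + 1) b) := by
  set D : Fin 3 → B → ℝ := fun i b => lemDExt P f (c (i + 2) b) - lemDExt P f (c (i + 1) b) with hD
  have hD0 : ∀ i b, b ∉ F → D i b = 0 := by
    intro i b hb
    have h1 : c (i + 2) b ∉ P := fun h' => hb (hP _ _ h')
    have h2 : c (i + 1) b ∉ P := fun h' => hb (hP _ _ h')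
    show lemDExt P f (c (i + 2) b) - lemDExt P f (c (i + 1) b) = 0
    rw [lemDExt_of_notMem _ h1, lemDExt_of_notMem _ h2, sub_zero]
  -- first sum
  have hs1 : ∀ b : B, ∑ i : Fin 3, D i b = 0 := by
    intro b
    show ∑ i : Fin 3, (lemDExt P f (c (i + 2) b) - lemDExt P f (c (i + 1) b)) = 0
    rw [Finset.sum_sub_distrib, sub_eq_zero]
    rw [← Equiv.sum_comp (Equiv.addRight (1 : Fin 3)) fun i => lemDExt P f (c (i + 1) b)]
    refine Finset.sum_congr rfl fun i _ => ?_
    have h : i + 2 = Equiv.addRight (1 : Fin 3) i + 1 := by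
      rw [Equiv.coe_addRight]
      fin_cases i <;> rfl
    rw [h]
  -- second sum
  have hs2 : ∑ i : Fin 3, ∑ b : B, D i b * β (X.e i b) = 0 := by
    have : ∀ i : Fin 3, ∑ b : B, D i b * β (X.e i b) = ∑ w : W, D i ((X.e i).symm w) * β w := by
      intro i
      rw [← Equiv.sum_comp (X.e i).symm fun b => D i b * β (X.e i b)]
      refine Finset.sum_congr rfl fun w _ => ?_
      rw [Equiv.apply_symm_apply]
    rw [Finset.sum_congr rfl fun i _ => this i, Finset.sum_comm]
    apply Finset.sum_eq_zero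
    intro w _
    rw [← Finset.sum_mul]
    have := lemD_corner_eq X c step (lemDExt P f) w
    show (∑ i : Fin 3, (lemDExt P f (c (i + 2) ((X.e i).symm w)) - lemDExt P f (c (i + 1) ((X.e i).symm w)))) * β w = 0
    rw [this, zero_mul]
  have hs3 : ∑ i : Fin 3, ∑ b : B, D i b * D i b = 0 := by
    classical
    have e1 : ∀ (i : Fin 3) (b : B), D i b * D i b
        = - (D i b * (if hb : b ∈ F then α ⟨b, hb⟩ else 0)) - D i b * β (X.e i b) := by
      intro i b
      by_cases hb : b ∈ F
      · rw [dif_pos hb]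
        have h1 := h i ⟨b, hb⟩
        have h2 : D i b = - (α ⟨b, hb⟩ + β (X.e i b)) := by
          have : D i b + (α ⟨b, hb⟩ + β (X.e i b)) = 0 := h1
          linarith
        have h3 : D i b * D i b = D i b * (- (α ⟨b, hb⟩ + β (X.e i b))) := by
          rw [← h2]
        rw [h3]
        ring
      · rw [hD0 i b hb]
        ring
    rw [Finset.sum_congr rfl fun i _ => Finset.sum_congr rfl fun b _ => e1 i b]
    rw [Finset.sum_congr rfl fun i _ => Finset.sum_sub_distrib _ _, Finset.sum_sub_distrib, hs2, sub_zero,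
      Finset.sum_comm]
    apply Finset.sum_eq_zero
    intro b _
    rw [Finset.sum_neg_distrib, ← Finset.sum_mul, hs1, zero_mul, neg_zero]
  intro i b
  have h1 : ∑ b : B, D i b * D i b = 0 :=
    (Finset.sum_eq_zero_iff_of_nonneg fun i _ => Finset.sum_nonneg fun b _ => mul_self_nonneg _).1 hs3 i
      (Finset.mem_univ _)
  have h2 : D i b * D i b = 0 :=
    (Finset.sum_eq_zero_iff_of_nonneg fun b _ => mul_self_nonneg _).1 h1 b (Finset.mem_univ _)
  have h3 : D i b = 0 := mul_self_eq_zero.1 h2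
  exact sub_eq_zero.1 h3

end Kernel

/-- Let the white vertices be connected through the black vertices of `F`, and let `P` be a set of
faces, not all of them, which have only black vertices of `F`. Then `|P| + |W| ≤ 2 |F| + 1`.
(`c` need not be exact: faces may be merged.) -/
theorem lemD [Fintype B] [Fintype W] (X : Web B W) (c : Fin 3 → B → V)
    (step : ∀ j b b', X.e (j + 1) b' = X.e (j + 2) b → c j b' = c j b)
    (surj : ∀ v, ∃ j b, c j b = v) (F : Finset B)
    (hF : ∀ w w' : W, Relation.EqvGen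
      (fun w w' => ∃ b ∈ F, ∃ i i', X.e i b = w ∧ X.e i' b = w') w w')
    (P : Finset V) (hP : ∀ k b, c k b ∈ P → b ∈ F) (hP' : ∃ v, v ∉ P) :
    P.card + Fintype.card W ≤ 2 * F.card + 1 := by
  obtain ⟨v0, hv0⟩ := hP'
  obtain ⟨j0, b0, _⟩ := surj v0
  set w0 : W := X.e 0 b0 with hw0
  -- all corners of a vertex of `F` have the same value
  have key : ∀ x : (P → ℝ) × (F → ℝ) × (W → ℝ), lemDPsi X c P F x = 0 → x.2.2 w0 = 0 → x = 0 := by
    rintro ⟨f, α, β⟩ hx hβ0
    have h : ∀ (i : Fin 3) (b : F), (lemDExt P f (c (i + 2) b) - lemDExt P f (c (i + 1) b))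
        + (α b + β (X.e i b)) = 0 := fun i b => congrFun hx (i, b)
    have hD := lemD_orth X c step P F hP f α β h
    have hαβ : ∀ (i : Fin 3) (b : F), α b + β (X.e i b) = 0 := by
      intro i b
      have h1 := h i b
      rw [hD i b, sub_self, zero_add] at h1
      exact h1
    -- `β` is constant
    have hβ : ∀ w w', Relation.EqvGen
        (fun w w' => ∃ b ∈ F, ∃ i i', X.e i b = w ∧ X.e i' b = w') w w' → β w = β w' := by
      intro w w' hw
      induction hw with
      | rel x y hxy =>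
        obtain ⟨b, hb, i, i', rfl, rfl⟩ := hxy
        have h1 := hαβ i ⟨b, hb⟩
        have h2 := hαβ i' ⟨b, hb⟩
        have h1' : α ⟨b, hb⟩ + β (X.e i b) = 0 := h1
        have h2' : α ⟨b, hb⟩ + β (X.e i' b) = 0 := h2
        linarith
      | refl x => rfl
      | symm x y _ ih => exact ih.symm
      | trans x y z _ _ ih1 ih2 => exact ih1.trans ih2
    have hβz : β = 0 := by
      funext w
      rw [hβ w w0 (hF w w0)]
      exact hβ0
    have hαz : α = 0 := by
      funext b
      have h1 := hαβ 0 b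
      rw [hβz] at h1
      simpa using h1
    have hcorner : ∀ (b : B), b ∈ F → ∀ k k' : Fin 3, lemDExt P f (c k b) = lemDExt P f (c k' b) := by
      intro b hb
      have h0 := hD 0 ⟨b, hb⟩
      have h1 := hD 1 ⟨b, hb⟩
      have h2 := hD 2 ⟨b, hb⟩
      have e0 : lemDExt P f (c 2 b) = lemDExt P f (c 1 b) := h0
      have e1 : lemDExt P f (c 0 b) = lemDExt P f (c 2 b) := h1
      have e2 : lemDExt P f (c 1 b) = lemDExt P f (c 0 b) := h2
      intro k k'
      fin_cases k <;> fin_cases k' <;> simp [e0, e1]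
    -- neighbours of a common white vertex
    have hnb : ∀ b b' : B, b ∈ F → b' ∈ F → ∀ i i', X.e i b = X.e i' b' →
        lemDExt P f (c 0 b) = lemDExt P f (c 0 b') := by
      intro b b' hb hb' i i' hii
      rcases lemD_fin3 i i' with h1 | h1 | h1
      · subst h1
        rw [(X.e i').injective hii]
      · subst h1
        have h2 := lemD_corner1 X c step i (X.e i b)
        rw [Equiv.symm_apply_apply, hii, Equiv.symm_apply_apply] at h2
        rw [hcorner b hb 0 (i + 2), h2, hcorner b' hb' (i + 2) 0]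
      · subst h1
        have h2 := lemD_corner1 X c step (i + 2) (X.e (i + 2) b')
        have h3 : i + 2 + 1 = i := by fin_cases i <;> rfl
        rw [h3, Equiv.symm_apply_apply, ← hii, Equiv.symm_apply_apply] at h2
        rw [hcorner b hb 0 (i + 2 + 2), ← h2, hcorner b' hb' (i + 2 + 2) 0]
    have hf : f = 0 := by
      funext v
      obtain ⟨j, b, hjb⟩ := surj v
      have hbF : b ∈ F := hP j b (by rw [hjb]; exact v.2)
      have hfv : f v = lemDExt P f (c j b) := by
        rw [hjb, lemDExt_of_mem f v.2]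
      show f v = 0
      rw [hfv, hcorner b hbF j 0]
      by_contra hne
      set κ := lemDExt P f (c 0 b) with hκ
      -- every white vertex has a neighbour in `F` with value `κ`, all with value `κ`
      have hQ : ∀ w w', Relation.EqvGen
          (fun w w' => ∃ b ∈ F, ∃ i i', X.e i b = w ∧ X.e i' b = w') w w' →
          ((∃ b' ∈ F, ∃ i, X.e i b' = w ∧ lemDExt P f (c 0 b') = κ) ↔
            (∃ b' ∈ F, ∃ i, X.e i b' = w' ∧ lemDExt P f (c 0 b') = κ)) := by
        intro w w' hw
        induction hw with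
        | rel x y hxy =>
          obtain ⟨b1, hb1, i, i', hx1, hy1⟩ := hxy
          constructor
          · rintro ⟨b2, hb2, i2, h2, h3⟩
            refine ⟨b1, hb1, i', hy1, ?_⟩
            rw [← h3]
            exact hnb b1 b2 hb1 hb2 i i2 (hx1.trans h2.symm)
          · rintro ⟨b2, hb2, i2, h2, h3⟩
            refine ⟨b1, hb1, i, hx1, ?_⟩
            rw [← h3]
            exact hnb b1 b2 hb1 hb2 i' i2 (hy1.trans h2.symm)
        | refl x => exact Iff.rfl
        | symm x y _ ih => exact ih.symm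
        | trans x y z _ _ ih1 ih2 => exact ih1.trans ih2
      have hall : ∀ w, ∃ b' ∈ F, ∃ i, X.e i b' = w ∧ lemDExt P f (c 0 b') = κ := by
        intro w
        exact (hQ (X.e 0 b) w (hF _ _)).1 ⟨b, hbF, 0, rfl, rfl⟩
      have hin : ∀ b' ∈ F, lemDExt P f (c 0 b') = κ → ∀ k, c k b' ∈ P := by
        intro b' hb' h1 k
        by_contra hk
        have h2 := hcorner b' hb' 0 k
        rw [lemDExt_of_notMem f hk, h1] at h2
        exact hne h2
      have hallF : ∀ b', b' ∈ F := by
        intro b'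
        obtain ⟨b2, hb2, i, h1, h2⟩ := hall (X.e 0 b')
        rcases lemD_fin3 i 0 with h3 | h3 | h3
        · rw [← h3] at h1
          rw [← (X.e 0).injective h1]
          exact hb2
        · apply hP (i + 2) b'
          have h4 := lemD_corner1 X c step i (X.e i b2)
          rw [Equiv.symm_apply_apply, h1, ← h3, Equiv.symm_apply_apply] at h4
          rw [← h4]
          exact hin b2 hb2 h2 _
        · have h4 := lemD_corner1 X c step (i + 2) (X.e 0 b')
          have h5 : i + 2 + 1 = i := by fin_cases i <;> rfl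
          rw [h5, ← h3, Equiv.symm_apply_apply, ← h1, Equiv.symm_apply_apply] at h4
          apply hP (0 + 2) b'
          rw [h4]
          exact hin b2 hb2 h2 _
      have hκb : ∀ b', lemDExt P f (c 0 b') = κ := by
        intro b'
        obtain ⟨b2, hb2, i, h1, h2⟩ := hall (X.e 0 b')
        rw [← h2]
        exact hnb b' b2 (hallF b') hb2 0 i h1.symm
      obtain ⟨j1, b1, h1⟩ := surj v0
      apply hv0
      rw [← h1]
      exact hin b1 (hallF b1) (hκb b1) j1
    rw [hf, hαz, hβz]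
    rfl
  -- dimension count
  have hker : Module.finrank ℝ (LinearMap.ker (lemDPsi X c P F)) ≤ 1 := by
    let φ : LinearMap.ker (lemDPsi X c P F) →ₗ[ℝ] ℝ :=
      (LinearMap.proj w0).comp ((LinearMap.snd ℝ (F → ℝ) (W → ℝ)).comp
        ((LinearMap.snd ℝ (P → ℝ) ((F → ℝ) × (W → ℝ))).comp (LinearMap.ker (lemDPsi X c P F)).subtype))
    have hφ : Function.Injective φ := by
      rw [injective_iff_map_eq_zero]
      intro x hx
      apply Subtype.ext
      exact key x.1 (LinearMap.mem_ker.1 x.2) hx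
    have := LinearMap.finrank_le_finrank_of_injective hφ
    rwa [Module.finrank_self] at this
  have h1 := LinearMap.finrank_range_add_finrank_ker (lemDPsi X c P F)
  have h2 : Module.finrank ℝ (LinearMap.range (lemDPsi X c P F)) ≤ 3 * F.card := by
    refine (Submodule.finrank_le _).trans ?_
    rw [Module.finrank_fintype_fun_eq_card, Fintype.card_prod, Fintype.card_fin, Fintype.card_coe]
  have h3 : Module.finrank ℝ ((P → ℝ) × (F → ℝ) × (W → ℝ)) = P.card + (F.card + Fintype.card W) := by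
    rw [Module.finrank_prod, Module.finrank_prod, Module.finrank_fintype_fun_eq_card,
      Module.finrank_fintype_fun_eq_card, Module.finrank_fintype_fun_eq_card, Fintype.card_coe,
      Fintype.card_coe]
  rw [h3] at h1
  omega

/-- Euler's inequality -/
theorem euler_le [Fintype B] [Fintype W] [Fintype V] (X : Web B W) (c : Fin 3 → B → V)
    (step : ∀ j b b', X.e (j + 1) b' = X.e (j + 2) b → c j b' = c j b)
    (surj : ∀ v, ∃ j b, c j b = v) {col : B → Bool} {σ : Bool} (h : X.WConn col σ) :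
    Fintype.card V ≤ Fintype.card B + 2 := by
  classical
  by_cases hV : Nonempty V
  · obtain ⟨v0⟩ := hV
    have hmono : ∀ w w' : W, Relation.EqvGen
        (fun w w' => ∃ b i i', col b = σ ∧ X.e i b = w ∧ X.e i' b = w') w w' →
        Relation.EqvGen
        (fun w w' => ∃ b ∈ (Finset.univ : Finset B), ∃ i i', X.e i b = w ∧ X.e i' b = w') w w' := by
      intro w w' hw
      induction hw with
      | rel x y hxy =>
        obtain ⟨b, i, i', _, h2, h3⟩ := hxy
        exact Relation.EqvGen.rel _ _ ⟨b, Finset.mem_univ _, i, i', h2, h3⟩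
      | refl x => exact Relation.EqvGen.refl _
      | symm x y _ ih => exact ih.symm
      | trans x y z _ _ ih1 ih2 => exact ih1.trans _ _ _ ih2
    have h1 := lemD X c step surj Finset.univ (fun w w' => hmono w w' (h w w'))
      (Finset.univ.erase v0) (fun _ _ _ => Finset.mem_univ _) ⟨v0, Finset.notMem_erase _ _⟩
    rw [Finset.card_erase_of_mem (Finset.mem_univ _), Finset.card_univ, Finset.card_univ] at h1
    have h2 : Fintype.card W = Fintype.card B := (Fintype.card_congr (X.e 0)).symm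
    omega
  · rw [not_nonempty_iff] at hV
    rw [Fintype.card_eq_zero]
    omega

end Vale.Agent.P039.Sk
end

section

/-! Monochromatic faces and colour changes. -/

set_option linter.unusedSectionVars false

namespace Vale.Agent.P039.Sk

variable {B W V : Type}

theorem Tr_ne {a b : Bool} (h : a ≠ b) : a = !b := by
  revert a b
  decide

theorem Tr_conn {X : Web B W} {col : B → Bool} {σ : Bool} {w w' : W}
    (h : Relation.EqvGen
      (fun w w' => ∃ b i i', col b = σ ∧ X.e i b = w ∧ X.e i' b = w') w w') :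
    w = w' ∨ ((∃ i b, X.e i b = w ∧ col b = σ) ∧ ∃ i b, X.e i b = w' ∧ col b = σ) := by
  induction h with
  | rel x y h =>
    obtain ⟨b, i, i', h1, h2, h3⟩ := h
    exact Or.inr ⟨⟨i, b, h2, h1⟩, ⟨i', b, h3, h1⟩⟩
  | refl x => exact Or.inl rfl
  | symm x y _ ih =>
    rcases ih with ih | ih
    · exact Or.inl ih.symm
    · exact Or.inr ⟨ih.2, ih.1⟩
  | trans x y z _ _ ih1 ih2 =>
    rcases ih1 with rfl | ih1
    · exact ih2
    · rcases ih2 with rfl | ih2
      · exact Or.inr ih1
      · exact Or.inr ⟨ih1.1, ih2.2⟩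

theorem Tr_rho (X : Web B W) (k : Fin 3) (a : B) : X.e (k + 1) (X.rho k a) = X.e (k + 2) a := by
  simp [Web.rho]

theorem Tr_rho_eq (X : Web B W) {k : Fin 3} {a a' : B} (h : X.e (k + 1) a' = X.e (k + 2) a) :
    X.rho k a = a' :=
  (X.e (k + 1)).injective ((Tr_rho X k a).trans h.symm)

theorem Tr_c_rho {X : Web B W} (L : Lab X V) (k : Fin 3) (a : B) :
    L.c k (X.rho k a) = L.c k a :=
  L.step k a _ (Tr_rho X k a)

variable {X : Web B W} [Fintype B] [Fintype W] [Fintype V] [DecidableEq V] {col : B → Bool}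

/-- every white vertex has black neighbours of both colours -/
theorem exists_nb (hN : 2 ≤ Fintype.card B) (hs : X.Split col) (w : W) (σ : Bool) :
    ∃ i b, X.e i b = w ∧ col b = σ := by
  have h1 : 1 < Fintype.card W := by
    rw [← Fintype.card_congr (X.e 0)]
    omega
  obtain ⟨w', hw'⟩ := Fintype.exists_ne_of_one_lt_card h1 w
  have h2 : X.WConn col σ := by
    cases σ
    · exact hs.f
    · exact hs.t
  rcases Tr_conn (h2 w w') with h3 | h3
  · exact absurd h3.symm hw'
  · exact h3.1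

/-- if the colour does not change along the face then all the face has the colour `σ` -/
theorem Tr_prop (L : Lab X V) {k : Fin 3} {v : V} {σ : Bool}
    (h : ∀ a, L.c k a = v → col a = σ → col (X.rho k a) = σ) {b b' : B} (hb : L.c k b = v)
    (hb' : L.c k b' = v) (h1 : col b = σ) : col b' = σ := by
  obtain ⟨n, hn⟩ := ((L.sameFace k b b').2 (hb.trans hb'.symm)).exists_nat_pow_eq
  have key : ∀ n : ℕ, L.c k ((X.rho k ^ n) b) = v ∧ col ((X.rho k ^ n) b) = σ := by
    intro n
    induction n with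
    | zero => exact ⟨hb, h1⟩
    | succ n ih =>
      rw [pow_succ', Equiv.Perm.mul_apply]
      exact ⟨(Tr_c_rho L k _).trans ih.1, h _ ih.1 ih.2⟩
  rw [← hn]
  exact (key n).2

/-- the changes from `σ` to `!σ` -/
def TrT (X : Web B W) (col : B → Bool) (σ : Bool) : Finset (Fin 3 × B) :=
  Finset.univ.filter fun p => col p.2 = σ ∧ col (X.rho p.1 p.2) = !σ

theorem Tr_mem {σ : Bool} {k : Fin 3} {a : B} :
    (k, a) ∈ TrT X col σ ↔ col a = σ ∧ col (X.rho k a) = !σ := by
  rw [TrT, Finset.mem_filter]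
  exact ⟨fun h => h.2, fun h => ⟨Finset.mem_univ _, h⟩⟩

theorem Tr_three (x : Fin 3 → Bool) (σ : Bool) (h : ∃ i, x i = σ) (h' : ∃ i, x i = !σ) :
    (Finset.univ.filter fun k : Fin 3 => x (k + 2) = σ ∧ x (k + 1) = !σ).card = 1 := by
  revert x σ
  decide

theorem Tr_card (hN : 2 ≤ Fintype.card B) (hs : X.Split col) (σ : Bool) :
    (TrT X col σ).card = Fintype.card B := by
  classical
  have h1 : ∀ w : W, (Finset.univ.filter fun k : Fin 3 =>
      col ((X.e (k + 2)).symm w) = σ ∧ col ((X.e (k + 1)).symm w) = !σ).card = 1 := by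
    intro w
    refine Tr_three (fun i => col ((X.e i).symm w)) σ ?_ ?_
    · obtain ⟨i, b, h1, h2⟩ := exists_nb hN hs w σ
      refine ⟨i, ?_⟩
      rw [← h1]
      simpa using h2
    · obtain ⟨i, b, h1, h2⟩ := exists_nb hN hs w (!σ)
      refine ⟨i, ?_⟩
      rw [← h1]
      simpa using h2
  have h2 : (TrT X col σ).card = ∑ w : W, (Finset.univ.filter fun k : Fin 3 =>
      col ((X.e (k + 2)).symm w) = σ ∧ col ((X.e (k + 1)).symm w) = !σ).card := by
    rw [Finset.card_eq_sum_card_fiberwise (f := fun p : Fin 3 × B => X.e (p.1 + 2) p.2)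
      (t := Finset.univ) (fun _ _ => Finset.mem_coe.2 (Finset.mem_univ _))]
    refine Finset.sum_congr rfl fun w _ => ?_
    refine Finset.card_nbij' (fun p => p.1) (fun k => (k, (X.e (k + 2)).symm w)) ?_ ?_ ?_ ?_
    · rintro ⟨k, a⟩ h
      rw [Finset.mem_coe, Finset.mem_filter, Tr_mem] at h
      obtain ⟨⟨h3, h4⟩, h5⟩ := h
      rw [Finset.mem_coe, Finset.mem_filter]
      refine ⟨Finset.mem_univ _, ?_, ?_⟩
      · rw [← h5]
        simpa using h3
      · rw [← h5]
        exact h4
    · intro k h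
      rw [Finset.mem_coe, Finset.mem_filter] at h
      rw [Finset.mem_coe, Finset.mem_filter, Tr_mem]
      refine ⟨⟨h.2.1, ?_⟩, ?_⟩
      · rw [← h.2.2]
        simp [Web.rho]
      · simp
    · rintro ⟨k, a⟩ h
      rw [Finset.mem_coe, Finset.mem_filter] at h
      simp only at h ⊢
      rw [← h.2, Equiv.symm_apply_apply]
    · intro k _
      rfl
  rw [h2, Finset.sum_congr rfl fun w _ => h1 w, Finset.sum_const, smul_eq_mul, mul_one,
    Finset.card_univ, Fintype.card_congr (X.e 0)]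

/-- a face with two colours has a change from `σ` to `!σ` -/
theorem Tr_exists (L : Lab X V) {v : V} (hv : ¬ L.Mono col v) (σ : Bool) :
    ∃ k a, (k, a) ∈ TrT X col σ ∧ L.c k a = v := by
  unfold Lab.Mono at hv
  push Not at hv
  obtain ⟨k, b, b', h1, h2, h3⟩ := hv
  by_contra hcon
  push Not at hcon
  have h4 : ∀ a, L.c k a = v → col a = σ → col (X.rho k a) = σ := by
    intro a ha hc
    by_contra h5
    exact hcon k a (Tr_mem.2 ⟨hc, Tr_ne h5⟩) ha
  by_cases h5 : col b = σ
  · exact h3 (h5.trans (Tr_prop L h4 h1 h2 h5).symm)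
  · have h6 : col b' = σ := by
      have h7 := Tr_ne h3
      have h8 := Tr_ne h5
      rw [h8] at h7
      cases hb : col b' <;> rw [hb] at h7 <;> simp_all
    exact h5 (Tr_prop L h4 h2 h1 h6)

theorem Tr_not_mono (L : Lab X V) {σ : Bool} {k : Fin 3} {a : B} (h : (k, a) ∈ TrT X col σ) :
    ¬ L.Mono col (L.c k a) := by
  intro hm
  rw [Tr_mem] at h
  have h1 := hm k a (X.rho k a) rfl (Tr_c_rho L k a)
  rw [h.1, h.2] at h1
  cases σ <;> simp at h1

theorem exists_mono (L : Lab X V) (hc : Fintype.card V = Fintype.card B + 2)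
    (hN : 2 ≤ Fintype.card B) (hs : X.Split col) :
    ∃ x y, x ≠ y ∧ L.Mono col x ∧ L.Mono col y := by
  classical
  have h1 : (Finset.univ.filter fun v => ¬ L.Mono col v).card ≤ (TrT X col true).card := by
    have h2 : (Finset.univ.filter fun v => ¬ L.Mono col v) ⊆
        (TrT X col true).image fun p => L.c p.1 p.2 := by
      intro v hv
      rw [Finset.mem_filter] at hv
      obtain ⟨k, a, h3, h4⟩ := Tr_exists L hv.2 true
      exact Finset.mem_image.2 ⟨(k, a), h3, h4⟩
    exact (Finset.card_le_card h2).trans Finset.card_image_le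
  rw [Tr_card hN hs] at h1
  have h2 := Finset.card_filter_add_card_filter_not (s := (Finset.univ : Finset V))
    (fun v => L.Mono col v)
  rw [Finset.card_univ] at h2
  have h3 : 1 < (Finset.univ.filter fun v => L.Mono col v).card := by omega
  obtain ⟨x, hx, y, hy, hxy⟩ := Finset.one_lt_card.1 h3
  exact ⟨x, y, hxy, (Finset.mem_filter.1 hx).2, (Finset.mem_filter.1 hy).2⟩

/-- the number of faces all of whose black vertices have the colour `σ` -/
theorem Tr_card_le (L : Lab X V) (hN : 2 ≤ Fintype.card B) (hs : X.Split col) (σ : Bool) :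
    (Finset.univ.filter fun v => ∀ k b, L.c k b = v → col b = σ).card + Fintype.card W ≤
      2 * (Finset.univ.filter fun b => col b = σ).card + 1 := by
  classical
  refine lemD X L.c L.step L.surj _ ?_ _ ?_ ?_
  · have h2 : X.WConn col σ := by
      cases σ
      · exact hs.f
      · exact hs.t
    intro w w'
    refine Relation.EqvGen.mono (fun x y h => ?_) w w' (h2 w w')
    obtain ⟨b, i, i', h1, h3, h4⟩ := h
    exact ⟨b, Finset.mem_filter.2 ⟨Finset.mem_univ _, h1⟩, i, i', h3, h4⟩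
  · intro k b h
    exact Finset.mem_filter.2 ⟨Finset.mem_univ _, (Finset.mem_filter.1 h).2 k b rfl⟩
  · have hB : 0 < Fintype.card B := by omega
    obtain ⟨b₀⟩ := Fintype.card_pos_iff.1 hB
    obtain ⟨i, b, _, hb⟩ := exists_nb hN hs (X.e 0 b₀) (!σ)
    refine ⟨L.c 0 b, fun h => ?_⟩
    have h3 := (Finset.mem_filter.1 h).2 0 b rfl
    rw [h3] at hb
    cases σ <;> simp at hb

theorem mono_le (L : Lab X V) (hN : 2 ≤ Fintype.card B)
    (hs : X.Split col) {x y z : V} (hx : L.Mono col x) (hy : L.Mono col y) (hz : L.Mono col z)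
    (hxy : x ≠ y) (hxz : x ≠ z) (hyz : y ≠ z) : False := by
  classical
  have h1 := Tr_card_le L hN hs true
  have h2 := Tr_card_le L hN hs false
  have hBW := Fintype.card_congr (X.e 0)
  have h3 : (Finset.univ.filter fun b => col b = true).card +
      (Finset.univ.filter fun b => col b = false).card = Fintype.card B := by
    rw [← Finset.card_univ, ← Finset.card_filter_add_card_filter_not
      (s := (Finset.univ : Finset B)) (fun b => col b = true)]
    congr 2
    ext b
    simp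
  have h4 : ∀ v, L.Mono col v → v ∈ (Finset.univ.filter fun v => ∀ k b, L.c k b = v →
      col b = true) ∪ Finset.univ.filter fun v => ∀ k b, L.c k b = v → col b = false := by
    intro v hv
    obtain ⟨k, b, hkb⟩ := L.surj v
    rw [Finset.mem_union, Finset.mem_filter, Finset.mem_filter]
    have h5 : ∀ k' b', L.c k' b' = v → col b' = col b := by
      intro k' b' h
      have h6 : k' = k := L.cls _ _ _ _ (h.trans hkb.symm)
      subst h6
      exact hv k' b' b h hkb
    cases hb : col b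
    · right
      refine ⟨Finset.mem_univ _, fun k' b' h => ?_⟩
      rw [h5 k' b' h, hb]
    · left
      refine ⟨Finset.mem_univ _, fun k' b' h => ?_⟩
      rw [h5 k' b' h, hb]
  have h5 : ({x, y, z} : Finset V).card = 3 := Finset.card_eq_three.2 ⟨x, y, z, hxy, hxz, hyz, rfl⟩
  have h6 : ({x, y, z} : Finset V) ⊆ (Finset.univ.filter fun v => ∀ k b, L.c k b = v →
      col b = true) ∪ Finset.univ.filter fun v => ∀ k b, L.c k b = v → col b = false := by
    intro v hv
    rw [Finset.mem_insert, Finset.mem_insert, Finset.mem_singleton] at hv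
    rcases hv with rfl | rfl | rfl
    · exact h4 _ hx
    · exact h4 _ hy
    · exact h4 _ hz
  have h7 := Finset.card_le_card h6
  have h8 := Finset.card_union_le (Finset.univ.filter fun v => ∀ k b, L.c k b = v →
      col b = true) (Finset.univ.filter fun v => ∀ k b, L.c k b = v → col b = false)
  omega

/-- on every face there is at most one change from `σ` to `!σ` -/
theorem trans_unique (L : Lab X V) (hc : Fintype.card V = Fintype.card B + 2)
    (hN : 2 ≤ Fintype.card B) (hs : X.Split col) {k : Fin 3} {a a' b b' : B}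
    (ha : X.e (k + 1) a' = X.e (k + 2) a) (hb : X.e (k + 1) b' = X.e (k + 2) b)
    (hab : L.c k a = L.c k b) {σ : Bool} (h1 : col a = σ) (h2 : col a' = !σ)
    (h3 : col b = σ) (h4 : col b' = !σ) : a = b := by
  classical
  have hra := Tr_rho_eq X ha
  have hrb := Tr_rho_eq X hb
  have ma : (k, a) ∈ TrT X col σ := Tr_mem.2 ⟨h1, by rw [hra]; exact h2⟩
  have mb : (k, b) ∈ TrT X col σ := Tr_mem.2 ⟨h3, by rw [hrb]; exact h4⟩
  have h5 : (Finset.univ.filter fun v => L.Mono col v).card ≤ 2 := by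
    by_contra hcon
    push Not at hcon
    obtain ⟨x, hx, y, hy, z, hz, hxy, hxz, hyz⟩ := Finset.two_lt_card.1 hcon
    exact mono_le L hN hs (Finset.mem_filter.1 hx).2 (Finset.mem_filter.1 hy).2
      (Finset.mem_filter.1 hz).2 hxy hxz hyz
  have h6 := Finset.card_filter_add_card_filter_not (s := (Finset.univ : Finset V))
    (fun v => L.Mono col v)
  rw [Finset.card_univ] at h6
  have h7 : (TrT X col σ).card ≤ (Finset.univ.filter fun v => ¬ L.Mono col v).card := by
    rw [Tr_card hN hs]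
    omega
  have h8 := Finset.injOn_of_surjOn_of_card_le (fun p : Fin 3 × B => L.c p.1 p.2)
    (s := TrT X col σ) (t := Finset.univ.filter fun v => ¬ L.Mono col v)
    (by
      rintro ⟨k, a⟩ h
      exact Finset.mem_coe.2 (Finset.mem_filter.2 ⟨Finset.mem_univ _,
        Tr_not_mono L (Finset.mem_coe.1 h)⟩))
    (by
      intro v hv
      obtain ⟨k, a, h9, h10⟩ := Tr_exists L (Finset.mem_filter.1 (Finset.mem_coe.1 hv)).2 σ
      exact ⟨(k, a), Finset.mem_coe.2 h9, h10⟩) h7
  exact (Prod.ext_iff.1 (h8 (Finset.mem_coe.2 ma) (Finset.mem_coe.2 mb) hab)).2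

/-- if `b₂` differs from both its neighbours on a face, then it is the only black vertex of its
colour on this face -/
theorem arc (L : Lab X V) (hc : Fintype.card V = Fintype.card B + 2)
    (hN : 2 ≤ Fintype.card B) (hs : X.Split col) {k : Fin 3} {p b₂ n : B}
    (hp : X.e (k + 1) b₂ = X.e (k + 2) p) (hn : X.e (k + 1) n = X.e (k + 2) b₂)
    (h2 : col b₂ = false) (h1 : col p = true) (h3 : col n = true) :
    ∀ b, L.c k b = L.c k b₂ → b ≠ b₂ → col b = true := by
  have hcp : L.c k b₂ = L.c k p := L.step k p b₂ hp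
  have hcn : L.c k n = L.c k b₂ := L.step k b₂ n hn
  have key : ∀ m : ℕ, L.c k ((X.rho k ^ m) n) = L.c k b₂ ∧
      (col ((X.rho k ^ m) n) = true ∨ (X.rho k ^ m) n = b₂) := by
    intro m
    induction m with
    | zero => exact ⟨hcn, Or.inl h3⟩
    | succ m ih =>
      rw [pow_succ', Equiv.Perm.mul_apply]
      refine ⟨(Tr_c_rho L k _).trans ih.1, ?_⟩
      rcases ih.2 with h4 | h4
      · by_cases h5 : col (X.rho k ((X.rho k ^ m) n)) = true
        · exact Or.inl h5
        · right
          have h6 := trans_unique L hc hN hs (σ := true) (Tr_rho X k ((X.rho k ^ m) n)) hp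
            (ih.1.trans hcp) h4 (by simpa using h5) h1 (by simpa using h2)
          rw [h6]
          exact Tr_rho_eq X hp
      · left
        rw [h4, Tr_rho_eq X hn]
        exact h3
  intro b hb hne
  obtain ⟨m, hm⟩ := ((L.sameFace k n b).2 (hcn.trans hb.symm)).exists_nat_pow_eq
  have h4 := key m
  rw [hm] at h4
  exact h4.2.resolve_right hne

end Vale.Agent.P039.Sk
end

section

/-! Reversing the orientation. -/

namespace Vale.Agent.P039.Sk

variable {B W V B' W' : Type}

variable {X : Web B W}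

theorem rev_e0 (i : Fin 3) (b : B) : X.rev.e i b = X.e (-i) b := rfl

theorem rev_e1 (j : Fin 3) (b : B) : X.rev.e (j + 1) b = X.e (-j + 2) b := by
  rw [rev_e0, dual_n1]

theorem rev_e2 (j : Fin 3) (b : B) : X.rev.e (j + 2) b = X.e (-j + 1) b := by
  rw [rev_e0, dual_n2]

theorem Web.rev_e (X : Web B W) (j : Fin 3) (b : B) : X.rev.e (-j) b = X.e j b ∧
    X.rev.e (-j + 1) b = X.e (j + 2) b ∧ X.rev.e (-j + 2) b = X.e (j + 1) b := by
  refine ⟨?_, ?_, ?_⟩
  · rw [rev_e0, neg_neg]
  · rw [rev_e0, dual_m1]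
  · rw [rev_e0, dual_m2]

def Lab.rev (L : Lab X V) : Lab X.rev V where
  c j b := L.c (-j) b
  step := by
    intro j b b' h
    rw [rev_e1, rev_e2] at h
    exact (L.step (-j) b' b h.symm).symm
  exact := by
    intro j b b' h
    exact dual_eqvGen (S := fun x y => X.rev.e (j + 1) y = X.rev.e (j + 2) x) id
      (fun x y hxy => Or.inr (by
        rw [rev_e1, rev_e2]
        exact hxy.symm)) (L.exact _ _ _ h)
  cls := by
    intro j j' b b' h
    exact neg_injective (L.cls _ _ _ _ h)
  surj := by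
    intro v
    obtain ⟨j, b, hb⟩ := L.surj v
    refine ⟨-j, b, ?_⟩
    rw [neg_neg, hb]

theorem rev_split {col : B → Bool} (h : X.Split col) : X.rev.Split col := by
  have key : ∀ σ, X.WConn col σ → X.rev.WConn col σ := by
    intro σ H w w'
    refine dual_eqvGen id (fun x y hxy => Or.inl ?_) (H w w')
    obtain ⟨b, i, i', h1, h2, h3⟩ := hxy
    refine ⟨b, -i, -i', h1, ?_, ?_⟩
    · rw [rev_e0, neg_neg]; exact h2
    · rw [rev_e0, neg_neg]; exact h3
  exact ⟨key true h.t, key false h.f⟩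

theorem rev_mono (L : Lab X V) {col : B → Bool} {v : V} (h : L.Mono col v) :
    L.rev.Mono col v := fun k b b' h1 h2 => h (-k) b b' h1 h2

theorem Sq4.rev {j : Fin 3} {b₁ b₂ : B} (Q : Sq4 X j b₁ b₂) : Sq4 X.rev (-j) b₁ b₂ where
  ne := Q.ne
  face := by
    rw [(X.rev_e j b₂).2.1, (X.rev_e j b₁).2.2]
    exact Q.face'.symm
  face' := by
    rw [(X.rev_e j b₁).2.1, (X.rev_e j b₂).2.2]
    exact Q.face.symm
  n11 := by
    rw [(X.rev_e j b₁).1, (X.rev_e j b₁).2.2, Q.face']
    exact Q.n12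
  n12 := by
    rw [(X.rev_e j b₁).1, (X.rev_e j b₂).2.2, Q.face]
    exact Q.n11
  n21 := by
    rw [(X.rev_e j b₂).1, (X.rev_e j b₁).2.2, Q.face']
    exact Q.n22
  n22 := by
    rw [(X.rev_e j b₂).1, (X.rev_e j b₂).2.2, Q.face]
    exact Q.n21

theorem Lab.rev_c0 (L : Lab X V) (j : Fin 3) (b : B) : L.rev.c j b = L.c (-j) b := rfl

theorem Lab.rev_c (L : Lab X V) (j : Fin 3) (b : B) : L.rev.c (-j) b = L.c j b ∧
    L.rev.c (-j + 1) b = L.c (j + 2) b ∧ L.rev.c (-j + 2) b = L.c (j + 1) b := by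
  refine ⟨?_, ?_, ?_⟩
  · rw [L.rev_c0, neg_neg]
  · rw [L.rev_c0, dual_m1]
  · rw [L.rev_c0, dual_m2]

theorem rev_forall {P : Fin 3 → B → Prop} : (∀ i b, P i b) ↔ ∀ k b, P (-k) b := by
  refine ⟨fun h k b => h _ _, fun h i b => ?_⟩
  have h1 := h (-i) b
  rwa [neg_neg] at h1

theorem rev_valid_at (L : Lab X V) (h : V → ZMod 12) (k : Fin 3) (b : B) :
    (- h (L.rev.c (-k + 2) b) = - h (L.rev.c (-k + 1) b) + 1 ∨
      - h (L.rev.c (-k + 2) b) = - h (L.rev.c (-k + 1) b) - 2) ↔
    (h (L.c (k + 2) b) = h (L.c (k + 1) b) + 1 ∨ h (L.c (k + 2) b) = h (L.c (k + 1) b) - 2) := by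
  rw [(L.rev_c k b).2.1, (L.rev_c k b).2.2]
  constructor
  · rintro (h1 | h1)
    · left; linear_combination h1
    · right; linear_combination h1
  · rintro (h1 | h1)
    · left; linear_combination h1
    · right; linear_combination h1

theorem rev_up_at (L : Lab X V) (h : V → ZMod 12) (k : Fin 3) (b : B) :
    (- h (L.rev.c (-k + 2) b) = - h (L.rev.c (-k + 1) b) + 1) ↔
    h (L.c (k + 2) b) = h (L.c (k + 1) b) + 1 := by
  rw [(L.rev_c k b).2.1, (L.rev_c k b).2.2]
  constructor
  · intro h1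
    linear_combination h1
  · intro h1
    linear_combination h1

theorem rev_up_at' (L : Lab X V) (h : V → ZMod 12) (i : Fin 3) (b : B) :
    (- h (L.rev.c (i + 2) b) = - h (L.rev.c (i + 1) b) + 1) ↔
    h (L.c (-i + 2) b) = h (L.c (-i + 1) b) + 1 := by
  have h1 := rev_up_at L h (-i) b
  rwa [neg_neg] at h1

theorem rev_valid (L : Lab X V) (h : V → ZMod 12) : L.rev.Valid (fun v => - h v) ↔ L.Valid h := by
  unfold Lab.Valid
  rw [rev_forall]
  exact forall_congr' fun k => forall_congr' fun b => rev_valid_at L h k b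

theorem rev_HE (L : Lab X V) (h : V → ZMod 12) : L.rev.HE (fun v => - h v) = L.HE h := by
  funext x y
  apply propext
  unfold Lab.HE
  constructor
  · rintro ⟨i, b, h1, rfl, rfl⟩
    exact ⟨-i, b, (rev_up_at' L h i b).1 h1, rfl, rfl⟩
  · rintro ⟨k, b, h1, rfl, rfl⟩
    refine ⟨-k, b, (rev_up_at L h k b).2 h1, rfl, ?_⟩
    rw [(X.rev_e k b).1]

theorem rev_conn (L : Lab X V) (h : V → ZMod 12) :
    L.rev.Conn (fun v => - h v) ↔ L.Conn h := by
  unfold Lab.Conn
  rw [rev_HE]

theorem rev_sol (L : Lab X V) (h : V → ZMod 12) :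
    L.rev.Sol (fun v => - h v) ↔ L.Sol h := by
  unfold Lab.Sol
  rw [rev_valid, rev_conn]

variable [Fintype B] [Fintype V] [DecidableEq V]

omit [DecidableEq V] in
theorem rev_E (L : Lab X V) (m : V → ZMod 4) (h : V → ZMod 12) :
    L.rev.E m (fun v => - h v) = - L.E m h := by
  have h1 : ∑ b, ∑ j, kap (h (L.rev.c j b)) = ∑ b, ∑ j, kap (h (L.c j b)) := by
    refine Finset.sum_congr rfl fun b _ => ?_
    exact Equiv.sum_comp (Equiv.neg (Fin 3)) fun j => kap (h (L.c j b))
  unfold Lab.E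
  simp only [map_neg, mul_neg, Finset.sum_neg_distrib]
  rw [h1]
  ring

theorem rev_S (L : Lab X V) (m : V → ZMod 4) : L.rev.S m = L.S m := by
  unfold Lab.S
  refine (dual_sum _).trans ?_
  refine Finset.sum_congr rfl fun h _ => ?_
  have e1 : (Equiv.neg (V → ZMod 12)) h = fun v => - h v := rfl
  rw [e1, rev_E, eps_neg]
  by_cases hs : L.Sol h
  · rw [if_pos hs, if_pos ((rev_sol L h).2 hs)]
  · rw [if_neg hs, if_neg fun hs' => hs ((rev_sol L h).1 hs')]

end Vale.Agent.P039.Sk
end

section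

/-! Splittings and marks under smoothing. -/

namespace Vale.Agent.P039.Sk

variable {B W V B' W' : Type}

variable {Y : Web B W} {X : Web B' W'} {f : B' → B} {g : W' → W} {j : Fin 3} {b₁ b₂ : B}
  {col : B → Bool}

/-- a map back from the larger web on white vertices, with prescribed values at the 4-face -/
theorem SqRel.down_phi (R : SqRel Y X f g j b₁ b₂) (z₁ z₂ : W') :
    ∃ φ : W → W', (∀ w, φ (g w) = w) ∧ φ (Y.e (j + 2) b₁) = z₁ ∧ φ (Y.e (j + 2) b₂) = z₂ := by
  classical
  have hww : Y.e (j + 2) b₂ ≠ Y.e (j + 2) b₁ := fun h => R.ne ((Y.e _).injective h).symm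
  refine ⟨fun w => if w = Y.e (j + 2) b₁ then z₁ else if w = Y.e (j + 2) b₂ then z₂ else
      if h : ∃ a, g a = w then h.choose else z₁, ?_, ?_, ?_⟩
  · intro a
    have hex : ∃ a', g a' = g a := ⟨a, rfl⟩
    simp only [R.g_ne₁ a, R.g_ne₂ a, if_false]
    rw [dif_pos hex]
    exact R.gi hex.choose_spec
  · simp
  · simp [hww]

theorem down_lift {A A' : Type} {r : A → A → Prop} {r' : A' → A' → Prop} (φ : A → A')
    (h : ∀ x y, r x y → Relation.EqvGen r' (φ x) (φ y)) {x y : A} (hxy : Relation.EqvGen r x y) :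
    Relation.EqvGen r' (φ x) (φ y) := by
  induction hxy with
  | rel x y h' => exact h x y h'
  | refl x => exact Relation.EqvGen.refl _
  | symm x y _ ih => exact ih.symm
  | trans x y z _ _ ih1 ih2 => exact ih1.trans _ _ _ ih2

theorem SqRel.down_gen (R : SqRel Y X f g j b₁ b₂) {σ : Bool} (hs : Y.WConn col σ)
    {β₁ β₂ : B'} (e₁ : Y.e j (f β₁) = Y.e (j + 2) b₁) (e₂ : Y.e j (f β₂) = Y.e (j + 2) b₂)
    {o₁ o₂ : W'} (ho₁ : g o₁ = Y.e j b₁) (ho₂ : g o₂ = Y.e j b₂) (z₁ z₂ : W')
    (H1 : col b₁ = σ → Relation.EqvGen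
      (fun w w' => ∃ b i i', col (f b) = σ ∧ X.e i b = w ∧ X.e i' b = w') z₁ o₁ ∧ Relation.EqvGen
      (fun w w' => ∃ b i i', col (f b) = σ ∧ X.e i b = w ∧ X.e i' b = w') z₂ o₁)
    (H2 : col b₂ = σ → Relation.EqvGen
      (fun w w' => ∃ b i i', col (f b) = σ ∧ X.e i b = w ∧ X.e i' b = w') z₁ o₂ ∧ Relation.EqvGen
      (fun w w' => ∃ b i i', col (f b) = σ ∧ X.e i b = w ∧ X.e i' b = w') z₂ o₂)
    (H3 : col (f β₁) = σ → Relation.EqvGen
      (fun w w' => ∃ b i i', col (f b) = σ ∧ X.e i b = w ∧ X.e i' b = w') z₁ o₂)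
    (H4 : col (f β₂) = σ → Relation.EqvGen
      (fun w w' => ∃ b i i', col (f b) = σ ∧ X.e i b = w ∧ X.e i' b = w') z₂ o₁) :
    X.WConn (fun b => col (f b)) σ := by
  obtain ⟨φ, hg, hz₁, hz₂⟩ := R.down_phi z₁ z₂
  intro w w'
  have hx₁ : X.e j β₁ = o₂ := R.gi ((R.out1 _ e₁).trans ho₂.symm)
  have hx₂ : X.e j β₂ = o₁ := R.gi ((R.out2 _ e₂).trans ho₁.symm)
  have hφ₁ : φ (Y.e j b₁) = o₁ := by rw [← ho₁, hg]
  have hφ₂ : φ (Y.e j b₂) = o₂ := by rw [← ho₂, hg]
  -- each hyperedge is collapsed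
  have key : ∀ b, col b = σ → ∃ o : W', ∀ i, Relation.EqvGen
      (fun w w' => ∃ b i i', col (f b) = σ ∧ X.e i b = w ∧ X.e i' b = w') (φ (Y.e i b)) o := by
    intro b hb
    rcases R.cases b with rfl | rfl | ⟨a, rfl⟩
    · refine ⟨o₁, fun i => ?_⟩
      rcases fcase i j with rfl | rfl | rfl
      · rw [hφ₁]; exact Relation.EqvGen.refl _
      · rw [R.face', hz₂]; exact (H1 hb).2
      · rw [hz₁]; exact (H1 hb).1
    · refine ⟨o₂, fun i => ?_⟩
      rcases fcase i j with rfl | rfl | rfl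
      · rw [hφ₂]; exact Relation.EqvGen.refl _
      · rw [R.face, hz₁]; exact (H2 hb).1
      · rw [hz₂]; exact (H2 hb).2
    · refine ⟨X.e j a, fun i => ?_⟩
      rcases fcase i j with rfl | rfl | rfl
      · by_cases c1 : Y.e i (f a) = Y.e (i + 2) b₁
        · have ha : a = β₁ := R.fi ((Y.e i).injective (c1.trans e₁.symm))
          subst ha
          rw [c1, hz₁, hx₁]
          exact H3 hb
        · by_cases c2 : Y.e i (f a) = Y.e (i + 2) b₂
          · have ha : a = β₂ := R.fi ((Y.e i).injective (c2.trans e₂.symm))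
            subst ha
            rw [c2, hz₂, hx₂]
            exact H4 hb
          · rw [R.same a c1 c2, hg]
            exact Relation.EqvGen.refl _
      · rw [R.other _ (fne1 j), hg]
        exact Relation.EqvGen.rel _ _ ⟨a, _, _, hb, rfl, rfl⟩
      · rw [R.other _ (fne2 j), hg]
        exact Relation.EqvGen.rel _ _ ⟨a, _, _, hb, rfl, rfl⟩
  have h := down_lift (r' := fun w w' => ∃ b i i', col (f b) = σ ∧ X.e i b = w ∧ X.e i' b = w')
    φ (fun x y hxy => by
      obtain ⟨b, i, i', hb, rfl, rfl⟩ := hxy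
      obtain ⟨o, ho⟩ := key b hb
      exact (ho i).trans _ _ _ (ho i').symm) (hs (g w) (g w'))
  rw [hg, hg] at h
  exact h

theorem SqRel.down_false (R : SqRel Y X f g j b₁ b₂) (hs : Y.Split col) (h1 : col b₁ = true)
    (h2 : col b₂ = false) {β₂ : B'} (e₂ : Y.e j (f β₂) = Y.e (j + 2) b₂)
    (c₂ : col (f β₂) = true) : X.WConn (fun b => col (f b)) false := by
  obtain ⟨β₁, β₂', -, e₁, -⟩ := R.betas
  obtain ⟨o₁, ho₁⟩ := R.o1
  obtain ⟨o₂, ho₂⟩ := R.o2
  refine R.down_gen hs.f e₁ e₂ ho₁ ho₂ o₂ o₂ ?_ ?_ ?_ ?_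
  · intro h
    rw [h1] at h
    exact absurd h (by decide)
  · exact fun _ => ⟨Relation.EqvGen.refl _, Relation.EqvGen.refl _⟩
  · exact fun _ => Relation.EqvGen.refl _
  · intro h
    rw [c₂] at h
    exact absurd h (by decide)

theorem SqRel.ne_of_wconn [Fintype B] [Fintype V] [DecidableEq V]
    (R : SqRel Y X f g j b₁ b₂) (L : Lab Y V) (hc : Fintype.card V = Fintype.card B + 2)
    {col' : B' → Bool} {σ : Bool} (h : X.WConn col' σ) :
    L.c (j + 1) b₁ ≠ L.c (j + 1) b₂ := by
  classical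
  intro hp
  obtain ⟨β₁, β₂, hβ, h₁, h₂⟩ := R.betas
  letI : Fintype B' := Fintype.ofInjective f R.fi
  letI : Fintype W' := Fintype.ofEquiv B' (X.e 0)
  have hle := euler_le (V := {v : V // v ≠ L.c j b₁}) X
    (fun k a => ⟨L.c k (f a), R.c_ne_s L k a⟩) ?_ ?_ h
  · have hcB := R.card_B
    have hcV : Fintype.card {v : V // v ≠ L.c j b₁} = Fintype.card V - 1 := by
      rw [Fintype.card_subtype_compl, Fintype.card_subtype_eq]
    omega
  · -- step
    intro k b b' h
    apply Subtype.ext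
    show L.c k (f b') = L.c k (f b)
    rcases fcase k j with rfl | rfl | rfl
    · exact L.step k (f b) (f b') (R.Y_of_j h)
    · have h' : X.e (j + 2) b' = X.e j b := by rw [f11, f12] at h; exact h
      by_cases c1 : Y.e j (f b) = Y.e (j + 2) b₁
      · have e1 : L.c (j + 1) (f b') = L.c (j + 1) b₂ := by
          refine L.step1 j ?_
          rw [R.other _ (fne2 j), h', R.out1 _ c1]
        rw [e1, (R.c_β₁ L c1).1, hp]
      · by_cases c2 : Y.e j (f b) = Y.e (j + 2) b₂
        · have e1 : L.c (j + 1) (f b') = L.c (j + 1) b₁ := by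
            refine L.step1 j ?_
            rw [R.other _ (fne2 j), h', R.out2 _ c2]
          rw [e1, (R.c_β₂ L c2).1, hp]
        · refine L.step1 j ?_
          rw [R.other _ (fne2 j), h', R.same _ c1 c2]
    · have h' : X.e j b' = X.e (j + 1) b := by rw [f21, f22] at h; exact h
      by_cases c1 : Y.e j (f b') = Y.e (j + 2) b₁
      · rw [(R.c_β₁ L c1).2]
        refine L.step2 j ?_
        rw [R.other _ (fne1 j), ← h', R.out1 _ c1]
      · by_cases c2 : Y.e j (f b') = Y.e (j + 2) b₂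
        · rw [(R.c_β₂ L c2).2]
          refine L.step2 j ?_
          rw [R.other _ (fne1 j), ← h', R.out2 _ c2]
        · refine L.step2 j ?_
          rw [R.other _ (fne1 j), ← h', R.same _ c1 c2]
  · -- surj
    rintro ⟨v, hv⟩
    have fin : ∀ k a, L.c k (f a) = v → ∃ j' a', (⟨L.c j' (f a'), R.c_ne_s L j' a'⟩ :
        {v : V // v ≠ L.c j b₁}) = ⟨v, hv⟩ := by
      intro k a ha
      exact ⟨k, a, Subtype.ext ha⟩
    obtain ⟨k, b, hb⟩ := L.surj v
    rcases R.cases b with rfl | rfl | ⟨a, rfl⟩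
    · rcases fcase k j with rfl | rfl | rfl
      · exact absurd hb.symm hv
      · exact fin (j + 1) β₁ (by rw [(R.c_β₁ L h₁).1, hb])
      · exact fin (j + 2) β₂ (by rw [(R.c_β₂ L h₂).2, hb])
    · rcases fcase k j with rfl | rfl | rfl
      · exact absurd (hb.symm.trans (R.c_s L)) hv
      · exact fin (j + 1) β₂ (by rw [(R.c_β₂ L h₂).1, hb])
      · exact fin (j + 2) β₁ (by rw [(R.c_β₁ L h₁).2, hb])
    · exact fin k a hb

theorem SqRel.down_true [Finite B] (R : SqRel Y X f g j b₁ b₂) (hs : Y.Split col)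
    (h1 : col b₁ = true) (h2 : col b₂ = false) {β₁ β₂ : B'}
    (e₁ : Y.e j (f β₁) = Y.e (j + 2) b₁) (e₂ : Y.e j (f β₂) = Y.e (j + 2) b₂)
    (c₂ : col (f β₂) = true)
    (hcase : col (f β₁) = false ∨ (¬ Y.SameFace (j + 1) b₁ b₂ ∧
      ∀ b, Y.SameFace (j + 1) b₂ b → b ≠ b₂ → col b = true)) :
    X.WConn (fun b => col (f b)) true := by
  obtain ⟨o₁, ho₁⟩ := R.o1
  obtain ⟨o₂, ho₂⟩ := R.o2
  rcases hcase with hc | ⟨hp, hface⟩
  · refine R.down_gen hs.t e₁ e₂ ho₁ ho₂ o₁ o₁ ?_ ?_ ?_ ?_
    · exact fun _ => ⟨Relation.EqvGen.refl _, Relation.EqvGen.refl _⟩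
    · intro h
      rw [h2] at h
      exact absurd h (by decide)
    · intro h
      rw [hc] at h
      exact absurd h (by decide)
    · exact fun _ => Relation.EqvGen.refl _
  · have hconn : Relation.EqvGen
        (fun w w' => ∃ b i i', col (f b) = true ∧ X.e i b = w ∧ X.e i' b = w') o₂ o₁ := by
      by_contra hne
      set ρ : Equiv.Perm B := Y.rho (j + 1) with hρ
      have hstep : ∀ x, Y.e (j + 2) (ρ x) = Y.e j x := by
        intro x
        simp only [hρ, Web.rho, f11, f12, Equiv.trans_apply, Equiv.apply_symm_apply]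
      have hx₂ : X.e j β₂ = o₁ := R.gi ((R.out2 _ e₂).trans ho₁.symm)
      have key : ∀ k : ℕ, ∃ a : B', (ρ ^ (k + 1)) b₂ = f a ∧ Relation.EqvGen
          (fun w w' => ∃ b i i', col (f b) = true ∧ X.e i b = w ∧ X.e i' b = w')
            o₂ (X.e (j + 2) a) := by
        intro k
        induction k with
        | zero =>
          rw [zero_add, pow_one]
          have h3 := hstep b₂
          rcases R.cases (ρ b₂) with h | h | ⟨a, h⟩
          · rw [h] at h3
            exact absurd h3.symm R.n21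
          · rw [h] at h3
            exact absurd h3.symm R.n22
          · refine ⟨a, h, ?_⟩
            rw [h, R.other _ (fne2 j), ← ho₂] at h3
            rw [R.gi h3]
            exact Relation.EqvGen.refl _
        | succ k ih =>
          obtain ⟨a, ha, ih2⟩ := ih
          have hx' : (ρ ^ (k + 1 + 1)) b₂ = ρ (f a) := by
            rw [pow_succ', Equiv.Perm.mul_apply, ha]
          have hsame : Y.SameFace (j + 1) b₂ (f a) := ⟨((k + 1 : ℕ) : ℤ), by
            rw [zpow_natCast]; exact ha⟩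
          have hsame' : Y.SameFace (j + 1) b₂ (ρ (f a)) := ⟨((k + 1 + 1 : ℕ) : ℤ), by
            rw [zpow_natCast]; exact hx'⟩
          have hcol : col (f a) = true := hface _ hsame (R.f_ne₂ a)
          have hj : Relation.EqvGen
              (fun w w' => ∃ b i i', col (f b) = true ∧ X.e i b = w ∧ X.e i' b = w')
              o₂ (X.e j a) :=
            ih2.trans _ _ _ (Relation.EqvGen.rel _ _ ⟨a, _, _, hcol, rfl, rfl⟩)
          have h3 := hstep (f a)
          rw [hx']
          rcases R.cases (ρ (f a)) with h | h | ⟨a', h⟩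
          · rw [h] at hsame'
            exact absurd hsame'.symm hp
          · rw [h] at h3
            have h4 : a = β₂ := R.fi ((Y.e j).injective (h3.symm.trans e₂.symm))
            rw [h4, hx₂] at hj
            exact absurd hj hne
          · refine ⟨a', h, ?_⟩
            rw [h, R.other _ (fne2 j)] at h3
            rw [← R.same' h3.symm]
            exact hj
      have hpos : 0 < orderOf ρ := orderOf_pos ρ
      obtain ⟨k, hk⟩ : ∃ k, orderOf ρ = k + 1 := ⟨orderOf ρ - 1, by omega⟩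
      obtain ⟨a, ha, -⟩ := key k
      rw [← hk, pow_orderOf_eq_one, Equiv.Perm.one_apply] at ha
      exact R.f_ne₂ a ha.symm
    refine R.down_gen hs.t e₁ e₂ ho₁ ho₂ o₂ o₁ ?_ ?_ ?_ ?_
    · exact fun _ => ⟨hconn, Relation.EqvGen.refl _⟩
    · intro h
      rw [h2] at h
      exact absurd h (by decide)
    · exact fun _ => Relation.EqvGen.refl _
    · exact fun _ => Relation.EqvGen.refl _

/-- monochromatic faces stay monochromatic -/
theorem SqRel.mono_down [DecidableEq V] (R : SqRel Y X f g j b₁ b₂) (L : Lab Y V)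
    (L' : Lab X (L.V1 j b₁ b₂))
    (hL' : ∀ k b, ((L'.c k b : L.V1 j b₁ b₂) : V) =
      if L.c k (f b) = L.c (j + 1) b₂ then L.c (j + 1) b₁ else L.c k (f b))
    (h1 : col b₁ = true) (h2 : col b₂ = false) {β₁ β₂ : B'}
    (e₁ : Y.e j (f β₁) = Y.e (j + 2) b₁) (e₂ : Y.e j (f β₂) = Y.e (j + 2) b₂)
    (c₂ : col (f β₂) = true)
    (hcase : col (f β₁) = false ∨ (∀ b, L.c (j + 1) b = L.c (j + 1) b₂ → b ≠ b₂ → col b = true))
    {z : V} (hz : L.Mono col z) (hzs : z ≠ L.c j b₁) :
    ∃ hz' : z ≠ L.c j b₁ ∧ z ≠ L.c (j + 1) b₂, L'.Mono (fun b => col (f b)) ⟨z, hz'⟩ := by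
  have hzp : z ≠ L.c (j + 1) b₂ := by
    intro h
    have h3 := hz (j + 1) b₂ (f β₂) h.symm ((R.c_β₂ L e₂).1.trans h.symm)
    rw [h2, c₂] at h3
    exact absurd h3 (by decide)
  refine ⟨⟨hzs, hzp⟩, ?_⟩
  intro k b b' hb hb'
  have hb := congrArg Subtype.val hb
  have hb' := congrArg Subtype.val hb'
  rw [hL'] at hb hb'
  show col (f b) = col (f b')
  by_cases hpz : L.c (j + 1) b₁ = z
  · -- the face next to the 4-face
    have h3 : col (f β₁) = true :=
      (hz (j + 1) (f β₁) b₁ ((R.c_β₁ L e₁).1.trans hpz) hpz).trans h1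
    have hcase' : ∀ b, L.c (j + 1) b = L.c (j + 1) b₂ → b ≠ b₂ → col b = true := by
      rcases hcase with h | h
      · rw [h3] at h
        exact absurd h (by decide)
      · exact h
    have fin : ∀ a : B', (if L.c k (f a) = L.c (j + 1) b₂ then L.c (j + 1) b₁ else L.c k (f a)) = z →
        col (f a) = true := by
      intro a ha
      by_cases hc : L.c k (f a) = L.c (j + 1) b₂
      · have hk := L.cls _ _ _ _ hc
        subst hk
        exact hcase' _ hc (R.f_ne₂ a)
      · rw [if_neg hc] at ha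
        have hk := L.cls _ _ _ _ (ha.trans hpz.symm)
        subst hk
        exact (hz (j + 1) (f a) b₁ ha hpz).trans h1
    rw [fin b hb, fin b' hb']
  · have fin : ∀ a : B', (if L.c k (f a) = L.c (j + 1) b₂ then L.c (j + 1) b₁ else L.c k (f a)) = z →
        L.c k (f a) = z := by
      intro a ha
      by_cases hc : L.c k (f a) = L.c (j + 1) b₂
      · rw [if_pos hc] at ha
        exact absurd ha hpz
      · rwa [if_neg hc] at ha
    exact hz k (f b) (f b') (fin b hb) (fin b' hb')

end Vale.Agent.P039.Sk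
end

section

/-! Splittings and marks when a digon is removed. -/

namespace Vale.Agent.P039.Sk

variable {B W V B' W' : Type}

variable {Y : Web B W} {X : Web B' W'} {f : B' → B} {g : W' → W} {j : Fin 3} {b : B}
  {col : B → Bool}

/-- a white vertex has a neighbour of each colour -/
theorem Web.WConn.dg_nb {σ : Bool} (h : Y.WConn col σ) {w w' : W} (hw : w' ≠ w) :
    ∃ i b', col b' = σ ∧ Y.e i b' = w := by
  by_contra hno
  have key : ∀ x y, Relation.EqvGen
      (fun w w' => ∃ b i i', col b = σ ∧ Y.e i b = w ∧ Y.e i' b = w') x y →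
      (x = w ↔ y = w) := by
    intro x y hxy
    induction hxy with
    | rel x y h =>
      obtain ⟨b', i, i', h1, h2, h3⟩ := h
      constructor
      · intro hx
        exact absurd ⟨i, b', h1, h2.trans hx⟩ hno
      · intro hy
        exact absurd ⟨i', b', h1, h3.trans hy⟩ hno
    | refl x => exact Iff.rfl
    | symm x y _ ih => exact ih.symm
    | trans x y z _ _ ih1 ih2 => exact ih1.trans ih2
  exact hw ((key _ _ (h w w')).1 rfl)

/-- the third neighbour of the white vertex of a digon has the other colour -/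
theorem DgRel.col_beta (R : DgRel Y X f g j b) (hs : Y.Split col)
    (hN : ∃ w, w ≠ Y.e (j + 2) b) {β : B'} (e : Y.e j (f β) = Y.e (j + 2) b) :
    col (f β) = !(col b) := by
  obtain ⟨w', hw'⟩ := hN
  have hc : Y.WConn col (!(col b)) := by
    cases hb : col b
    · exact hs.t
    · exact hs.f
  obtain ⟨i, b', h1, h2⟩ := hc.dg_nb hw'
  have hne : b' ≠ b := by
    rintro rfl
    cases hb : col b' <;> simp [hb] at h1
  rcases fcase i j with hi | hi | hi
  · rw [hi, ← e] at h2
    rw [← (Y.e j).injective h2]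
    exact h1
  · rw [hi, ← R.face] at h2
    exact absurd ((Y.e (j + 1)).injective h2) hne
  · rw [hi] at h2
    exact absurd ((Y.e (j + 2)).injective h2) hne

theorem DgRel.wconn (R : DgRel Y X f g j b) {σ : Bool} (hs : Y.WConn col σ) :
    X.WConn (fun a => col (f a)) σ := by
  obtain ⟨ω, hω⟩ := R.out
  have hgw : ∀ z, g z ≠ Y.e (j + 2) b := fun z => (R.gr _).1 ⟨z, rfl⟩
  -- the collapse map
  have hφ : ∃ φ : W → W', (∀ z, φ (g z) = z) ∧ φ (Y.e (j + 2) b) = ω := by
    have h0 : ∀ w : W, ∃ x : W', (∀ z, w = g z → x = z) ∧ (w = Y.e (j + 2) b → x = ω) := by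
      intro w
      by_cases hw : w = Y.e (j + 2) b
      · exact ⟨ω, fun z h => absurd (h.symm.trans hw) (hgw z), fun _ => rfl⟩
      · obtain ⟨z, hz⟩ := (R.gr _).2 hw
        exact ⟨z, fun z' h => R.gi (hz.trans h), fun h => absurd h hw⟩
    choose φ h1 h2 using h0
    exact ⟨φ, fun z => h1 _ _ rfl, h2 _ rfl⟩
  obtain ⟨φ, hφg, hφw⟩ := hφ
  have hφb : ∀ i, φ (Y.e i b) = ω := by
    intro i
    rcases fcase i j with hi | hi | hi
    · rw [hi, ← hω, hφg]
    · rw [hi, R.face, hφw]
    · rw [hi, hφw]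
  have hφf : ∀ i a, φ (Y.e i (f a)) = X.e i a := by
    intro i a
    by_cases hi : i = j
    · rw [hi]
      by_cases hw : Y.e j (f a) = Y.e (j + 2) b
      · rw [hw, hφw]
        exact R.gi (hω.trans (R.out1 a hw).symm)
      · rw [R.same a hw, hφg]
    · rw [R.other i hi, hφg]
  have key : ∀ x y, Relation.EqvGen
      (fun w w' => ∃ b i i', col b = σ ∧ Y.e i b = w ∧ Y.e i' b = w') x y →
      Relation.EqvGen
      (fun w w' => ∃ a i i', col (f a) = σ ∧ X.e i a = w ∧ X.e i' a = w') (φ x) (φ y) := by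
    intro x y hxy
    induction hxy with
    | rel x y h =>
      obtain ⟨b', i, i', h1, rfl, rfl⟩ := h
      by_cases hb : b' = b
      · rw [hb, hφb, hφb]
        exact Relation.EqvGen.refl _
      · obtain ⟨a, rfl⟩ := (R.fr _).2 hb
        exact Relation.EqvGen.rel _ _ ⟨a, i, i', h1, (hφf i a).symm, (hφf i' a).symm⟩
    | refl x => exact Relation.EqvGen.refl _
    | symm x y _ ih => exact Relation.EqvGen.symm _ _ ih
    | trans x y z _ _ ih1 ih2 => exact Relation.EqvGen.trans _ _ _ ih1 ih2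
  intro w w'
  have := key _ _ (hs (g w) (g w'))
  rwa [hφg, hφg] at this

theorem DgRel.split (R : DgRel Y X f g j b) (hs : Y.Split col) (hN : ∃ w, w ≠ Y.e (j + 2) b) :
    X.Split (fun a => col (f a)) := ⟨R.wconn hs.t, R.wconn hs.f⟩

/-- the two faces next to a digon are not monochromatic -/
theorem DgRel.not_mono (R : DgRel Y X f g j b) (L : Lab Y V) (hs : Y.Split col)
    (hN : ∃ w, w ≠ Y.e (j + 2) b) :
    ¬ L.Mono col (L.c (j + 1) b) ∧ ¬ L.Mono col (L.c (j + 2) b) := by
  obtain ⟨β, hβ⟩ := R.exists_beta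
  have hcol := R.col_beta hs hN hβ
  have hne : col (f β) ≠ col b := by
    rw [hcol]
    cases col b <;> simp
  exact ⟨fun h => hne (h (j + 1) (f β) b (R.c1 L hβ) rfl),
    fun h => hne (h (j + 2) (f β) b (R.c2 L hβ) rfl)⟩

/-- other faces: no change -/
theorem DgRel.mono_iff (R : DgRel Y X f g j b) (L : Lab Y V)
    (L' : Lab X {v : V // v ≠ L.c j b})
    (hL' : ∀ k a, ((L'.c k a : {v : V // v ≠ L.c j b}) : V) = L.c k (f a))
    (z : {v : V // v ≠ L.c j b}) (h1 : z.1 ≠ L.c (j + 1) b) (h2 : z.1 ≠ L.c (j + 2) b) :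
    L'.Mono (fun a => col (f a)) z ↔ L.Mono col z.1 := by
  have hb : ∀ k b', L.c k b' = z.1 → ∃ a, f a = b' := by
    intro k b' h
    rw [R.fr]
    rintro rfl
    rcases fcase k j with hk | hk | hk
    · rw [hk] at h
      exact z.2 h.symm
    · rw [hk] at h
      exact h1 h.symm
    · rw [hk] at h
      exact h2 h.symm
  constructor
  · intro hm k b1 b2 e1 e2
    obtain ⟨a1, rfl⟩ := hb k b1 e1
    obtain ⟨a2, rfl⟩ := hb k b2 e2
    exact hm k a1 a2 (Subtype.ext (by rw [hL', e1])) (Subtype.ext (by rw [hL', e2]))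
  · intro hm k a1 a2 e1 e2
    refine hm k (f a1) (f a2) ?_ ?_
    · rw [← hL', e1]
    · rw [← hL', e2]

end Vale.Agent.P039.Sk
end

section

/-! Splittings give a positive sum. -/

namespace Vale.Agent.P039.Sk

variable {B W V : Type}

open PosAux

/-- what is proved by induction -/
def SPosBelow (n : ℕ) : Prop :=
  ∀ {B W V : Type} {X : Web B W} [Fintype B] [Fintype W] [Fintype V]
    [DecidableEq V] (L : Lab X V), Fintype.card B < n → Fintype.card V = Fintype.card B + 2 →
    2 ≤ Fintype.card B → ∀ {col : B → Bool}, X.Split col → ∀ {x y : V}, x ≠ y →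
    L.Mono col x → L.Mono col y →
    0 < L.S (fun v => (if v = x then 1 else 0) + if v = y then 1 else 0)

theorem Sq4.symm {X : Web B W} {j : Fin 3} {b₁ b₂ : B} (Q : Sq4 X j b₁ b₂) : Sq4 X j b₂ b₁ where
  ne := Q.ne.symm
  face := Q.face'
  face' := Q.face
  n11 := Q.n22
  n12 := Q.n21
  n21 := Q.n12
  n22 := Q.n11

section

variable {X : Web B W} [Fintype B] [Fintype W] [Fintype V] [DecidableEq V]

/-- marks at two faces -/
theorem nonneg_marks (L : Lab X V) (hc : Fintype.card V = Fintype.card B + 2)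
    (hN : 2 ≤ Fintype.card B) (x y : V) :
    0 ≤ L.S (fun v => (if v = x then 1 else 0) + if v = y then 1 else 0) := by
  by_cases h : x = y
  · subst h
    have h3 : (fun v : V => ((if v = x then (1 : ZMod 4) else 0) +
        if v = x then (1 : ZMod 4) else 0)) = fun v => if v = x then 2 else 0 := by
      ext v
      split_ifs
      · decide
      · simp
    rw [h3, S_double L hc hN x]
  · exact S_nonneg L hc x y h

theorem core {n : ℕ} (IH : SPosBelow n) (L : Lab X V) (hn : Fintype.card B ≤ n)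
    (hc : Fintype.card V = Fintype.card B + 2)
    (hN : 2 ≤ Fintype.card B) {col : B → Bool} (hs : X.Split col) {x y : V} (hxy : x ≠ y)
    (hx : L.Mono col x) (hy : L.Mono col y) {j : Fin 3} {b₁ b₂ : B} (Q : Sq4 X j b₁ b₂)
    (hsx : x ≠ L.c j b₁) (hsy : y ≠ L.c j b₁) (h1 : col b₁ = true) (h2 : col b₂ = false)
    {β₁ β₂ n' : B} (e₁ : X.e j β₁ = X.e (j + 2) b₁) (e₂ : X.e j β₂ = X.e (j + 2) b₂)
    (en : X.e (j + 2) n' = X.e j b₂) (c₂ : col β₂ = true)
    (hcase : col β₁ = false ∨ col n' = true) :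
    0 < L.S (fun v => (if v = x then 1 else 0) + if v = y then 1 else 0) := by
  classical
  obtain ⟨X', R⟩ := Q.exists_rel
  -- the outer neighbours
  have hβ₁ : β₁ ≠ b₁ ∧ β₁ ≠ b₂ := by
    constructor
    · rintro rfl; exact Q.n11 e₁
    · rintro rfl; exact Q.n21 e₁
  have hβ₂ : β₂ ≠ b₁ ∧ β₂ ≠ b₂ := by
    constructor
    · rintro rfl; exact Q.n12 e₂
    · rintro rfl; exact Q.n22 e₂
  obtain ⟨γ₁, g₁⟩ := R.ex_f hβ₁.1 hβ₁.2
  obtain ⟨γ₂, g₂⟩ := R.ex_f hβ₂.1 hβ₂.2
  rw [← g₁] at e₁ hcase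
  rw [← g₂] at e₂ c₂
  have hfalse := R.down_false hs h1 h2 e₂ c₂
  have hp := R.ne_of_wconn L hc hfalse
  have harc : col (γ₁ : B) = false ∨
      (∀ b, L.c (j + 1) b = L.c (j + 1) b₂ → b ≠ b₂ → col b = true) := by
    rcases hcase with h | h
    · exact Or.inl h
    · right
      refine arc L hc hN hs (k := j + 1) (p := γ₂) (n := n') ?_ ?_ h2 c₂ h
      · rw [f11, f12]; exact e₂.symm
      · rw [f11, f12]; exact en
  have htrue := R.down_true hs h1 h2 e₁ e₂ c₂ (by
    rcases harc with h | h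
    · exact Or.inl h
    · right
      refine ⟨fun hsf => hp ((L.sameFace _ _ _).1 hsf), fun b hb hne => h b ?_ hne⟩
      exact ((L.sameFace _ _ _).1 hb).symm)
  have hsplit : X'.Split (fun b => col (b : B)) := ⟨htrue, hfalse⟩
  obtain ⟨L', hL'⟩ := R.exists_lab L hp
  obtain ⟨hx', hmx⟩ := R.mono_down L L' hL' h1 h2 e₁ e₂ c₂ harc hx hsx
  obtain ⟨hy', hmy⟩ := R.mono_down L L' hL' h1 h2 e₁ e₂ c₂ harc hy hsy
  have hcB := R.card_B
  have hcV := R.card_V L hp
  obtain ⟨δ₁, δ₂, hδ, -, -⟩ := R.betas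
  have hN' : 2 ≤ Fintype.card {b : B // b ≠ b₁ ∧ b ≠ b₂} :=
    Fintype.one_lt_card_iff.2 ⟨δ₁, δ₂, hδ⟩
  have hpos := IH L' (by omega) (by omega) hN' hsplit
    (x := ⟨x, hx'⟩) (y := ⟨y, hy'⟩) (fun h => hxy (congrArg Subtype.val h)) hmx hmy
  set m : V → ZMod 4 := fun v => (if v = x then 1 else 0) + if v = y then 1 else 0 with hm
  have hms : m (L.c j b₁) = 0 := by
    simp only [hm]
    rw [if_neg (Ne.symm hsx), if_neg (Ne.symm hsy), add_zero]
  have hmarks : L.m1 j b₁ b₂ m = fun v => (if v = ⟨x, hx'⟩ then 1 else 0) +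
      if v = ⟨y, hy'⟩ then 1 else 0 := by
    funext v
    have hmp : m (L.c (j + 1) b₂) = 0 := by
      simp only [hm]
      rw [if_neg (Ne.symm hx'.2), if_neg (Ne.symm hy'.2), add_zero]
    have h6 : L.m1 j b₁ b₂ m v = m v.1 := by
      unfold Lab.m1
      by_cases h : v.1 = L.c (j + 1) b₁
      · rw [if_pos h, hmp, add_zero, h]
      · rw [if_neg h]
    rw [h6]
    simp only [hm, Subtype.ext_iff]
  have hT := T1_add_M1 R L hp L' hL' m hms
  rw [hmarks] at hT
  have hS := S_eq_T1_add_T2 Q L m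
  have hcW : Fintype.card W = Fintype.card B := (Fintype.card_congr (X.e 0)).symm
  have hcd : Fintype.card V = Fintype.card W + 2 := by omega
  by_cases hq : L.c (j + 2) b₁ = L.c (j + 2) b₂
  · rw [M1_zero Q L hc hp hq m hms, add_zero] at hT
    rw [hS, T2_zero Q L hc hq m, add_zero, hT]
    exact hpos
  · obtain ⟨d0, d1, d2, d3, d4⟩ := Q.dual_c L
    have hmd : m (L.dual.c (-j) (X.e (j + 2) b₁)) = 0 := by rw [d0]; exact hms
    have hpd : L.dual.c (-j + 1) (X.e (j + 2) b₁) ≠ L.dual.c (-j + 1) (X.e (j + 2) b₂) := by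
      rw [d1, d2]
      exact fun h => hq h.symm
    obtain ⟨B'', W'', V'', i1', i2', i3', i4', X'', L'', π', h1', h2', h3', h4'⟩ :=
      term_step Q.dual L.dual hcd m hmd hpd
    rw [dual_T1 Q L m, dual_M1 Q L m hms, hm, push_add, push_single, push_single, ← hm] at h4'
    have hnn := nonneg_marks L'' h2' h3' (π' x) (π' y)
    rw [← h4'] at hnn
    rw [hS]
    have h5 : 0 < L.T1 j b₁ b₂ m + L.M1 j b₁ b₂ m := by rw [hT]; exact hpos
    linarith

/-- the step at a 4-face, when `b₁` and one more neighbour have colour `true` -/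
theorem core2 {n : ℕ} (IH : SPosBelow n) (L : Lab X V) (hn : Fintype.card B ≤ n)
    (hc : Fintype.card V = Fintype.card B + 2)
    (hN : 2 ≤ Fintype.card B) {col : B → Bool} (hs : X.Split col) {x y : V} (hxy : x ≠ y)
    (hx : L.Mono col x) (hy : L.Mono col y) {j : Fin 3} {b₁ b₂ : B} (Q : Sq4 X j b₁ b₂)
    (hsx : x ≠ L.c j b₁) (hsy : y ≠ L.c j b₁) (h1 : col b₁ = true) (h2 : col b₂ = false)
    {β₁ β₂ : B} (e₁ : X.e j β₁ = X.e (j + 2) b₁) (e₂ : X.e j β₂ = X.e (j + 2) b₂)
    (hcase : col β₁ = true ∨ col β₂ = true) :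
    0 < L.S (fun v => (if v = x then 1 else 0) + if v = y then 1 else 0) := by
  classical
  -- the two other neighbours of `ω₂`
  obtain ⟨n', en'⟩ := (X.e (j + 2)).surjective (X.e j b₂)
  obtain ⟨n₂, en₂⟩ := (X.e (j + 1)).surjective (X.e j b₂)
  obtain ⟨r0, r1, r2⟩ := L.rev_c j b₁
  have hsx' : x ≠ L.rev.c (-j) b₁ := by rw [r0]; exact hsx
  have hsy' : y ≠ L.rev.c (-j) b₁ := by rw [r0]; exact hsy
  have e₁' : X.rev.e (-j) β₂ = X.rev.e (-j + 2) b₁ := by
    rw [(X.rev_e j β₂).1, (X.rev_e j b₁).2.2, Q.face', e₂]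
  have e₂' : X.rev.e (-j) β₁ = X.rev.e (-j + 2) b₂ := by
    rw [(X.rev_e j β₁).1, (X.rev_e j b₂).2.2, Q.face, e₁]
  have en₂' : X.rev.e (-j + 2) n₂ = X.rev.e (-j) b₂ := by
    rw [(X.rev_e j n₂).2.2, (X.rev_e j b₂).1, en₂]
  by_cases c₂ : col β₂ = true
  · by_cases c₁ : col β₁ = true
    · by_cases cn : col n' = true
      · exact core IH L hn hc hN hs hxy hx hy Q hsx hsy h1 h2 e₁ e₂ en' c₂ (Or.inr cn)
      · have cn₂ : col n₂ = true := by
          obtain ⟨i, b, hb, hcb⟩ := exists_nb hN hs (X.e j b₂) true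
          rcases fcase i j with rfl | rfl | rfl
          · have : b = b₂ := (X.e _).injective hb
            rw [this, h2] at hcb
            exact absurd hcb (by simp)
          · have : b = n₂ := (X.e _).injective (hb.trans en₂.symm)
            rw [← this]
            exact hcb
          · have : b = n' := (X.e _).injective (hb.trans en'.symm)
            rw [this] at hcb
            exact absurd hcb cn
        rw [← rev_S L]
        exact core IH L.rev hn hc hN (rev_split hs) hxy (rev_mono L hx) (rev_mono L hy) Q.rev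
          hsx' hsy' h1 h2 e₁' e₂' en₂' c₁ (Or.inr cn₂)
    · exact core IH L hn hc hN hs hxy hx hy Q hsx hsy h1 h2 e₁ e₂ en' c₂
        (Or.inl (by simpa using c₁))
  · have c₁ : col β₁ = true := hcase.resolve_right c₂
    rw [← rev_S L]
    exact core IH L.rev hn hc hN (rev_split hs) hxy (rev_mono L hx) (rev_mono L hy) Q.rev
      hsx' hsy' h1 h2 e₁' e₂' en₂' c₁ (Or.inl (by simpa using c₂))

/-- the step at a 4-face whose black vertices have different colours -/
theorem core3 {n : ℕ} (IH : SPosBelow n) (L : Lab X V) (hn : Fintype.card B ≤ n)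
    (hc : Fintype.card V = Fintype.card B + 2)
    (hN : 2 ≤ Fintype.card B) {col : B → Bool} (hs : X.Split col) {x y : V} (hxy : x ≠ y)
    (hx : L.Mono col x) (hy : L.Mono col y) {j : Fin 3} {b₁ b₂ : B} (Q : Sq4 X j b₁ b₂)
    (hsx : x ≠ L.c j b₁) (hsy : y ≠ L.c j b₁) (h1 : col b₁ = true) (h2 : col b₂ = false) :
    0 < L.S (fun v => (if v = x then 1 else 0) + if v = y then 1 else 0) := by
  obtain ⟨β₁, e₁⟩ := (X.e j).surjective (X.e (j + 2) b₁)
  obtain ⟨β₂, e₂⟩ := (X.e j).surjective (X.e (j + 2) b₂)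
  by_cases hcase : col β₁ = true ∨ col β₂ = true
  · exact core2 IH L hn hc hN hs hxy hx hy Q hsx hsy h1 h2 e₁ e₂ hcase
  · push Not at hcase
    have hsq : L.c j b₂ = L.c j b₁ := L.step j b₁ b₂ Q.face
    refine core2 IH L hn hc hN hs.flip hxy hx.flip hy.flip Q.symm (by rw [hsq]; exact hsx)
      (by rw [hsq]; exact hsy) (by simp [h2]) (by simp [h1]) e₂ e₁ ?_
    left
    simpa using hcase.2

/-- a marked digon -/
theorem digon_step {n : ℕ} (IH : SPosBelow n) (L : Lab X V) (hn : Fintype.card B ≤ n)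
    (hc : Fintype.card V = Fintype.card B + 2)
    (hN : 2 ≤ Fintype.card B) {col : B → Bool} (hs : X.Split col) {x y : V} (hxy : x ≠ y)
    (hx : L.Mono col x) (hy : L.Mono col y) (hd : deg L x = 1) :
    0 < L.S (fun v => (if v = x then 1 else 0) + if v = y then 1 else 0) := by
  classical
  obtain ⟨k, b, hb, hd⟩ := deg_one L hd
  have hcW : Fintype.card W = Fintype.card B := (Fintype.card_congr (X.e 0)).symm
  have hiso : X.e k b ≠ X.e (k + 2) b := by
    intro h
    obtain ⟨i, a, ha, hca⟩ := exists_nb hN hs (X.e (k + 2) b) (!(col b))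
    have hall : X.e i b = X.e (k + 2) b := by
      rcases fcase i k with rfl | rfl | rfl
      · exact h
      · exact hd
      · rfl
    have : a = b := (X.e i).injective (ha.trans hall.symm)
    rw [this] at hca
    simp at hca
  have hW : ∃ w, w ≠ X.e (k + 2) b :=
    Fintype.exists_ne_of_one_lt_card (by omega) _
  obtain ⟨X', R⟩ := exists_dg hd hiso
  obtain ⟨L', hL'⟩ := R.exists_lab L
  have hcB := R.card_B
  have hcV := DgRel.card_V (j := k) (b := b) L
  obtain ⟨nm1, nm2⟩ := R.not_mono L hs hW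
  have hyx : y ≠ L.c k b := by rw [hb]; exact hxy.symm
  have hy1 : y ≠ L.c (k + 1) b := fun h => nm1 (h ▸ hy)
  have hy2 : y ≠ L.c (k + 2) b := fun h => nm2 (h ▸ hy)
  have hu1 : L.c (k + 1) b ≠ L.c k b := fun h => fne1 k (L.cls _ _ _ _ h)
  have hu2 : L.c (k + 2) b ≠ L.c k b := fun h => fne2 k (L.cls _ _ _ _ h)
  rw [S_digon_marked R L L' hL' _ (by simp [hb, hxy])]
  have hmarks : ∀ u (hu : u ≠ L.c k b), (fun v : {v : V // v ≠ L.c k b} =>
      (((if v.1 = x then (1 : ZMod 4) else 0) +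
      if v.1 = y then (1 : ZMod 4) else 0) + if v.1 = u then (1 : ZMod 4) else 0)) =
      fun v => (if v = ⟨y, hyx⟩ then (1 : ZMod 4) else 0) +
        if v = ⟨u, hu⟩ then (1 : ZMod 4) else 0 := by
    intro u hu
    ext v
    have h4 : v.1 ≠ x := by
      rw [← hb]
      exact v.2
    rw [if_neg h4, zero_add]
    simp only [Subtype.ext_iff]
  rw [hmarks _ hu1, hmarks _ hu2]
  have hne1 : (⟨y, hyx⟩ : {v : V // v ≠ L.c k b}) ≠ ⟨L.c (k + 1) b, hu1⟩ :=
    fun h => hy1 (congrArg Subtype.val h)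
  have hne2 : (⟨y, hyx⟩ : {v : V // v ≠ L.c k b}) ≠ ⟨L.c (k + 2) b, hu2⟩ :=
    fun h => hy2 (congrArg Subtype.val h)
  have n1 := S_nonneg L' (by omega) _ _ hne1
  have n2 := S_nonneg L' (by omega) _ _ hne2
  rcases Nat.lt_or_ge (Fintype.card {a : B // a ≠ b}) 2 with h1 | hN'
  · -- one black vertex is left
    have h1' : Fintype.card {a : B // a ≠ b} = 1 := by omega
    rw [S_theta L' h1' hne1, S_theta L' h1' hne2]
    norm_num
  · have hs' := R.split hs hW
    obtain ⟨z₁, z₂, hz, m1, m2⟩ := exists_mono L' (by omega) hN' hs'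
    have hmy : L'.Mono (fun a => col (a : B)) ⟨y, hyx⟩ :=
      (R.mono_iff L L' hL' ⟨y, hyx⟩ hy1 hy2).2 hy
    have key : ∀ z : {v : V // v ≠ L.c k b}, L'.Mono (fun a => col (a : B)) z →
        z = ⟨y, hyx⟩ ∨ z = ⟨L.c (k + 1) b, hu1⟩ ∨ z = ⟨L.c (k + 2) b, hu2⟩ := by
      intro z hmz
      by_cases e1 : z.1 = L.c (k + 1) b
      · exact Or.inr (Or.inl (Subtype.ext e1))
      · by_cases e2 : z.1 = L.c (k + 2) b
        · exact Or.inr (Or.inr (Subtype.ext e2))
        · left
          by_contra hzy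
          have hz' := (R.mono_iff L L' hL' z e1 e2).1 hmz
          have hzx : x ≠ z.1 := by
            rw [← hb]
            exact z.2.symm
          exact mono_le L hN hs hx hy hz' hxy hzx (fun h => hzy (Subtype.ext h.symm))
    have main : ∀ u (hu : u ≠ L.c k b), (⟨y, hyx⟩ : {v : V // v ≠ L.c k b}) ≠ ⟨u, hu⟩ →
        L'.Mono (fun a => col (a : B)) ⟨u, hu⟩ →
        0 < L'.S (fun v => (if v = ⟨y, hyx⟩ then (1 : ZMod 4) else 0) +
        if v = ⟨u, hu⟩ then (1 : ZMod 4) else 0) := by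
      intro u hu hne hmu
      exact IH L' (by omega) (by omega) hN' hs' hne hmy hmu
    have : L'.Mono (fun a => col (a : B)) ⟨L.c (k + 1) b, hu1⟩ ∨
        L'.Mono (fun a => col (a : B)) ⟨L.c (k + 2) b, hu2⟩ := by
      rcases key z₁ m1 with h | h | h
      · rcases key z₂ m2 with h' | h' | h'
        · exact absurd (h.trans h'.symm) hz
        · exact Or.inl (h' ▸ m2)
        · exact Or.inr (h' ▸ m2)
      · exact Or.inl (h ▸ m1)
      · exact Or.inr (h ▸ m1)
    rcases this with h | h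
    · have := main _ hu1 hne1 h
      linarith
    · have := main _ hu2 hne2 h
      linarith

end

theorem split_aux (n : ℕ) : SPosBelow n := by
  induction n with
  | zero =>
    intro B W V X _ _ _ _ L hn
    exact absurd hn (Nat.not_lt_zero _)
  | succ n IH =>
    intro B W V X _ _ _ _ L hn hc hN col hs x y hxy hx hy
    classical
    have hn' : Fintype.card B ≤ n := by omega
    by_cases hdx : deg L x = 1
    · exact digon_step IH L hn' hc hN hs hxy hx hy hdx
    by_cases hdy : deg L y = 1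
    · have h3 := digon_step IH L hn' hc hN hs hxy.symm hy hx hdy
      have h4 : (fun v : V => (if v = y then (1 : ZMod 4) else 0) +
          if v = x then (1 : ZMod 4) else 0) = fun v => (if v = x then 1 else 0) +
          if v = y then 1 else 0 := by
        ext v
        rw [add_comm]
      rw [h4] at h3
      exact h3
    -- no digons
    have h2' : ∀ v, 2 ≤ deg L v := by
      intro v
      have h4 := deg_pos L v
      by_contra h5
      have h6 : deg L v = 1 := by omega
      obtain ⟨k, b, hb, hd⟩ := deg_one L h6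
      have hm : L.Mono col v := by
        intro k' a a' ha ha'
        have hk : k' = k := L.cls _ _ _ _ (ha.trans hb.symm)
        subst hk
        rw [digon_unique L hd (ha.trans hb.symm), digon_unique L hd (ha'.trans hb.symm)]
      have hvx : x ≠ v := fun h => hdx (h ▸ h6)
      have hvy : y ≠ v := fun h => hdy (h ▸ h6)
      exact mono_le L hN hs hx hy hm hxy hvx hvy
    obtain ⟨k, b₁, b₂, hF, Q⟩ := exists_sq4 L (x := x) _ (card_F2 L hc x y h2')
      (fun v hv => (Finset.mem_filter.1 hv).2.2) (by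
        intro k b hd
        have h3 := deg_of_digon L hd
        have h4 := h2' (L.c k b)
        omega)
    obtain ⟨⟨hsx, hsy⟩, -⟩ := (Finset.mem_filter.1 hF).2
    have hnm : ¬ L.Mono col (L.c k b₁) := fun h =>
      mono_le L hN hs hx hy h hxy hsx.symm hsy.symm
    have hne : col b₁ ≠ col b₂ := by
      intro h
      apply hnm
      obtain ⟨X', R⟩ := Q.exists_rel
      have key : ∀ k' a, L.c k' a = L.c k b₁ → col a = col b₁ := by
        intro k' a ha
        rcases (R.c_only L ha).2 with h' | h'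
        · rw [h']
        · rw [h', h]
      intro k' a a' ha ha'
      rw [key k' a ha, key k' a' ha']
    rcases Bool.eq_false_or_eq_true (col b₁) with h1 | h1
    · have h2 : col b₂ = false := by
        rcases Bool.eq_false_or_eq_true (col b₂) with h | h
        · exact absurd (h1.trans h.symm) hne
        · exact h
      exact core3 IH L hn' hc hN hs hxy hx hy Q hsx.symm hsy.symm h1 h2
    · have h2 : col b₂ = true := by
        rcases Bool.eq_false_or_eq_true (col b₂) with h | h
        · exact h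
        · exact absurd (h1.trans h.symm) hne
      exact core3 IH L hn' hc hN hs.flip hxy hx.flip hy.flip Q hsx.symm hsy.symm (by simp [h1])
        (by simp [h2])

theorem S_pos_of_split {X : Web B W} [Fintype B] [Fintype W] [Fintype V] [DecidableEq V]
    (L : Lab X V) (hc : Fintype.card V = Fintype.card B + 2) (hN : 2 ≤ Fintype.card B)
    {col : B → Bool} (hs : X.Split col) {x y : V} (hxy : x ≠ y) (hx : L.Mono col x)
    (hy : L.Mono col y) :
    0 < L.S (fun v => (if v = x then 1 else 0) + if v = y then 1 else 0) :=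
  split_aux (Fintype.card B + 1) L (Nat.lt_succ_self _) hc hN hs hxy hx hy

theorem ham_of_split {X : Web B W} [Fintype B] [Fintype W] [Fintype V]
    [DecidableEq B] [DecidableEq W]
    (L : Lab X V) (hc : Fintype.card V = Fintype.card B + 2) (hN : 2 ≤ Fintype.card B)
    {col : B → Bool} (hs : X.Split col) : X.graph.IsHamiltonian := by
  classical
  obtain ⟨x, y, hxy, hx, hy⟩ := exists_mono L hc hN hs
  have h := S_pos_of_split L hc hN hs hxy hx hy
  by_cases hex : ∃ h : V → ZMod 12, L.Sol h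
  · obtain ⟨h, hh⟩ := hex
    exact ham_of_sol L hN hh
  · exfalso
    push Not at hex
    unfold Lab.S at h
    rw [Finset.sum_eq_zero] at h
    · exact lt_irrefl _ h
    · intro h' _
      rw [if_neg (hex h')]

end Vale.Agent.P039.Sk
end

section

/-! Solutions through and avoiding an edge. -/

namespace Vale.Agent.P039.Sk

variable {B W V : Type} {X : Web B W} [Fintype B] [Fintype W] [Fintype V] [DecidableEq V]

theorem E_move (L : Lab X V) (x x' y : V) (h : V → ZMod 12) :
    L.E (fun v => (if v = x' then 1 else 0) + if v = y then 1 else 0) h =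
      L.E (fun v => (if v = x then 1 else 0) + if v = y then 1 else 0) h +
        (kap (h x') - kap (h x)) := by
  have key : ∀ z : V, ∑ v, (3 + ((if v = z then (1 : ZMod 4) else 0) +
      if v = y then 1 else 0)) * kap (h v) =
      ∑ v, (3 + if v = y then (1 : ZMod 4) else 0) * kap (h v) + kap (h z) := by
    intro z
    have e2 : kap (h z) = ∑ v, if v = z then kap (h v) else 0 := by
      rw [Finset.sum_ite_eq' Finset.univ z, if_pos (Finset.mem_univ _)]
    rw [e2, ← Finset.sum_add_distrib]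
    refine Finset.sum_congr rfl fun v _ => ?_
    by_cases hz : v = z
    · rw [if_pos hz, if_pos hz]
      ring
    · rw [if_neg hz, if_neg hz]
      ring
  unfold Lab.E
  rw [key x, key x']
  ring

theorem eps_one (a : ZMod 4) : eps (a + 1) = - epsi a := by revert a; decide
theorem epsi_one (a : ZMod 4) : epsi (a + 1) = eps a := by revert a; decide

/-- if the sum is positive for marks at `y` and at one of the two faces next to the edge of colour
`i` at `b`, some solution does not use this edge -/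
theorem exists_avoid (L : Lab X V) (hc : Fintype.card V = Fintype.card B + 2)
    (hN : 2 ≤ Fintype.card B) (i : Fin 3) (b : B) (x y : V)
    (hx : x = L.c (i + 1) b ∨ x = L.c (i + 2) b)
    (hpos : 0 < L.S (fun v => (if v = x then 1 else 0) + if v = y then 1 else 0)) :
    ∃ h, L.Sol h ∧ h (L.c (i + 2) b) = h (L.c (i + 1) b) - 2 := by
  classical
  by_contra hno
  push Not at hno
  have hall : ∀ h, L.Sol h → h (L.c (i + 2) b) = h (L.c (i + 1) b) + 1 := by
    intro h hs
    rcases hs.1 i b with h1 | h1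
    · exact h1
    · exact absurd h1 (hno h hs)
  set u := L.c (i + 1) b with hu
  set v := L.c (i + 2) b with hv
  have hE : ∀ h, L.Sol h → L.E (fun z => (if z = v then 1 else 0) + if z = y then 1 else 0) h =
      L.E (fun z => (if z = u then 1 else 0) + if z = y then 1 else 0) h + 1 := by
    intro h hs
    rw [E_move L u v y h, hall h hs, map_add, map_one]
    ring
  have hSv : L.S (fun z => (if z = v then 1 else 0) + if z = y then 1 else 0) =
      - L.Si (fun z => (if z = u then 1 else 0) + if z = y then 1 else 0) := by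
    unfold Lab.S Lab.Si
    rw [← Finset.sum_neg_distrib]
    refine Finset.sum_congr rfl fun h _ => ?_
    by_cases hs : L.Sol h
    · rw [if_pos hs, if_pos hs, hE h hs, eps_one]
    · rw [if_neg hs, if_neg hs, neg_zero]
  have hSu : L.Si (fun z => (if z = v then 1 else 0) + if z = y then 1 else 0) =
      L.S (fun z => (if z = u then 1 else 0) + if z = y then 1 else 0) := by
    unfold Lab.S Lab.Si
    refine Finset.sum_congr rfl fun h _ => ?_
    by_cases hs : L.Sol h
    · rw [if_pos hs, if_pos hs, hE h hs, epsi_one]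
    · rw [if_neg hs, if_neg hs]
  rw [Si_zero L hc hN, neg_zero] at hSv
  rw [Si_zero L hc hN] at hSu
  rcases hx with rfl | rfl
  · rw [← hSu] at hpos
    exact lt_irrefl _ hpos
  · rw [hSv] at hpos
    exact lt_irrefl _ hpos

/-- the other monochromatic face -/
theorem exists_other_mono (L : Lab X V) (hc : Fintype.card V = Fintype.card B + 2)
    (hN : 2 ≤ Fintype.card B) {col : B → Bool} (hs : X.Split col) {x : V} (_hx : L.Mono col x) :
    ∃ y, y ≠ x ∧ L.Mono col y := by
  obtain ⟨y, z, hyz, hy, hz⟩ := exists_mono L hc hN hs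
  by_cases h : y = x
  · exact ⟨z, fun h' => hyz (h.trans h'.symm), hz⟩
  · exact ⟨y, h, hy⟩

/-- every edge of a monochromatic face is avoided by some solution -/
theorem exists_avoid_of_mono (L : Lab X V) (hc : Fintype.card V = Fintype.card B + 2)
    (hN : 2 ≤ Fintype.card B) {col : B → Bool} (hs : X.Split col) {x : V} (hx : L.Mono col x)
    (i : Fin 3) (b : B) (hxi : x = L.c (i + 1) b ∨ x = L.c (i + 2) b) :
    ∃ h, L.Sol h ∧ h (L.c (i + 2) b) = h (L.c (i + 1) b) - 2 := by
  obtain ⟨y, hy, hmy⟩ := exists_other_mono L hc hN hs hx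
  exact exists_avoid L hc hN i b x y hxi (S_pos_of_split L hc hN hs hy.symm hx hmy)

end Vale.Agent.P039.Sk
end

section

/-! The Hamiltonian cycle of a solution avoids the edges outside the 2-factor. -/

namespace Vale.Agent.P039.Sk

variable {B W V : Type} {X : Web B W} [Fintype B] [Fintype W]

omit [Fintype B] [Fintype W] in
theorem avs_not_adj (L : Lab X V) {h : V → ZMod 12} {i : Fin 3} {b : B}
    (hi : h (L.c (i + 2) b) = h (L.c (i + 1) b) - 2)
    (hne : ∀ k, k ≠ i → X.e k b ≠ X.e i b) :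
    ¬ (HG L h).Adj (Sum.inl b) (Sum.inr (X.e i b)) := by
  rw [hg_adj_black]
  rintro ⟨k, hk, he⟩
  have hki : k = i := by
    by_contra hc
    exact hne k hc (Sum.inr_injective he).symm
  subst hki
  rw [HI, hi] at hk
  have : ∀ x : ZMod 12, x - 2 ≠ x + 1 := by decide
  exact this _ hk

omit [Fintype B] [Fintype W] in
theorem avs_le (L : Lab X V) {h : V → ZMod 12} {i : Fin 3} {b : B}
    (hi : h (L.c (i + 2) b) = h (L.c (i + 1) b) - 2)
    (hne : ∀ k, k ≠ i → X.e k b ≠ X.e i b) :
    HG L h ≤ X.graph.deleteEdges {s(Sum.inl b, Sum.inr (X.e i b))} := by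
  intro x y hxy
  rw [SimpleGraph.deleteEdges_adj, Set.mem_singleton_iff]
  refine ⟨hg_le hxy, fun hc => ?_⟩
  rw [Sym2.eq_iff] at hc
  rcases hc with ⟨rfl, rfl⟩ | ⟨rfl, rfl⟩
  · exact avs_not_adj L hi hne hxy
  · exact avs_not_adj L hi hne hxy.symm

/-- the Hamiltonian cycle of a solution which does not use the edge of colour `i` at `b` -/
theorem avoid_of_sol [DecidableEq B] [DecidableEq W] (L : Lab X V) (hN : 2 ≤ Fintype.card B)
    {h : V → ZMod 12} (hs : L.Sol h) {i : Fin 3} {b : B}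
    (hi : h (L.c (i + 2) b) = h (L.c (i + 1) b) - 2)
    (hne : ∀ k, k ≠ i → X.e k b ≠ X.e i b) :
    (X.graph.deleteEdges {s(Sum.inl b, Sum.inr (X.e i b))}).IsHamiltonian := by
  intro _
  obtain ⟨k, h0, h1, h2⟩ := hi_black hs.1 b
  have hn : ((HG L h).neighborSet (Sum.inl b)).Nonempty :=
    ⟨Sum.inr (X.e (k + 1) b), hg_adj_black.2 ⟨_, h1, rfl⟩⟩
  obtain ⟨p, hp, hv⟩ :=
    (hg_isCycles hN hs).exists_cycle_toSubgraph_verts_eq_connectedComponentSupp
      (c := (HG L h).connectedComponentMk (Sum.inl b)) (v := Sum.inl b) rfl hn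
  have hall : ∀ a, a ∈ p.support := by
    intro a
    rw [← SimpleGraph.Walk.mem_verts_toSubgraph, hv]
    exact SimpleGraph.ConnectedComponent.eq.2 (hg_reachable hs.2 _ _)
  refine ⟨Sum.inl b, p.mapLe (avs_le L hi hne), ?_⟩
  rw [SimpleGraph.Walk.isHamiltonianCycle_iff_isCycle_and_support_count_tail_eq_one]
  refine ⟨hp.mapLe _, fun a => ?_⟩
  rw [SimpleGraph.Walk.support_mapLe_eq_support]
  refine hsol_count hp.support_nodup ?_
  have ha := hall a
  rw [SimpleGraph.Walk.mem_support_iff] at ha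
  rcases ha with rfl | ha
  · exact SimpleGraph.Walk.end_mem_tail_support hp.not_nil
  · exact ha

end Vale.Agent.P039.Sk
end

section

namespace Vale.Agent.P039

open Finset

variable {V : Type*} {G : SimpleGraph V}

namespace Rotation

variable (R : Rotation G)

def faceOf (d : G.Dart) : R.Face :=
  Quotient.mk (Equiv.Perm.SameCycle.setoid R.facePerm) d

theorem facePerm_apply (d : G.Dart) : R.facePerm d = R.rot d.symm := rfl

theorem faceOf_facePerm (d : G.Dart) : R.faceOf (R.facePerm d) = R.faceOf d := by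
  apply Quotient.sound
  change Equiv.Perm.SameCycle R.facePerm (R.facePerm d) d
  exact Equiv.Perm.sameCycle_apply_left.2 (Equiv.Perm.SameCycle.refl _ _)

theorem faceOf_rot_symm (d : G.Dart) : R.faceOf (R.rot d.symm) = R.faceOf d :=
  R.faceOf_facePerm d

theorem fst_facePerm (d : G.Dart) : (R.facePerm d).fst = d.snd := by
  rw [facePerm_apply, R.fst_rot]; rfl

theorem faceOf_surj (f : R.Face) : ∃ d, R.faceOf d = f := Quotient.exists_rep f

end Rotation

/-- the edge of a dart, as an element of the edge set. -/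
def edgeOf (d : G.Dart) : G.edgeSet := ⟨d.edge, d.edge_mem⟩

theorem edgeOf_symm (d : G.Dart) : edgeOf d.symm = edgeOf d := by
  apply Subtype.ext; exact SimpleGraph.Dart.edge_symm d

theorem edgeOf_eq_iff (d e : G.Dart) : edgeOf d = edgeOf e ↔ d = e ∨ d = e.symm := by
  rw [← SimpleGraph.dart_edge_eq_iff]
  constructor
  · intro h; exact congrArg Subtype.val h
  · intro h; exact Subtype.ext h

theorem edgeOf_surj (e : G.edgeSet) : ∃ d, edgeOf d = e := by
  obtain ⟨⟨u, v⟩, h⟩ := e
  exact ⟨⟨(u, v), h⟩, rfl⟩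

section Finite

variable [Fintype V] (R : Rotation G)

noncomputable instance instFintypeDart : Fintype G.Dart := by
  classical exact Fintype.ofFinite _

noncomputable instance instFintypeEdge : Fintype G.edgeSet := by
  classical exact Fintype.ofFinite _

noncomputable instance instFintypeFace : Fintype R.Face := by
  classical
  exact Fintype.ofSurjective R.faceOf R.faceOf_surj

/-- a function on the darts which is invariant under reversal and rotation is constant. -/
theorem const_of_invariant {α : Type*} (hG : G.Preconnected) (z : G.Dart → α)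
    (h1 : ∀ d, z d.symm = z d) (h2 : ∀ d, z (R.rot d) = z d) (d e : G.Dart) : z d = z e := by
  have h4 : ∀ (n : ℕ) (d : G.Dart), z ((R.rot ^ n) d) = z d := by
    intro n
    induction n with
    | zero => intro d; rfl
    | succ n ih =>
      intro d
      rw [pow_succ, Equiv.Perm.mul_apply, ih, h2]
  have h3 : ∀ d e : G.Dart, d.fst = e.fst → z d = z e := by
    intro d e hde
    obtain ⟨n, hn⟩ := (R.cyclic d e hde).exists_nat_pow_eq
    rw [← hn, h4]
  obtain ⟨w⟩ := hG d.fst e.fst
  have h5 : ∀ (u v : V) (_ : G.Walk u v) (d e : G.Dart), d.fst = u → e.fst = v → z d = z e := by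
    intro u v w
    induction w with
    | nil => intro d e hd he; exact h3 d e (hd.trans he.symm)
    | @cons u v' v h p ih =>
      intro d e hd he
      have e1 : z d = z ⟨(u, v'), h⟩ := h3 _ _ hd
      have e2 : z (⟨(u, v'), h⟩ : G.Dart) = z (⟨(u, v'), h⟩ : G.Dart).symm := (h1 _).symm
      rw [e1, e2]
      exact ih _ e rfl he
  exact h5 _ _ w d e rfl rfl

end Finite

section Finite

variable [Fintype V] (R : Rotation G)

end Finite

end Vale.Agent.P039
end

section

/-! Duality modulo three for bipartite plane graphs. -/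

namespace Vale.Agent.P039.Sk

open Vale.Agent.P039
open Finset

section LinAlg

variable {K ι κ : Type*} [Field K] [Fintype ι]

theorem gker_le_one (M : Matrix κ ι K) (s : ι → K)
    (h : ∀ z : ι → K, M.mulVec z = 0 → ∃ t : K, z = t • s) :
    Module.finrank K (LinearMap.ker M.mulVecLin) ≤ 1 := by
  classical
  have : LinearMap.ker M.mulVecLin ≤ Submodule.span K {s} := by
    intro z hz
    rw [LinearMap.mem_ker, Matrix.mulVecLin_apply] at hz
    obtain ⟨t, ht⟩ := h z hz
    rw [Submodule.mem_span_singleton]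
    exact ⟨t, ht.symm⟩
  calc _ ≤ Module.finrank K (Submodule.span K {s}) := Submodule.finrank_mono this
    _ ≤ 1 := by
      have := finrank_span_le_card (R := K) ({s} : Set (ι → K))
      simpa using this

theorem grank_ge [Fintype κ] (M : Matrix κ ι K) (s : ι → K)
    (h : ∀ z : ι → K, M.mulVec z = 0 → ∃ t : K, z = t • s) :
    Fintype.card ι ≤ M.rank + 1 := by
  have h1 := LinearMap.finrank_range_add_finrank_ker M.mulVecLin
  have h2 := gker_le_one M s h
  rw [Module.finrank_fintype_fun_eq_card] at h1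
  unfold Matrix.rank
  omega

end LinAlg

section Pot

variable {V : Type*} [Fintype V] {G : SimpleGraph V} (R : Rotation G) (c : V → Bool)

/-- darts with black tail -/
abbrev BDart (G : SimpleGraph V) (c : V → Bool) : Type _ := {d : G.Dart // c d.fst = true}

open Classical in
/-- difference across the edges -/
noncomputable def diffMat : Matrix (BDart G c) R.Face (ZMod 3) :=
  fun d f => (if R.faceOf d.1.symm = f then 1 else 0) - (if R.faceOf d.1 = f then 1 else 0)

theorem diffMat_mulVec (z : R.Face → ZMod 3) (d : BDart G c) :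
    (diffMat R c).mulVec z d = z (R.faceOf d.1.symm) - z (R.faceOf d.1) := by
  classical
  unfold diffMat Matrix.mulVec dotProduct
  simp [sub_mul, Finset.sum_sub_distrib]

open Classical in
/-- sums at the vertices -/
noncomputable def flowMat (G : SimpleGraph V) (c : V → Bool) : Matrix V (BDart G c) (ZMod 3) :=
  fun v d => (if d.1.fst = v then 1 else 0) + (if d.1.snd = v then 1 else 0)

open Classical in
theorem flowMat_mulVec (y : BDart G c → ZMod 3) (v : V) :
    (flowMat G c).mulVec y v = (∑ d : BDart G c, if d.1.fst = v then y d else 0) +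
      ∑ d : BDart G c, if d.1.snd = v then y d else 0 := by
  unfold flowMat Matrix.mulVec dotProduct
  simp [add_mul, Finset.sum_add_distrib]

theorem flowMat_transpose_mulVec (x : V → ZMod 3) (d : BDart G c) :
    (flowMat G c).transpose.mulVec x d = x d.1.fst + x d.1.snd := by
  classical
  change (∑ v, ((if d.1.fst = v then (1 : ZMod 3) else 0) +
    (if d.1.snd = v then 1 else 0)) * x v) = _
  simp [add_mul, Finset.sum_add_distrib]

/-- reversal of the darts, as a permutation -/
def symmEquiv (G : SimpleGraph V) : Equiv.Perm G.Dart :=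
  Function.Involutive.toPerm SimpleGraph.Dart.symm SimpleGraph.Dart.symm_involutive

theorem sum_bdart (F : G.Dart → ZMod 3) :
    (∑ d : BDart G c, F d.1) = ∑ d : G.Dart, if c d.fst = true then F d else 0 := by
  classical
  rw [← Finset.sum_filter]
  symm
  apply Finset.sum_subtype
  intro x
  simp

open Classical in
theorem sum_bdart_vertex (hc : ∀ u v, G.Adj u v → c u ≠ c v) (g : G.Dart → ZMod 3) (v : V) :
    ((∑ d : BDart G c, if d.1.fst = v then g d.1 else 0) +
      ∑ d : BDart G c, if d.1.snd = v then g d.1 else 0) =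
    ∑ e : G.Dart, if e.fst = v then (if c e.fst = true then g e else g e.symm) else 0 := by
  rw [sum_bdart c (fun d => if d.fst = v then g d else 0),
    sum_bdart c (fun d => if d.snd = v then g d else 0)]
  have h2 := Equiv.sum_comp (symmEquiv G)
    (fun d => if c d.fst = true then (if d.snd = v then g d else 0) else 0)
  rw [← h2, ← Finset.sum_add_distrib]
  apply Finset.sum_congr rfl
  intro e _
  have e1 : ((symmEquiv G) e).fst = e.snd := rfl
  have e2 : ((symmEquiv G) e).snd = e.fst := rfl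
  have e3 : (symmEquiv G) e = e.symm := rfl
  rw [e1, e2, e3]
  have hne := hc _ _ e.adj
  by_cases hv : e.fst = v
  · simp only [hv, if_true]
    rw [hv] at hne
    rcases Bool.eq_false_or_eq_true (c v) with h | h
    · have : c e.snd = false := by
        rcases Bool.eq_false_or_eq_true (c e.snd) with h' | h'
        · exact absurd (h.trans h'.symm) hne
        · exact h'
      simp [h, this]
    · have : c e.snd = true := by
        rcases Bool.eq_false_or_eq_true (c e.snd) with h' | h'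
        · exact h'
        · exact absurd (h.trans h'.symm) hne
      simp [h, this]
  · simp [hv]

open Classical in
theorem sum_rot_zero (z : R.Face → ZMod 3) (v : V) :
    (∑ e : G.Dart, if e.fst = v then z (R.faceOf e.symm) - z (R.faceOf e) else 0) = 0 := by
  have h1 : ∀ e : G.Dart, (if e.fst = v then z (R.faceOf e.symm) - z (R.faceOf e) else 0) =
      (if (R.rot e).fst = v then z (R.faceOf (R.rot e)) else 0) -
        (if e.fst = v then z (R.faceOf e) else 0) := by
    intro e
    have h := R.faceOf_rot_symm e.symm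
    rw [SimpleGraph.Dart.symm_symm] at h
    rw [R.fst_rot, h]
    split_ifs <;> simp
  rw [Finset.sum_congr rfl (fun e _ => h1 e), Finset.sum_sub_distrib,
    Equiv.sum_comp R.rot (fun e => if e.fst = v then z (R.faceOf e) else 0), sub_self]

theorem flowMat_diffMat (hc : ∀ u v, G.Adj u v → c u ≠ c v) (z : R.Face → ZMod 3) :
    (flowMat G c).mulVec ((diffMat R c).mulVec z) = 0 := by
  classical
  funext v
  rw [flowMat_mulVec]
  simp only [diffMat_mulVec, Pi.zero_apply]
  rw [sum_bdart_vertex c hc (fun d => z (R.faceOf d.symm) - z (R.faceOf d)) v]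
  have hs := sum_rot_zero R z v
  rcases Bool.eq_false_or_eq_true (c v) with h | h
  · refine Eq.trans (Finset.sum_congr rfl ?_) hs
    intro e _
    by_cases hv : e.fst = v
    · simp [hv, h]
    · simp [hv]
  · have h1 : ∀ e : G.Dart, (if e.fst = v then (if c e.fst = true then
        z (R.faceOf e.symm) - z (R.faceOf e) else
        z (R.faceOf e.symm.symm) - z (R.faceOf e.symm)) else 0) =
        -(if e.fst = v then z (R.faceOf e.symm) - z (R.faceOf e) else 0) := by
      intro e
      by_cases hv : e.fst = v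
      · simp [hv, h]
      · simp [hv]
    rw [Finset.sum_congr rfl (fun e _ => h1 e), Finset.sum_neg_distrib, hs, neg_zero]

open Classical in
theorem flowMat_one (hc : ∀ u v, G.Adj u v → c u ≠ c v)
    (hcub : ∀ v, (univ.filter fun d : G.Dart => d.fst = v).card = 3) :
    (flowMat G c).mulVec (fun _ => 1) = 0 := by
  funext v
  rw [flowMat_mulVec, sum_bdart_vertex c hc (fun _ => 1) v]
  have : (∑ e : G.Dart, if e.fst = v then (if c e.fst = true then (1 : ZMod 3) else 1) else 0) =
      ((univ.filter fun d : G.Dart => d.fst = v).card : ZMod 3) := by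
    rw [Finset.card_filter]
    push_cast
    apply Finset.sum_congr rfl
    intro e _
    simp
  rw [this, hcub]
  rfl

theorem exists_potential (hG : G.Preconnected) (hne : Nonempty V)
    (hE : Fintype.card V + Fintype.card R.Face = Fintype.card (BDart G c) + 2)
    (hc : ∀ u v, G.Adj u v → c u ≠ c v)
    (hcub : ∀ v, ({d : G.Dart | d.fst = v}).ncard = 3) :
    ∃ κ : R.Face → ZMod 3, ∀ d : G.Dart, c d.fst = true →
      κ (R.faceOf d.symm) = κ (R.faceOf d) + 1 := by
  classical
  have hcub' : ∀ v, (univ.filter fun d : G.Dart => d.fst = v).card = 3 := by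
    intro v
    rw [← hcub v, ← Set.ncard_coe_finset]
    congr 1
    ext d
    simp
  -- rank of the difference matrix
  have h1 : Fintype.card R.Face ≤ (diffMat R c).rank + 1 := by
    apply grank_ge _ (fun _ => 1)
    intro z hz
    have hsym : ∀ d : G.Dart, z (R.faceOf d.symm) = z (R.faceOf d) := by
      intro d
      rcases Bool.eq_false_or_eq_true (c d.fst) with h | h
      · have h3 := congrFun hz ⟨d, h⟩
        rw [diffMat_mulVec] at h3
        exact sub_eq_zero.1 h3
      · have h' : c d.symm.fst = true := by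
          have := hc _ _ d.adj
          rcases Bool.eq_false_or_eq_true (c d.snd) with h' | h'
          · exact h'
          · exact absurd (h.trans h'.symm) this
        have h3 := congrFun hz ⟨d.symm, h'⟩
        rw [diffMat_mulVec] at h3
        have h4 := sub_eq_zero.1 h3
        rw [SimpleGraph.Dart.symm_symm] at h4
        exact h4.symm
    have hrot : ∀ d : G.Dart, z (R.faceOf (R.rot d)) = z (R.faceOf d) := by
      intro d
      have := R.faceOf_rot_symm d.symm
      rw [SimpleGraph.Dart.symm_symm] at this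
      rw [this, hsym]
    have hconst := const_of_invariant R hG (fun d => z (R.faceOf d)) hsym hrot
    by_cases hd : Nonempty G.Dart
    · obtain ⟨d₀⟩ := hd
      refine ⟨z (R.faceOf d₀), ?_⟩
      funext f
      obtain ⟨d, rfl⟩ := R.faceOf_surj f
      rw [Pi.smul_apply, smul_eq_mul, mul_one]
      exact hconst d d₀
    · refine ⟨0, ?_⟩
      funext f
      obtain ⟨d, -⟩ := R.faceOf_surj f
      exact absurd ⟨d⟩ hd
  have h2 : Fintype.card V ≤ (flowMat G c).transpose.rank + 1 := by
    apply grank_ge _ (fun v => if c v = true then 1 else -1)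
    intro x hx
    obtain ⟨v₀⟩ := hne
    have key : ∀ u v, G.Adj u v → x u = - x v := by
      intro u v huv
      rcases Bool.eq_false_or_eq_true (c u) with h | h
      · have h3 := congrFun hx ⟨⟨(u, v), huv⟩, h⟩
        rw [flowMat_transpose_mulVec] at h3
        exact eq_neg_of_add_eq_zero_left h3
      · have h' : c v = true := by
          have := hc _ _ huv
          rcases Bool.eq_false_or_eq_true (c v) with h' | h'
          · exact h'
          · exact absurd (h.trans h'.symm) this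
        have h3 := congrFun hx ⟨⟨(v, u), huv.symm⟩, h'⟩
        rw [flowMat_transpose_mulVec] at h3
        exact eq_neg_of_add_eq_zero_right h3
    set s : V → ZMod 3 := fun v => if c v = true then 1 else -1 with hs
    have skey : ∀ u v, G.Adj u v → s u = - s v := by
      intro u v huv
      have := hc _ _ huv
      simp only [hs]
      rcases Bool.eq_false_or_eq_true (c u) with h | h <;>
        rcases Bool.eq_false_or_eq_true (c v) with h' | h'
      · exact absurd (h.trans h'.symm) this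
      · simp [h, h']
      · simp [h, h']
      · exact absurd (h.trans h'.symm) this
    have ss : s v₀ * s v₀ = 1 := by
      simp only [hs]
      split_ifs <;> ring
    have hw : ∀ u v (_ : G.Walk u v), x u * s v = x v * s u := by
      intro u v w
      induction w with
      | nil => rfl
      | @cons u v' v h p ih =>
        rw [key _ _ h, skey _ _ h]
        linear_combination -ih
    refine ⟨x v₀ * s v₀, ?_⟩
    funext v
    obtain ⟨w⟩ := hG v v₀
    have h3 := hw _ _ w
    rw [Pi.smul_apply, smul_eq_mul]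
    show x v = x v₀ * s v₀ * s v
    calc x v = x v * (s v₀ * s v₀) := by rw [ss, mul_one]
      _ = (x v * s v₀) * s v₀ := by ring
      _ = (x v₀ * s v) * s v₀ := by rw [h3]
      _ = x v₀ * s v₀ * s v := by ring
  rw [Matrix.rank_transpose] at h2
  have h3 := LinearMap.finrank_range_add_finrank_ker (flowMat G c).mulVecLin
  rw [Module.finrank_fintype_fun_eq_card] at h3
  have h4 : LinearMap.range (diffMat R c).mulVecLin ≤ LinearMap.ker (flowMat G c).mulVecLin := by
    rintro _ ⟨z, rfl⟩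
    rw [LinearMap.mem_ker]
    exact flowMat_diffMat R c hc z
  have h5 : Module.finrank (ZMod 3) (LinearMap.ker (flowMat G c).mulVecLin) ≤
      Module.finrank (ZMod 3) (LinearMap.range (diffMat R c).mulVecLin) := by
    unfold Matrix.rank at h1 h2
    omega
  have h6 := Submodule.eq_of_le_of_finrank_le h4 h5
  have h7 : (fun _ => 1 : BDart G c → ZMod 3) ∈ LinearMap.range (diffMat R c).mulVecLin := by
    rw [h6, LinearMap.mem_ker]; exact flowMat_one c hc hcub'
  obtain ⟨κ, hκ⟩ := h7
  refine ⟨κ, fun d hd => ?_⟩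
  have h8 := congrFun hκ ⟨d, hd⟩
  rw [Matrix.mulVecLin_apply, diffMat_mulVec] at h8
  have h9 : κ (R.faceOf d.symm) - κ (R.faceOf d) = 1 := h8
  rw [← h9]
  ring

end Pot

end Vale.Agent.P039.Sk
end

section

/-! Edge colours of a bipartite cubic plane graph. -/

namespace Vale.Agent.P039.Sk

open Vale.Agent.P039
open Finset

/-- faces classes modulo three which increase across the edges, seen from the black vertices -/
structure Pot {V : Type*} (G : SimpleGraph V) (R : Rotation G) (c : V → Bool) where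
  κ : R.Face → Fin 3
  hc : ∀ u v, G.Adj u v → c u ≠ c v
  card : ∀ v, ({d : G.Dart | d.fst = v}).ncard = 3
  step : ∀ d : G.Dart, c d.fst = true → κ (R.faceOf d.symm) = κ (R.faceOf d) + 1

namespace Pot

variable {V : Type*} {G : SimpleGraph V} {R : Rotation G} {c : V → Bool} (P : Pot G R c)
include P

theorem flip {d : G.Dart} (h : c d.fst = true) : c d.snd = false := by
  have := P.hc _ _ d.adj
  rcases Bool.eq_false_or_eq_true (c d.snd) with h' | h'
  · exact absurd (h.trans h'.symm) this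
  · exact h'

theorem flip' {d : G.Dart} (h : c d.fst = false) : c d.snd = true := by
  have := P.hc _ _ d.adj
  rcases Bool.eq_false_or_eq_true (c d.snd) with h' | h'
  · exact h'
  · exact absurd (h.trans h'.symm) this

/-- the colour of a dart -/
def γ (d : G.Dart) : Fin 3 :=
  if c d.fst = true then P.κ (R.faceOf d) + 2 else P.κ (R.faceOf d.symm) + 2

theorem γ_black {d : G.Dart} (h : c d.fst = true) : P.γ d = P.κ (R.faceOf d) + 2 := by
  unfold γ; rw [if_pos h]

theorem γ_white {d : G.Dart} (h : c d.fst = false) : P.γ d = P.κ (R.faceOf d.symm) + 2 := by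
  unfold γ; rw [if_neg (by rw [h]; decide)]

theorem γ_symm (d : G.Dart) : P.γ d.symm = P.γ d := by
  rcases Bool.eq_false_or_eq_true (c d.fst) with h | h
  · rw [P.γ_black h, P.γ_white (d := d.symm) (P.flip h), SimpleGraph.Dart.symm_symm]
  · rw [P.γ_white h, P.γ_black (d := d.symm) (P.flip' h)]

theorem κ_black {d : G.Dart} (h : c d.fst = true) : P.κ (R.faceOf d) = P.γ d + 1 := by
  rw [P.γ_black h, f21]

theorem κ_white {d : G.Dart} (h : c d.fst = false) : P.κ (R.faceOf d) = P.γ d + 2 := by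
  have h1 := P.step d.symm (P.flip' h)
  rw [SimpleGraph.Dart.symm_symm] at h1
  rw [h1, P.γ_white h, f22]

theorem γ_rot_black {d : G.Dart} (h : c d.fst = true) : P.γ (R.rot d) = P.γ d + 1 := by
  have h0 : c (R.rot d).fst = true := by rw [R.fst_rot]; exact h
  have h2 := R.faceOf_rot_symm d.symm
  rw [SimpleGraph.Dart.symm_symm] at h2
  rw [P.γ_black h0, h2, P.γ_black h, P.step d h]
  generalize P.κ (R.faceOf d) = a
  revert a; decide

theorem γ_rot_white {d : G.Dart} (h : c d.fst = false) : P.γ (R.rot d) = P.γ d + 2 := by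
  have h0 : c (R.rot d).fst = false := by rw [R.fst_rot]; exact h
  have h2 := R.faceOf_rot_symm d.symm
  rw [SimpleGraph.Dart.symm_symm] at h2
  have h3 := P.κ_white h0
  rw [h2] at h3
  have h4 := P.γ_white h
  have h5 : P.κ (R.faceOf d.symm) = P.γ d + 1 := by rw [h4, f21]
  rw [h5] at h3
  generalize P.γ d = a at h3 ⊢
  generalize P.γ (R.rot d) = b at h3 ⊢
  revert a b; decide

theorem finite_darts (v : V) : ({d : G.Dart | d.fst = v}).Finite :=
  Set.finite_of_ncard_ne_zero (by rw [P.card v]; decide)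

theorem exists_dart (v : V) : ∃ d : G.Dart, d.fst = v := by
  have h : ({d : G.Dart | d.fst = v}).Nonempty := by
    rw [← Set.ncard_pos (P.finite_darts v), P.card v]; decide
  exact h

theorem exists_col (v : V) (i : Fin 3) : ∃ d : G.Dart, d.fst = v ∧ P.γ d = i := by
  obtain ⟨d, hd⟩ := P.exists_dart v
  have h1 : (R.rot d).fst = v := (R.fst_rot d).trans hd
  have h2 : (R.rot (R.rot d)).fst = v := (R.fst_rot _).trans h1
  rcases Bool.eq_false_or_eq_true (c v) with h | h
  · have g1 := P.γ_rot_black (d := d) (by rw [hd]; exact h)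
    have g2 := P.γ_rot_black (d := R.rot d) (by rw [h1]; exact h)
    have : i = P.γ d ∨ i = P.γ d + 1 ∨ i = P.γ d + 1 + 1 := by
      generalize P.γ d = a
      revert a i; decide
    rcases this with h' | h' | h'
    · exact ⟨d, hd, h'.symm⟩
    · exact ⟨_, h1, g1.trans h'.symm⟩
    · exact ⟨_, h2, by rw [g2, g1, h']⟩
  · have g1 := P.γ_rot_white (d := d) (by rw [hd]; exact h)
    have g2 := P.γ_rot_white (d := R.rot d) (by rw [h1]; exact h)
    have : i = P.γ d ∨ i = P.γ d + 2 ∨ i = P.γ d + 2 + 2 := by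
      generalize P.γ d = a
      revert a i; decide
    rcases this with h' | h' | h'
    · exact ⟨d, hd, h'.symm⟩
    · exact ⟨_, h1, g1.trans h'.symm⟩
    · exact ⟨_, h2, by rw [g2, g1, h']⟩

theorem dart_inj {d d' : G.Dart} (h : d.fst = d'.fst) (hg : P.γ d = P.γ d') : d = d' := by
  classical
  set s : Finset G.Dart := (P.finite_darts d.fst).toFinset with hs
  have hcard : s.card = 3 := by
    rw [hs, ← Set.ncard_eq_toFinset_card _ (P.finite_darts d.fst)]
    exact P.card _
  have himg : s.image P.γ = univ := by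
    ext i
    simp only [mem_image, mem_univ, iff_true]
    obtain ⟨e, he, hi⟩ := P.exists_col d.fst i
    exact ⟨e, by rw [hs, Set.Finite.mem_toFinset]; exact he, hi⟩
  have hinj : Set.InjOn P.γ s := by
    rw [← Finset.card_image_iff, himg, hcard]
    rfl
  apply hinj
  · rw [hs]; simp
  · rw [hs]; simp [h]
  · exact hg

/-- the dart of colour `i` at `v` -/
noncomputable def δ (v : V) (i : Fin 3) : G.Dart := (P.exists_col v i).choose

theorem δ_fst (v : V) (i : Fin 3) : (P.δ v i).fst = v := (P.exists_col v i).choose_spec.1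
theorem γ_δ (v : V) (i : Fin 3) : P.γ (P.δ v i) = i := (P.exists_col v i).choose_spec.2

theorem eq_δ {d : G.Dart} {v : V} {i : Fin 3} (h : d.fst = v) (hi : P.γ d = i) : d = P.δ v i :=
  P.dart_inj (h.trans (P.δ_fst v i).symm) (hi.trans (P.γ_δ v i).symm)

/-- the neighbour along the edge of colour `i` -/
noncomputable def nb (v : V) (i : Fin 3) : V := (P.δ v i).snd

theorem δ_symm (v : V) (i : Fin 3) : (P.δ v i).symm = P.δ (P.nb v i) i :=
  P.eq_δ rfl ((P.γ_symm _).trans (P.γ_δ v i))

theorem nb_nb (v : V) (i : Fin 3) : P.nb (P.nb v i) i = v := by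
  have h : P.nb (P.nb v i) i = (P.δ (P.nb v i) i).snd := rfl
  rw [h, ← P.δ_symm]
  exact P.δ_fst v i

theorem nb_adj (v : V) (i : Fin 3) : G.Adj v (P.nb v i) := by
  have h := (P.δ v i).adj
  rw [P.δ_fst] at h
  exact h

theorem exists_nb {u v : V} (h : G.Adj u v) : ∃ i, P.nb u i = v := by
  refine ⟨P.γ ⟨(u, v), h⟩, ?_⟩
  have h1 := P.eq_δ (d := ⟨(u, v), h⟩) (v := u) rfl rfl
  unfold nb
  rw [← h1]

theorem c_nb {v : V} (h : c v = true) (i : Fin 3) : c (P.nb v i) = false := by
  have h1 : c (P.δ v i).fst = true := by rw [P.δ_fst]; exact h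
  exact P.flip h1

theorem c_nb' {v : V} (h : c v = false) (i : Fin 3) : c (P.nb v i) = true := by
  have h1 : c (P.δ v i).fst = false := by rw [P.δ_fst]; exact h
  exact P.flip' h1

theorem fp_black {v : V} (h : c v = true) (j : Fin 3) :
    R.facePerm (P.δ v (j + 2)) = P.δ (P.nb v (j + 2)) (j + 1) := by
  rw [R.facePerm_apply, P.δ_symm]
  apply P.eq_δ
  · rw [R.fst_rot, P.δ_fst]
  · rw [P.γ_rot_white, P.γ_δ, f22]
    rw [P.δ_fst]; exact P.c_nb h _

theorem fp_white {v : V} (h : c v = false) (j : Fin 3) :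
    R.facePerm (P.δ v (j + 1)) = P.δ (P.nb v (j + 1)) (j + 2) := by
  rw [R.facePerm_apply, P.δ_symm]
  apply P.eq_δ
  · rw [R.fst_rot, P.δ_fst]
  · rw [P.γ_rot_black, P.γ_δ, f11]
    rw [P.δ_fst]; exact P.c_nb' h _

/-- the next black vertex on the face of class `j` -/
noncomputable def nx (j : Fin 3) (v : V) : V := P.nb (P.nb v (j + 2)) (j + 1)

theorem fp2 {v : V} (h : c v = true) (j : Fin 3) :
    R.facePerm (R.facePerm (P.δ v (j + 2))) = P.δ (P.nx j v) (j + 2) := by
  rw [P.fp_black h, P.fp_white (P.c_nb h _)]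
  rfl

theorem c_nx {v : V} (h : c v = true) (j : Fin 3) : c (P.nx j v) = true :=
  P.c_nb' (P.c_nb h _) _

/-- the face of class `j` at the black vertex `v` -/
noncomputable def cf (j : Fin 3) (v : V) : R.Face := R.faceOf (P.δ v (j + 2))

theorem κ_cf {v : V} (h : c v = true) (j : Fin 3) : P.κ (P.cf j v) = j := by
  unfold cf
  rw [P.κ_black (by rw [P.δ_fst]; exact h), P.γ_δ, f21]

theorem cf_nx {v : V} (h : c v = true) (j : Fin 3) : P.cf j (P.nx j v) = P.cf j v := by
  unfold cf
  rw [← P.fp2 h, R.faceOf_facePerm, R.faceOf_facePerm]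

theorem cf_surj (f : R.Face) : ∃ j v, c v = true ∧ P.cf j v = f := by
  obtain ⟨d, rfl⟩ := R.faceOf_surj f
  have key : ∀ d : G.Dart, c d.fst = true → ∃ j v, c v = true ∧ P.cf j v = R.faceOf d := by
    intro d h
    refine ⟨P.γ d + 1, d.fst, h, ?_⟩
    unfold cf
    have h1 : P.γ d + 1 + 2 = P.γ d := f12 _
    rw [h1, ← P.eq_δ rfl rfl]
  rcases Bool.eq_false_or_eq_true (c d.fst) with h | h
  · exact key d h
  · have h1 : c (R.facePerm d).fst = true := by
      rw [R.fst_facePerm]; exact P.flip' h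
    obtain ⟨j, v, hv, h2⟩ := key _ h1
    exact ⟨j, v, hv, h2.trans (R.faceOf_facePerm d)⟩

theorem orbit {v : V} (h : c v = true) (j : Fin 3) (m : ℕ) :
    ∃ x, c x = true ∧ (R.facePerm ^ (2 * m)) (P.δ v (j + 2)) = P.δ x (j + 2) ∧
      x = (P.nx j)^[m] v := by
  induction m with
  | zero => exact ⟨v, h, rfl, rfl⟩
  | succ m ih =>
    obtain ⟨x, hx, h1, h2⟩ := ih
    refine ⟨P.nx j x, P.c_nx hx j, ?_, ?_⟩
    · have : 2 * (m + 1) = 2 + 2 * m := by ring
      rw [this, pow_add, Equiv.Perm.mul_apply, h1, pow_two, Equiv.Perm.mul_apply, P.fp2 hx]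
    · rw [Function.iterate_succ_apply', ← h2]

theorem δ_inj {v v' : V} {i : Fin 3} (h : P.δ v i = P.δ v' i) : v = v' := by
  rw [← P.δ_fst v i, h, P.δ_fst]

theorem cf_exact [Fintype V] {v v' : V} (h : c v = true) (h' : c v' = true) {j : Fin 3}
    (hf : P.cf j v = P.cf j v') : ∃ m : ℕ, v' = (P.nx j)^[m] v := by
  have h1 : R.facePerm.SameCycle (P.δ v (j + 2)) (P.δ v' (j + 2)) := Quotient.exact hf
  obtain ⟨n, hn⟩ := h1.exists_nat_pow_eq
  rcases Nat.even_or_odd' n with ⟨m, hm | hm⟩
  · obtain ⟨x, hx, h2, h3⟩ := P.orbit h j m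
    rw [hm, h2] at hn
    exact ⟨m, by rw [← h3]; exact (P.δ_inj hn).symm⟩
  · exfalso
    obtain ⟨x, hx, h2, h3⟩ := P.orbit h j m
    rw [hm, pow_succ', Equiv.Perm.mul_apply, h2, P.fp_black hx] at hn
    have h4 := congrArg (fun d : G.Dart => c d.fst) hn
    simp only [P.δ_fst] at h4
    rw [P.c_nb hx, h'] at h4
    exact absurd h4 (by decide)

end Pot

end Vale.Agent.P039.Sk
end

section

/-! From plane graphs to webs. -/

namespace Vale.Agent.P039.Sk

open Vale.Agent.P039

theorem ncard_darts {V : Type*} (G : SimpleGraph V) (v : V) :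
    ({d : G.Dart | d.fst = v}).ncard = (G.neighborSet v).ncard := by
  have h1 : G.neighborSet v = (fun d : G.Dart => d.snd) '' {d : G.Dart | d.fst = v} := by
    ext u
    constructor
    · intro h
      exact ⟨⟨(v, u), h⟩, rfl, rfl⟩
    · rintro ⟨d, hd, rfl⟩
      have h := d.adj
      have hd' : d.fst = v := hd
      rw [hd'] at h
      exact h
  rw [h1, Set.InjOn.ncard_image]
  intro d hd e he h
  have hd' : d.fst = v := hd
  have he' : e.fst = v := he
  apply SimpleGraph.Dart.ext
  exact Prod.ext (hd'.trans he'.symm) h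

theorem card_bdart {V : Type*} [Fintype V] (G : SimpleGraph V) (c : V → Bool)
    (hc : ∀ u v, G.Adj u v → c u ≠ c v) :
    Fintype.card (BDart G c) = Fintype.card G.edgeSet := by
  apply Fintype.card_of_bijective (f := fun d : BDart G c => edgeOf d.1)
  constructor
  · rintro ⟨d, hd⟩ ⟨e, he⟩ h
    rcases (edgeOf_eq_iff d e).1 h with h' | h'
    · exact Subtype.ext h'
    · exfalso
      subst h'
      have hd' : c e.snd = true := hd
      exact hc _ _ e.adj (he.trans hd'.symm)
  · intro e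
    obtain ⟨d, rfl⟩ := edgeOf_surj e
    rcases Bool.eq_false_or_eq_true (c d.fst) with h | h
    · exact ⟨⟨d, h⟩, rfl⟩
    · have h' : c d.symm.fst = true := by
        have := hc _ _ d.adj
        rcases Bool.eq_false_or_eq_true (c d.snd) with h' | h'
        · exact h'
        · exact absurd (h.trans h'.symm) this
      exact ⟨⟨d.symm, h'⟩, edgeOf_symm d⟩

/-- a potential exists -/
theorem exists_pot {V : Type*} [Fintype V] (G : SimpleGraph V)
    (hcub : ∀ v, (G.neighborSet v).ncard = 3) (R : Rotation G) (hR : R.Spherical)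
    (hconn : G.Connected) (c : V → Bool) (hc : ∀ u v, G.Adj u v → c u ≠ c v) :
    Nonempty (Pot G R c) := by
  have hcard : ∀ v, ({d : G.Dart | d.fst = v}).ncard = 3 := fun v =>
    (ncard_darts G v).trans (hcub v)
  have hE : Fintype.card V + Fintype.card R.Face = Fintype.card (BDart G c) + 2 := by
    rw [card_bdart G c hc]
    have h := hR
    unfold Rotation.Spherical at h
    rw [Nat.card_eq_fintype_card, Nat.card_eq_fintype_card, Nat.card_eq_fintype_card] at h
    exact h
  obtain ⟨κ, hκ⟩ := exists_potential R c hconn.preconnected hconn.nonempty hE hc hcard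
  exact ⟨⟨κ, hc, hcard, hκ⟩⟩

section Build

variable {V : Type*} {G : SimpleGraph V} {R : Rotation G} {c : V → Bool} (P : Pot G R c)

/-- the edges of colour `i` -/
noncomputable def Pot.eqv (i : Fin 3) : {v // c v = true} ≃ {v // ¬ c v = true} where
  toFun b := ⟨P.nb b.1 i, by rw [P.c_nb b.2]; decide⟩
  invFun w := ⟨P.nb w.1 i, P.c_nb' (by simpa using w.2) i⟩
  left_inv b := Subtype.ext (P.nb_nb _ _)
  right_inv w := Subtype.ext (P.nb_nb _ _)

variable {B W F : Type} (EB : B ≃ {v // c v = true}) (EW : W ≃ {v // ¬ c v = true})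
  (EF : R.Face ≃ F)

/-- the web of a potential -/
noncomputable def Pot.web : Web B W := ⟨fun i => EB.trans ((P.eqv i).trans EW.symm)⟩

theorem Pot.web_e (i : Fin 3) (b : B) : (EW ((P.web EB EW).e i b)).1 = P.nb (EB b).1 i := by
  show (EW (EW.symm (P.eqv i (EB b)))).1 = _
  rw [Equiv.apply_symm_apply]
  rfl

theorem Pot.web_e_iff (i i' : Fin 3) (b b' : B) :
    (P.web EB EW).e i b = (P.web EB EW).e i' b' ↔ P.nb (EB b).1 i = P.nb (EB b').1 i' := by
  constructor
  · intro h
    rw [← P.web_e EB EW, ← P.web_e EB EW, h]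
  · intro h
    apply EW.injective
    apply Subtype.ext
    rw [P.web_e EB EW, P.web_e EB EW, h]

theorem Pot.web_chain (j : Fin 3) (m : ℕ) : ∀ b b' : B, (EB b').1 = (P.nx j)^[m] (EB b).1 →
    Relation.EqvGen (fun x y => (P.web EB EW).e (j + 1) y = (P.web EB EW).e (j + 2) x) b b' := by
  induction m with
  | zero =>
    intro b b' h
    have : b' = b := EB.injective (Subtype.ext h)
    rw [this]
    exact Relation.EqvGen.refl _
  | succ m ih =>
    intro b b' h
    rw [Function.iterate_succ_apply'] at h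
    have hb : c ((P.nx j)^[m] (EB b).1) = true := by
      have : ∀ m : ℕ, c ((P.nx j)^[m] (EB b).1) = true := by
        intro m
        induction m with
        | zero => exact (EB b).2
        | succ m ih => rw [Function.iterate_succ_apply']; exact P.c_nx ih j
      exact this m
    have h1 : (EB (EB.symm ⟨_, hb⟩)).1 = (P.nx j)^[m] (EB b).1 := by
      rw [Equiv.apply_symm_apply]
    refine Relation.EqvGen.trans _ _ _ (ih b _ h1) (Relation.EqvGen.rel _ _ ?_)
    rw [P.web_e_iff EB EW, h1, h]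
    exact P.nb_nb _ _

/-- the faces -/
noncomputable def Pot.lab [Fintype V] : Lab (P.web EB EW) F where
  c j b := EF (P.cf j (EB b).1)
  step j b b' h := by
    rw [P.web_e_iff EB EW] at h
    have h1 : P.nx j (EB b).1 = (EB b').1 := by
      unfold Pot.nx
      rw [← h, P.nb_nb]
    rw [← h1, P.cf_nx (EB b).2]
  exact j b b' h := by
    obtain ⟨m, hm⟩ := P.cf_exact (EB b).2 (EB b').2 (EF.injective h)
    exact P.web_chain EB EW j m b b' hm
  cls j j' b b' h := by
    have h1 := EF.injective h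
    rw [← P.κ_cf (EB b).2 j, h1, P.κ_cf (EB b').2 j']
  surj v := by
    obtain ⟨j, u, hu, h⟩ := P.cf_surj (EF.symm v)
    refine ⟨j, EB.symm ⟨u, hu⟩, ?_⟩
    rw [Equiv.apply_symm_apply, h, Equiv.apply_symm_apply]

/-- the isomorphism -/
noncomputable def Pot.iso : (P.web EB EW).graph ≃g G where
  toEquiv := (Equiv.sumCongr EB EW).trans (Equiv.sumCompl (fun v => c v = true))
  map_rel_iff' := by
    intro x y
    have key : ∀ b w, G.Adj (EB b).1 (EW w).1 ↔ ∃ i, w = (P.web EB EW).e i b := by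
      intro b w
      constructor
      · intro h
        obtain ⟨i, hi⟩ := P.exists_nb h
        refine ⟨i, EW.injective (Subtype.ext ?_)⟩
        rw [P.web_e EB EW, hi]
      · rintro ⟨i, rfl⟩
        rw [P.web_e EB EW]
        exact P.nb_adj _ _
    rcases x with b | w <;> rcases y with b' | w'
    · constructor
      · intro h
        exact absurd ((EB b).2.trans (EB b').2.symm) (P.hc _ _ h)
      · intro h
        exfalso
        simp [Web.graph, SimpleGraph.fromRel_adj] at h
    · have : (P.web EB EW).graph.Adj (Sum.inl b) (Sum.inr w') ↔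
          ∃ i, w' = (P.web EB EW).e i b := by
        simp [Web.graph, SimpleGraph.fromRel_adj]
      rw [this]
      exact key b w'
    · have : (P.web EB EW).graph.Adj (Sum.inr w) (Sum.inl b') ↔
          ∃ i, w = (P.web EB EW).e i b' := by
        simp [Web.graph, SimpleGraph.fromRel_adj]
      rw [this, ← key b' w]
      exact G.adj_comm _ _
    · constructor
      · intro h
        have h1 : c (EW w).1 = false := by simpa using (EW w).2
        have h2 : c (EW w').1 = false := by simpa using (EW w').2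
        exact absurd (h1.trans h2.symm) (P.hc _ _ h)
      · intro h
        exfalso
        simp [Web.graph, SimpleGraph.fromRel_adj] at h

theorem Pot.iso_inr (w : W) : P.iso EB EW (Sum.inr w) = (EW w).1 := rfl

/-- the black darts -/
noncomputable def Pot.bdEquiv : BDart G c ≃ {v // c v = true} × Fin 3 where
  toFun d := (⟨d.1.fst, d.2⟩, P.γ d.1)
  invFun x := ⟨P.δ x.1.1 x.2, by rw [P.δ_fst]; exact x.1.2⟩
  left_inv d := Subtype.ext (P.eq_δ rfl rfl).symm
  right_inv x := Prod.ext (Subtype.ext (P.δ_fst _ _)) (P.γ_δ _ _)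

end Build

/-- a connected cubic bipartite plane graph comes from a web with Euler characteristic two -/
theorem exists_web {V : Type*} [Fintype V] [DecidableEq V] (G : SimpleGraph V)
    (hcub : ∀ v, (G.neighborSet v).ncard = 3) (hpl : IsPlane G) (hconn : G.Connected)
    (c : V → Bool) (hc : ∀ u v, G.Adj u v → c u ≠ c v) :
    ∃ (B W F : Type) (_ : Fintype B) (_ : Fintype W) (_ : Fintype F) (X : Web B W)
      (_ : Lab X F) (φ : X.graph ≃g G), Fintype.card F = Fintype.card B + 2 ∧
      (∀ b, c (φ (Sum.inl b)) = true) ∧ (∀ w, c (φ (Sum.inr w)) = false) := by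
  obtain ⟨R, hR⟩ := hpl
  obtain ⟨P⟩ := exists_pot G hcub R hR hconn c hc
  let EB := (Fintype.equivFin {v // c v = true}).symm
  let EW := (Fintype.equivFin {v // ¬ c v = true}).symm
  let EF := Fintype.equivFin R.Face
  refine ⟨_, _, _, inferInstance, inferInstance, inferInstance, P.web EB EW, P.lab EB EW EF,
    P.iso EB EW, ?_, ?_, ?_⟩
  · rw [Fintype.card_fin, Fintype.card_fin]
    have h := hR
    unfold Rotation.Spherical at h
    rw [Nat.card_eq_fintype_card, Nat.card_eq_fintype_card, Nat.card_eq_fintype_card,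
      ← card_bdart G c hc, Fintype.card_congr P.bdEquiv, Fintype.card_prod, Fintype.card_fin] at h
    have h2 : Fintype.card {v // c v = true} = Fintype.card {v // ¬ c v = true} :=
      Fintype.card_congr (P.eqv 0)
    have h3 : Fintype.card V = Fintype.card {v // c v = true} +
        Fintype.card {v // ¬ c v = true} := by
      rw [← Fintype.card_sum]
      exact (Fintype.card_congr (Equiv.sumCompl (fun v => c v = true))).symm
    omega
  · intro b
    exact (EB b).2
  · intro w
    have := (EW w).2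
    rw [P.iso_inr]
    simpa using this

theorem wconn_of {V : Type*} {G : SimpleGraph V} {c : V → Bool} {B W : Type} {X : Web B W}
    (φ : X.graph ≃g G) (hw : ∀ w, c (φ (Sum.inr w)) = false)
    (col : B → Bool) (σ : Bool) (T : Set V)
    (hT : ∀ b, φ (Sum.inl b) ∈ T → col b = σ) (hb : ∀ b, c (φ (Sum.inl b)) = true)
    (h : (G.induce {v | c v = true → v ∈ T}).Connected) : X.WConn col σ := by
  intro w w'
  set r : W → W → Prop := fun w w' => ∃ b i i', col b = σ ∧ X.e i b = w ∧ X.e i' b = w' with hr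
  let Q : B ⊕ W → Prop :=
    Sum.elim (fun b => ∀ i, Relation.EqvGen r w (X.e i b)) (fun x => Relation.EqvGen r w x)
  have hadj : ∀ b w, X.graph.Adj (Sum.inl b) (Sum.inr w) ↔ ∃ i, w = X.e i b := by
    intro b w
    simp [Web.graph, SimpleGraph.fromRel_adj]
  have hadj' : ∀ b w, X.graph.Adj (Sum.inr w) (Sum.inl b) ↔ ∃ i, w = X.e i b := by
    intro b w
    simp [Web.graph, SimpleGraph.fromRel_adj]
  have key : ∀ (x y : B ⊕ W), X.graph.Adj x y → (c (φ y) = true → φ y ∈ T) → Q x → Q y := by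
    intro x y hxy hy hQ
    rcases x with b | x <;> rcases y with b' | y
    · exfalso
      simp [Web.graph, SimpleGraph.fromRel_adj] at hxy
    · obtain ⟨i, rfl⟩ := (hadj b y).1 hxy
      exact hQ i
    · obtain ⟨i, rfl⟩ := (hadj' b' x).1 hxy
      intro i'
      have hQ' : Relation.EqvGen r w (X.e i b') := hQ
      exact hQ'.trans _ _ _ (Relation.EqvGen.rel _ _ ⟨b', i, i', hT b' (hy (hb b')), rfl, rfl⟩)
    · exfalso
      simp [Web.graph, SimpleGraph.fromRel_adj] at hxy
  have hwalk : ∀ (a b : {v | c v = true → v ∈ T})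
      (_ : (G.induce {v | c v = true → v ∈ T}).Walk a b), Q (φ.symm a.1) → Q (φ.symm b.1) := by
    intro a b p
    induction p with
    | nil => exact id
    | @cons a b' b hab p ih =>
      intro hQ
      apply ih
      have h1 : G.Adj a.1 b'.1 := hab
      apply key (φ.symm a.1) (φ.symm b'.1) (φ.symm.map_adj_iff.2 h1) _ hQ
      rw [RelIso.apply_symm_apply]
      exact b'.2
  have hmem : ∀ w : W, φ (Sum.inr w) ∈ {v | c v = true → v ∈ T} := by
    intro w h
    rw [hw w] at h
    exact absurd h (by decide)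
  obtain ⟨p⟩ := h.preconnected ⟨_, hmem w⟩ ⟨_, hmem w'⟩
  have h1 := hwalk _ _ p
  simp only [RelIso.symm_apply_apply] at h1
  exact h1 (Relation.EqvGen.refl _)

theorem ham_of_splitting {V : Type*} [Fintype V] [DecidableEq V] (G : SimpleGraph V)
    (hcub : ∀ v, (G.neighborSet v).ncard = 3) (hpl : IsPlane G)
    (c : V → Bool) (hc : ∀ u v, G.Adj u v → c u ≠ c v) (S : Set V)
    (h1 : (G.induce {v | c v = true → v ∈ S}).Connected)
    (h2 : (G.induce {v | c v = true → v ∉ S}).Connected) : G.IsHamiltonian := by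
  classical
  -- a white vertex
  obtain ⟨w₀, hw₀⟩ : ∃ w, c w = false := by
    obtain ⟨v⟩ := h1.nonempty
    rcases Bool.eq_false_or_eq_true (c v.1) with h | h
    · have hne : (G.neighborSet v.1).Nonempty := by
        apply Set.nonempty_of_ncard_ne_zero
        rw [hcub]; decide
      obtain ⟨u, hu⟩ := hne
      have h' := hc _ _ hu
      refine ⟨u, ?_⟩
      rcases Bool.eq_false_or_eq_true (c u) with h'' | h''
      · exact absurd (h.trans h''.symm) h'
      · exact h''
    · exact ⟨_, h⟩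
  have hconn : G.Connected := by
    have : Nonempty V := ⟨w₀⟩
    have hr : ∀ u, G.Reachable u w₀ := by
      intro u
      by_cases hu : c u = true → u ∈ S
      · have h := h1.preconnected ⟨u, hu⟩
          ⟨w₀, fun h => absurd (hw₀.symm.trans h) (by decide)⟩
        exact h.map (SimpleGraph.Embedding.induce _).toHom
      · have hu' : u ∉ S := fun h => hu (fun _ => h)
        have h := h2.preconnected ⟨u, fun _ => hu'⟩
          ⟨w₀, fun h => absurd (hw₀.symm.trans h) (by decide)⟩
        exact h.map (SimpleGraph.Embedding.induce _).toHom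
    exact ⟨fun u v => (hr u).trans (hr v).symm⟩
  obtain ⟨B, W, F, _, _, _, X, L, φ, hcard, hb, hw⟩ := exists_web G hcub hpl hconn c hc
  have hN : 2 ≤ Fintype.card B := by
    by_contra hlt
    have hsub : Subsingleton B := by
      rw [← Fintype.card_le_one_iff_subsingleton]; omega
    have h3 : (G.neighborSet w₀).ncard ≤ 1 := by
      rw [Set.ncard_le_one_iff_subsingleton]
      have hbl : ∀ u ∈ G.neighborSet w₀, ∃ b, φ (Sum.inl b) = u := by
        intro u hu
        have hu' := hc _ _ hu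
        rcases hx : φ.symm u with b | w
        · exact ⟨b, by rw [← hx, RelIso.apply_symm_apply]⟩
        · exfalso
          have h4 := hw w
          rw [← hx, RelIso.apply_symm_apply] at h4
          exact hu' (hw₀.trans h4.symm)
      intro u hu v hv
      obtain ⟨b, rfl⟩ := hbl u hu
      obtain ⟨b', rfl⟩ := hbl v hv
      rw [Subsingleton.elim b b']
    rw [hcub] at h3
    omega
  have hs : X.Split (fun b => decide (φ (Sum.inl b) ∈ S)) := by
    refine ⟨?_, ?_⟩
    · exact wconn_of φ hw _ true S (fun b h => by simpa using h) hb h1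
    · exact wconn_of φ hw _ false {v | v ∉ S} (fun b h => by simpa using h) hb h2
  have hH := ham_of_split L hcard hN hs
  intro hV
  have hcV : Fintype.card (B ⊕ W) ≠ 1 := by
    rw [Fintype.card_congr φ.toEquiv]; exact hV
  obtain ⟨a, p, hp⟩ := hH hcV
  exact ⟨φ a, p.map φ.toHom, hp.map φ.bijective⟩

end Vale.Agent.P039.Sk
end

section

/-! Hamiltonian cycles avoiding an edge of an active face. -/

namespace Vale.Agent.P039

open Vale.Agent.P039.Sk

variable {V : Type*}

/-- a graph with a splitting is connected -/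
theorem Splitting.connected {G : SimpleGraph V} (hcub : ∀ v, (G.neighborSet v).ncard = 3)
    {c : V → Bool} {S : Set V} (h : Splitting G c S) :
    G.Connected ∧ ∃ w, c w = false := by
  obtain ⟨w₀, hw₀⟩ : ∃ w, c w = false := by
    obtain ⟨v⟩ := h.inside.nonempty
    rcases Bool.eq_false_or_eq_true (c v.1) with h1 | h1
    · have hne : (G.neighborSet v.1).Nonempty := by
        apply Set.nonempty_of_ncard_ne_zero
        rw [hcub]; decide
      obtain ⟨u, hu⟩ := hne
      have h' := h.proper _ _ hu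
      refine ⟨u, ?_⟩
      rcases Bool.eq_false_or_eq_true (c u) with h'' | h''
      · exact absurd (h1.trans h''.symm) h'
      · exact h''
    · exact ⟨_, h1⟩
  refine ⟨?_, w₀, hw₀⟩
  have : Nonempty V := ⟨w₀⟩
  have hr : ∀ u, G.Reachable u w₀ := by
    intro u
    by_cases hu : c u = true → u ∈ S
    · have h := h.inside.preconnected ⟨u, hu⟩
        ⟨w₀, fun h => absurd (hw₀.symm.trans h) (by decide)⟩
      exact h.map (SimpleGraph.Embedding.induce _).toHom
    · have hu' : u ∉ S := fun h => hu (fun _ => h)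
      have h := h.outside.preconnected ⟨u, fun _ => hu'⟩
        ⟨w₀, fun h => absurd (hw₀.symm.trans h) (by decide)⟩
      exact h.map (SimpleGraph.Embedding.induce _).toHom
  exact ⟨fun u v => (hr u).trans (hr v).symm⟩

/-- every edge of an active face is avoided by a Hamiltonian cycle -/
theorem avoid_of_active [Fintype V] [DecidableEq V] (G : SimpleGraph V)
    (hcub : ∀ v, (G.neighborSet v).ncard = 3) (R : Rotation G) (hR : R.Spherical)
    (d d' : G.Dart) (hd : Active R d) (h : R.facePerm.SameCycle d d') :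
    (G.deleteEdges {s(d'.fst, d'.snd)}).IsHamiltonian := by
  classical
  obtain ⟨c, S, hs, hmono⟩ := hd
  obtain ⟨hconn, w₀, hw₀⟩ := hs.connected hcub
  obtain ⟨P⟩ := exists_pot G hcub R hR hconn c hs.proper
  let EB := (Fintype.equivFin {v // c v = true}).symm
  let EW := (Fintype.equivFin {v // ¬ c v = true}).symm
  let EF := Fintype.equivFin R.Face
  have hcard : Fintype.card (Fin (Fintype.card R.Face)) =
      Fintype.card (Fin (Fintype.card {v // c v = true})) + 2 := by
    rw [Fintype.card_fin, Fintype.card_fin]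
    have h := hR
    unfold Rotation.Spherical at h
    rw [Nat.card_eq_fintype_card, Nat.card_eq_fintype_card, Nat.card_eq_fintype_card,
      ← card_bdart G c hs.proper, Fintype.card_congr P.bdEquiv, Fintype.card_prod,
      Fintype.card_fin] at h
    have h2 : Fintype.card {v // c v = true} = Fintype.card {v // ¬ c v = true} :=
      Fintype.card_congr (P.eqv 0)
    have h3 : Fintype.card V = Fintype.card {v // c v = true} +
        Fintype.card {v // ¬ c v = true} := by
      rw [← Fintype.card_sum]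
      exact (Fintype.card_congr (Equiv.sumCompl (fun v => c v = true))).symm
    omega
  set X := P.web EB EW with hX
  set L := P.lab EB EW EF with hL
  set φ := P.iso EB EW with hφ
  have hb : ∀ b, c (φ (Sum.inl b)) = true := fun b => (EB b).2
  have hw : ∀ w, c (φ (Sum.inr w)) = false := by
    intro w
    have h1 : φ (Sum.inr w) = (EW w).1 := rfl
    have h2 := (EW w).2
    rw [h1]
    simpa using h2
  have hsp : X.Split (fun b => decide (φ (Sum.inl b) ∈ S)) := by
    refine ⟨?_, ?_⟩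
    · exact wconn_of φ hw _ true S (fun b h => by simpa using h) hb hs.inside
    · exact wconn_of φ hw _ false {v | v ∉ S} (fun b h => by simpa using h) hb hs.outside
  have hN : 2 ≤ Fintype.card (Fin (Fintype.card {v // c v = true})) := by
    rw [Fintype.card_fin]
    have h3 : 3 ≤ Fintype.card {v // c v = true} := by
      rw [← hcub w₀, ← Nat.card_eq_fintype_card]
      refine Nat.card_le_card_of_injective (α := G.neighborSet w₀)
        (fun u => ⟨u.1, ?_⟩) ?_
      · have := hs.proper _ _ u.2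
        rcases Bool.eq_false_or_eq_true (c u.1) with h' | h'
        · exact h'
        · exact absurd (hw₀.trans h'.symm) this
      · intro a b hab
        exact Subtype.ext (congrArg (fun z => z.1) hab)
    omega
  have hm : L.Mono (fun b => decide (φ (Sum.inl b) ∈ S)) (EF (R.faceOf d)) := by
    have key : ∀ k b, L.c k b = EF (R.faceOf d) → φ (Sum.inl b) ∈ S := by
      intro k b hk
      have h1 : P.cf k (EB b).1 = R.faceOf d := EF.injective hk
      have h2 : R.facePerm.SameCycle d (P.δ (EB b).1 (k + 2)) := Quotient.exact h1.symm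
      have h3 := hmono _ h2 (by rw [P.δ_fst]; exact (EB b).2)
      rw [P.δ_fst] at h3
      exact h3
    intro k b b' h1 h2
    show decide _ = decide _
    rw [decide_eq_true (key k b h1), decide_eq_true (key k b' h2)]
  have hface : R.faceOf d = R.faceOf d' := Quotient.sound h
  -- the edge as seen from its black end
  have main : ∀ (b : Fin (Fintype.card {v // c v = true})) (i : Fin 3),
      EF (R.faceOf d) = L.c (i + 1) b ∨ EF (R.faceOf d) = L.c (i + 2) b →
      (G.deleteEdges {s((EB b).1, P.nb (EB b).1 i)}).IsHamiltonian := by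
    intro b i hbi
    obtain ⟨h, hsol, hh⟩ := exists_avoid_of_mono L hcard hN hsp hm i b hbi
    have hne : ∀ k, k ≠ i → X.e k b ≠ X.e i b := by
      intro k hk he
      rw [P.web_e_iff EB EW] at he
      apply hk
      have h1 : P.δ (EB b).1 k = P.δ (EB b).1 i := by
        apply SimpleGraph.Dart.ext
        exact Prod.ext ((P.δ_fst _ _).trans (P.δ_fst _ _).symm) he
      rw [← P.γ_δ (EB b).1 k, h1, P.γ_δ]
    have hH := avoid_of_sol L hN hsol hh hne
    have hend : φ (Sum.inr (X.e i b)) = P.nb (EB b).1 i := P.web_e EB EW i b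
    let ψ : (X.graph.deleteEdges {s(Sum.inl b, Sum.inr (X.e i b))}) →g
        (G.deleteEdges {s((EB b).1, P.nb (EB b).1 i)}) :=
      ⟨φ, by
        intro x y hxy
        rw [SimpleGraph.deleteEdges_adj] at hxy ⊢
        refine ⟨φ.map_adj_iff.2 hxy.1, fun hmem => hxy.2 ?_⟩
        rw [Set.mem_singleton_iff] at hmem ⊢
        have h1 : s((EB b).1, P.nb (EB b).1 i) =
            Sym2.map φ s(Sum.inl b, Sum.inr (X.e i b)) := by
          rw [Sym2.map_mk, hend]
          rfl
        rw [h1, ← Sym2.map_mk] at hmem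
        exact Sym2.map.injective φ.injective hmem⟩
    intro hV
    have hcV : Fintype.card (Fin (Fintype.card {v // c v = true}) ⊕
        Fin (Fintype.card {v // ¬ c v = true})) ≠ 1 := by
      rw [Fintype.card_congr φ.toEquiv]; exact hV
    obtain ⟨a, p, hp⟩ := hH hcV
    exact ⟨φ a, p.map ψ, hp.map (f := ψ) φ.bijective⟩
  rcases Bool.eq_false_or_eq_true (c d'.fst) with hc | hc
  · -- black
    have h1 := main (EB.symm ⟨d'.fst, hc⟩) (P.γ d') ?_
    · rw [Equiv.apply_symm_apply] at h1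
      have h2 : P.nb d'.fst (P.γ d') = d'.snd := by
        have := P.eq_δ (d := d') rfl rfl
        unfold Pot.nb
        rw [← this]
      rw [h2] at h1
      exact h1
    · left
      show _ = EF (P.cf (P.γ d' + 1) (EB (EB.symm ⟨d'.fst, hc⟩)).1)
      rw [Equiv.apply_symm_apply, hface]
      unfold Pot.cf
      rw [f12, ← P.eq_δ (d := d') rfl rfl]
  · -- white
    have hc' : c d'.snd = true := P.flip' hc
    have h1 := main (EB.symm ⟨d'.snd, hc'⟩) (P.γ d') ?_
    · rw [Equiv.apply_symm_apply] at h1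
      have h2 : P.nb d'.snd (P.γ d') = d'.fst := by
        have := P.eq_δ (d := d'.symm) (v := d'.snd) (i := P.γ d') rfl (P.γ_symm d')
        unfold Pot.nb
        rw [← this]
        rfl
      rw [h2, Sym2.eq_swap] at h1
      exact h1
    · right
      show _ = EF (P.cf (P.γ d' + 2) (EB (EB.symm ⟨d'.snd, hc'⟩)).1)
      rw [Equiv.apply_symm_apply, hface, ← R.faceOf_facePerm d']
      unfold Pot.cf
      congr 2
      apply P.eq_δ
      · exact R.fst_facePerm d'
      · rw [R.facePerm_apply, P.γ_rot_black (d := d'.symm) hc', P.γ_symm, f22]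

theorem avoid_of_full [Fintype V] [DecidableEq V] (G : SimpleGraph V) (p u : V)
    (h : Full G p) (hu : G.Adj p u) : (G.deleteEdges {s(p, u)}).IsHamiltonian := by
  classical
  obtain ⟨hcub, R, hR, d, d', hdd, hd, hd', ha, ha'⟩ := h
  obtain ⟨c, S, hs, -⟩ := id ha
  obtain ⟨hconn, -⟩ := hs.connected hcub
  obtain ⟨P⟩ := exists_pot G hcub R hR hconn c hs.proper
  let e : G.Dart := ⟨(p, u), hu⟩
  -- the edge before an active dart
  have prev : ∀ d : G.Dart, Active R d → R.rot e = d →
      (G.deleteEdges {s(p, u)}).IsHamiltonian := by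
    intro d ha he
    have h1 := avoid_of_active G hcub R hR d e.symm ha (by
      have h2 : R.facePerm e.symm = d := by
        rw [R.facePerm_apply, SimpleGraph.Dart.symm_symm]
        exact he
      rw [← h2]
      exact (Equiv.Perm.sameCycle_apply_left.2 (Equiv.Perm.SameCycle.refl _ _)))
    have h3 : s(e.symm.fst, e.symm.snd) = s(p, u) := Sym2.eq_swap
    rw [h3] at h1
    exact h1
  have self : ∀ d : G.Dart, Active R d → e = d → (G.deleteEdges {s(p, u)}).IsHamiltonian := by
    intro d ha he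
    have h1 := avoid_of_active G hcub R hR d e ha (by rw [he])
    exact h1
  have he : e.fst = p := rfl
  -- every dart at `p` is `e`, `rot e` or `rot (rot e)`
  have hall : ∀ a : G.Dart, a.fst = p → a = e ∨ a = R.rot e ∨ a = R.rot (R.rot e) := by
    intro a ha
    have r1 : (R.rot e).fst = p := (R.fst_rot e).trans he
    have r2 : (R.rot (R.rot e)).fst = p := (R.fst_rot _).trans r1
    rcases Bool.eq_false_or_eq_true (c p) with hc | hc
    · have g1 := P.γ_rot_black (d := e) hc
      have g2 := P.γ_rot_black (d := R.rot e) (by rw [r1]; exact hc)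
      have : P.γ a = P.γ e ∨ P.γ a = P.γ e + 1 ∨ P.γ a = P.γ e + 1 + 1 := by
        generalize P.γ a = x
        generalize P.γ e = y
        revert x y; decide
      rcases this with h' | h' | h'
      · exact Or.inl (P.dart_inj (ha.trans he.symm) h')
      · exact Or.inr (Or.inl (P.dart_inj (ha.trans r1.symm) (h'.trans g1.symm)))
      · exact Or.inr (Or.inr (P.dart_inj (ha.trans r2.symm) (by rw [g2, g1, h'])))
    · have g1 := P.γ_rot_white (d := e) hc
      have g2 := P.γ_rot_white (d := R.rot e) (by rw [r1]; exact hc)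
      have : P.γ a = P.γ e ∨ P.γ a = P.γ e + 2 ∨ P.γ a = P.γ e + 2 + 2 := by
        generalize P.γ a = x
        generalize P.γ e = y
        revert x y; decide
      rcases this with h' | h' | h'
      · exact Or.inl (P.dart_inj (ha.trans he.symm) h')
      · exact Or.inr (Or.inl (P.dart_inj (ha.trans r1.symm) (h'.trans g1.symm)))
      · exact Or.inr (Or.inr (P.dart_inj (ha.trans r2.symm) (by rw [g2, g1, h'])))
  rcases hall d hd with h1 | h1 | h1
  · exact self d ha h1.symm
  · exact prev d ha h1.symm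
  · rcases hall d' hd' with h2 | h2 | h2
    · exact self d' ha' h2.symm
    · exact prev d' ha' h2.symm
    · exact absurd (h1.trans h2.symm) hdd

end Vale.Agent.P039
end

section

/-! Auxiliary lemmas for the gluing of Hamiltonian cycles along a cut with three edges. -/

namespace Vale.Agent.P039

namespace StGlue

variable {V : Type*}

theorem side_some_some {G : SimpleGraph V} {X : Set V} (u v : X) :
    (side G X).Adj (some u) (some v) ↔ G.Adj u v := by
  unfold side
  rw [SimpleGraph.fromRel_adj]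
  constructor
  · rintro ⟨_, (⟨a, b, ha, hb, hab⟩ | ⟨a, b, _, _, hb, _⟩) | (⟨a, b, ha, hb, hab⟩ |
      ⟨a, b, _, _, hb, _⟩)⟩
    · rw [Option.some.injEq] at ha hb; rw [ha, hb]; exact hab
    · simp at hb
    · rw [Option.some.injEq] at ha hb; rw [ha, hb]; exact hab.symm
    · simp at hb
  · intro h
    refine ⟨?_, Or.inl (Or.inl ⟨u, v, rfl, rfl, h⟩)⟩
    intro e
    rw [Option.some.injEq] at e
    rw [e] at h
    exact G.loopless.irrefl _ h

theorem side_none_some {G : SimpleGraph V} {X : Set V} (u : X) :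
    (side G X).Adj none (some u) ↔ ∃ b, b ∉ X ∧ G.Adj u b := by
  unfold side
  rw [SimpleGraph.fromRel_adj]
  constructor
  · rintro ⟨_, (⟨a, b, ha, hb, hab⟩ | ⟨a, b, _, ha, hb, _⟩) | (⟨a, b, ha, hb, hab⟩ |
      ⟨a, b, hb, ha, _, hab⟩)⟩
    · simp at ha
    · simp at ha
    · simp at hb
    · rw [Option.some.injEq] at ha; rw [ha]; exact ⟨b, hb, hab⟩
  · rintro ⟨b, hb, h⟩
    exact ⟨by simp, Or.inr (Or.inr ⟨u, b, hb, rfl, rfl, h⟩)⟩

/-- The ends inside `X` of the edges which leave `X`. -/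
def ends (G : SimpleGraph V) (X : Set V) : Set V := {a | a ∈ X ∧ ∃ b, b ∉ X ∧ G.Adj a b}

theorem neighborSet_none (G : SimpleGraph V) (X : Set V) :
    (side G X).neighborSet none = some '' ((Subtype.val : X → V) ⁻¹' ends G X) := by
  ext x
  cases x with
  | none => simp
  | some u =>
    rw [SimpleGraph.mem_neighborSet, side_none_some]
    simp [ends]

theorem ncard_ends (G : SimpleGraph V) (X : Set V) :
    (ends G X).ncard = ((side G X).neighborSet none).ncard := by
  rw [neighborSet_none, Set.ncard_image_of_injective _ (Option.some_injective _)]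
  rw [← Set.ncard_image_of_injective _ Subtype.val_injective]
  congr 1
  ext a
  simp only [Set.mem_image, Set.mem_preimage, Subtype.exists, exists_and_left, exists_prop,
    exists_eq_right_right]
  constructor
  · intro h; exact ⟨h, h.1⟩
  · intro h; exact h.1

/-- the pairs counted by `cut` -/
def cutSet (G : SimpleGraph V) (X : Set V) : Set (V × V) :=
  {p : V × V | G.Adj p.1 p.2 ∧ p.1 ∈ X ∧ p.2 ∉ X}

theorem fst_image (G : SimpleGraph V) (X : Set V) :
    Prod.fst '' cutSet G X = ends G X := by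
  ext a
  constructor
  · rintro ⟨p, hp, rfl⟩
    exact ⟨hp.2.1, p.2, hp.2.2, hp.1⟩
  · rintro ⟨ha, b, hb, hab⟩
    exact ⟨(a, b), ⟨hab, ha, hb⟩, rfl⟩

variable [Finite V] {G : SimpleGraph V} {X : Set V}

theorem fst_injOn (hcut : cut G X = 3) (h1 : ((side G X).neighborSet none).ncard = 3) :
    Set.InjOn Prod.fst (cutSet G X) := by
  refine Set.injOn_of_ncard_image_eq ?_ (Set.toFinite _)
  rw [fst_image, ncard_ends, h1]
  exact hcut.symm

omit [Finite V] in
theorem cut_compl (G : SimpleGraph V) (X : Set V) : cut G Xᶜ = cut G X := by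
  have : {p : V × V | G.Adj p.1 p.2 ∧ p.1 ∈ Xᶜ ∧ p.2 ∉ Xᶜ} =
      Prod.swap '' {p : V × V | G.Adj p.1 p.2 ∧ p.1 ∈ X ∧ p.2 ∉ X} := by
    ext p
    constructor
    · rintro ⟨h, h1, h2⟩
      exact ⟨p.swap, ⟨h.symm, not_not.1 h2, h1⟩, Prod.swap_swap p⟩
    · rintro ⟨q, ⟨h, h1, h2⟩, rfl⟩
      exact ⟨h.symm, h2, fun h3 => h3 h1⟩
  unfold cut
  rw [this, Set.ncard_image_of_injective _ Prod.swap_injective]

omit [Finite V] in
theorem ncard_neighborSet (hinj : Set.InjOn Prod.fst (cutSet G X)) (v : X) :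
    (G.neighborSet v).ncard = ((side G X).neighborSet (some v)).ncard := by
  classical
  let φ : V → Option X := fun w => if h : w ∈ X then some ⟨w, h⟩ else none
  have hφ : φ '' (G.neighborSet v) = (side G X).neighborSet (some v) := by
    ext x
    constructor
    · rintro ⟨w, hw, rfl⟩
      rw [SimpleGraph.mem_neighborSet] at hw ⊢
      by_cases h : w ∈ X
      · simp only [φ, h, dif_pos]
        rw [side_some_some]; exact hw
      · simp only [φ, h, dif_neg, not_false_eq_true]
        rw [SimpleGraph.adj_comm, side_none_some]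
        exact ⟨w, h, hw⟩
    · intro hx
      rw [SimpleGraph.mem_neighborSet] at hx
      cases x with
      | none =>
        rw [SimpleGraph.adj_comm, side_none_some] at hx
        obtain ⟨b, hb, hvb⟩ := hx
        exact ⟨b, hvb, by simp [φ, hb]⟩
      | some w =>
        rw [side_some_some] at hx
        exact ⟨w, hx, by simp [φ]⟩
  rw [← hφ]
  refine (Set.InjOn.ncard_image ?_).symm
  intro a ha b hb hab
  rw [SimpleGraph.mem_neighborSet] at ha hb
  by_cases h1 : a ∈ X <;> by_cases h2 : b ∈ X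
  · simpa [φ, h1, h2] using hab
  · simp [φ, h1, h2] at hab
  · simp [φ, h1, h2] at hab
  · have := @hinj ((v : V), a) ⟨ha, v.2, h1⟩ ((v : V), b) ⟨hb, v.2, h2⟩ rfl
    exact congrArg Prod.snd this

omit [Finite V] in
/-- A Hamiltonian cycle cut open at a vertex. -/
theorem path_of_ham {W : Type*} [Fintype W] [DecidableEq W] {H : SimpleGraph W}
    (h : H.IsHamiltonian) [Nontrivial W] (v : W) :
    ∃ (x y : W) (q : H.Walk y x), q.IsPath ∧ H.Adj v y ∧ H.Adj v x ∧ y ≠ x ∧ v ∉ q.support ∧
      ∀ w, w ≠ v → w ∈ q.support := by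
  obtain ⟨p, hp⟩ := h.exists_isHamiltonianCycle v
  have hlen := hp.isCycle.three_le_length
  have hmem := hp.mem_support
  have hc := hp.isCycle
  clear hp
  cases p with
  | nil => simp at hlen
  | @cons _ x _ hx q =>
    rw [SimpleGraph.Walk.cons_isCycle_iff] at hc
    have hq : q.reverse.IsPath := hc.1.reverse
    have hql : 2 ≤ q.reverse.length := by
      rw [SimpleGraph.Walk.length_reverse]
      rw [SimpleGraph.Walk.length_cons] at hlen
      omega
    have hqm : ∀ w, w ∈ q.reverse.support := by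
      intro w
      rw [SimpleGraph.Walk.support_reverse, List.mem_reverse]
      have := hmem w
      rw [SimpleGraph.Walk.support_cons, List.mem_cons] at this
      rcases this with rfl | h
      · exact q.end_mem_support
      · exact h
    generalize hr : q.reverse = r at hq hql hqm
    cases r with
    | nil => simp at hql
    | @cons _ y _ hy r =>
      rw [SimpleGraph.Walk.cons_isPath_iff] at hq
      refine ⟨x, y, r, hq.1, hy, hx, ?_, hq.2, ?_⟩
      · rintro rfl
        have h0 := hq.1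
        rw [SimpleGraph.Walk.isPath_iff_nil] at h0
        rw [SimpleGraph.Walk.length_cons, SimpleGraph.Walk.length_eq_zero_iff.2 h0] at hql
        omega
      · intro w hw
        have := hqm w
        rw [SimpleGraph.Walk.support_cons, List.mem_cons] at this
        exact this.resolve_left hw

omit [Finite V] in
/-- A list of vertices of `X` obtained from a Hamiltonian cycle of the contraction. -/
theorem list_of_ham {H : SimpleGraph (Option X)} (hH : H ≤ side G X) [Fintype (Option X)]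
    [DecidableEq (Option X)] (h : H.IsHamiltonian) [Nontrivial (Option X)] :
    ∃ (a b : X) (L : List V), L.IsChain G.Adj ∧ L.Nodup ∧ (∀ w, w ∈ L ↔ w ∈ X) ∧
      L.head? = some (a : V) ∧ L.getLast? = some (b : V) ∧ a ≠ b ∧ H.Adj none (some a) ∧
        H.Adj none (some b) := by
  obtain ⟨x, y, q, hq, hy, hx, hxy, hn, hc⟩ := path_of_ham h none
  cases x with
  | none => exact absurd hx (H.loopless.irrefl _)
  | some b =>
    cases y with
    | none => exact absurd hy (H.loopless.irrefl _)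
    | some a =>
      have key : ∀ l : List (Option X), none ∉ l → ∃ L : List X, l = L.map some := by
        intro l
        induction l with
        | nil => intro _; exact ⟨[], rfl⟩
        | cons c l ih =>
          intro hl
          rw [List.mem_cons, not_or] at hl
          obtain ⟨L, hL⟩ := ih hl.2
          cases c with
          | none => exact absurd rfl hl.1
          | some c => exact ⟨c :: L, by rw [hL, List.map_cons]⟩
      obtain ⟨L, hL⟩ := key q.support hn
      refine ⟨a, b, L.map Subtype.val, ?_, ?_, ?_, ?_, ?_, ?_, hy, hx⟩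
      · have h1 := q.isChain_adj_support
        rw [hL, List.isChain_map] at h1
        rw [List.isChain_map]
        refine h1.imp ?_
        intro u v huv
        exact (side_some_some u v).1 (hH huv)
      · have h1 := hq.support_nodup
        rw [hL] at h1
        exact (List.Nodup.of_map _ h1).map Subtype.val_injective
      · intro w
        rw [List.mem_map]
        constructor
        · rintro ⟨u, _, rfl⟩; exact u.2
        · intro hw
          have h1 := hc (some ⟨w, hw⟩) (by simp)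
          rw [hL, List.mem_map] at h1
          obtain ⟨u, hu, he⟩ := h1
          rw [Option.some.injEq] at he
          exact ⟨u, hu, by rw [he]⟩
      · have h1 : q.support.head? = some (some a) := by
          rw [← q.cons_tail_support]; rfl
        rw [hL, List.head?_map] at h1
        rw [List.head?_map]
        cases h2 : L.head? with
        | none => rw [h2] at h1; simp at h1
        | some c =>
          rw [h2] at h1
          simp only [Option.map_some, Option.some.injEq] at h1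
          rw [h1]; rfl
      · have h1 : q.support.getLast? = some (some b) := by
          rw [List.getLast?_eq_some_getLast q.support_ne_nil, q.getLast_support]
        rw [hL, List.getLast?_map] at h1
        rw [List.getLast?_map]
        cases h2 : L.getLast? with
        | none => rw [h2] at h1; simp at h1
        | some c =>
          rw [h2] at h1
          simp only [Option.map_some, Option.some.injEq] at h1
          rw [h1]; rfl
      · intro e; exact hxy (by rw [e])

omit [Finite V] in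
theorem exists_walk_of_list : ∀ (l : List V) (x : V), (x :: l).IsChain G.Adj →
    ∃ y, y ∈ (x :: l).getLast? ∧ ∃ w : G.Walk x y, w.support = x :: l := by
  intro l
  induction l with
  | nil => intro x _; exact ⟨x, rfl, SimpleGraph.Walk.nil, rfl⟩
  | cons a l ih =>
    intro x h
    rw [List.isChain_cons_cons] at h
    obtain ⟨y, hy, w, hw⟩ := ih a h.2
    refine ⟨y, ?_, SimpleGraph.Walk.cons h.1 w, ?_⟩
    · rw [List.getLast?_cons_cons]; exact hy
    · rw [SimpleGraph.Walk.support_cons, hw]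

omit [Finite V] in
theorem ham_of_list [Fintype V] [DecidableEq V] (v x : V) (l : List V)
    (hch : (x :: l).IsChain G.Adj) (hnd : (x :: l).Nodup) (hcov : ∀ w, w ≠ v → w ∈ x :: l)
    (hv : v ∉ x :: l) (h1 : G.Adj v x) (h2 : ∀ y ∈ (x :: l).getLast?, G.Adj y v) (hl : l ≠ []) :
    G.IsHamiltonian := by
  intro _
  obtain ⟨y, hy, w, hw⟩ := exists_walk_of_list l x hch
  have hadj := h2 y hy
  refine ⟨v, SimpleGraph.Walk.cons h1 (w.concat hadj), ?_⟩
  rw [SimpleGraph.Walk.isHamiltonianCycle_iff_isCycle_and_support_count_tail_eq_one]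
  have hsup : (w.concat hadj).support = (x :: l) ++ [v] := by
    rw [SimpleGraph.Walk.support_concat, hw]
  have hnd2 : ((x :: l) ++ [v]).Nodup := by
    rw [List.nodup_append]
    refine ⟨hnd, List.nodup_singleton _, ?_⟩
    intro a ha b hb hab
    rw [List.mem_singleton] at hb
    rw [hab, hb] at ha; exact hv ha
  refine ⟨?_, ?_⟩
  · rw [SimpleGraph.Walk.cons_isCycle_iff]
    refine ⟨?_, ?_⟩
    · rw [SimpleGraph.Walk.isPath_def, hsup]; exact hnd2
    · rw [SimpleGraph.Walk.edges_concat, List.concat_eq_append, List.mem_append]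
      rintro (h | h)
      · have := w.fst_mem_support_of_mem_edges h
        rw [hw] at this; exact hv this
      · rw [List.mem_singleton, Sym2.eq_swap, Sym2.eq_iff] at h
        have hxy : x = y := by
          rcases h with ⟨h, _⟩ | ⟨h, _⟩
          · exact h
          · exfalso; rw [← h] at hv; exact hv (by simp)
        obtain ⟨a, l', rfl⟩ := List.exists_cons_of_ne_nil hl
        rw [List.getLast?_cons_cons] at hy
        have := List.mem_of_mem_getLast? hy
        rw [← hxy] at this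
        exact (List.nodup_cons.1 hnd).1 this
  · intro a
    have e : (SimpleGraph.Walk.cons h1 (w.concat hadj)).support.tail = (x :: l) ++ [v] := by
      rw [SimpleGraph.Walk.support_cons, List.tail_cons, hsup]
    rw [e]
    apply List.count_eq_one_of_mem hnd2
    by_cases hav : a = v
    · rw [hav]; simp
    · exact List.mem_append_left _ (hcov a hav)

omit [Finite V] in
/-- Two lists which close up to a Hamiltonian cycle. -/
theorem ham_of_two [Fintype V] [DecidableEq V] (L M : List V) (a₁ a₂ b₁ b₂ : V)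
    (hL : L.IsChain G.Adj) (hM : M.IsChain G.Adj) (hLn : L.Nodup) (hMn : M.Nodup)
    (hLX : ∀ w, w ∈ L ↔ w ∈ X) (hMX : ∀ w, w ∈ M ↔ w ∉ X)
    (hL1 : L.head? = some a₁) (hL2 : L.getLast? = some a₂) (hM1 : M.head? = some b₂)
    (hM2 : M.getLast? = some b₁) (ha : a₁ ≠ a₂) (h1 : G.Adj a₁ b₁) (h2 : G.Adj a₂ b₂) :
    G.IsHamiltonian := by
  cases L with
  | nil => simp at hL1
  | cons c L =>
    rw [List.head?_cons, Option.some.injEq] at hL1
    subst hL1
    cases L with
    | nil =>
      rw [List.getLast?_singleton, Option.some.injEq] at hL2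
      exact absurd hL2 ha
    | cons x L =>
      rw [List.getLast?_cons_cons] at hL2
      have hMne : M ≠ [] := by
        rintro rfl; simp at hM1
      apply ham_of_list c x (L ++ M)
      · rw [← List.cons_append]
        rw [List.isChain_append]
        refine ⟨(List.isChain_cons_cons.1 hL).2, hM, ?_⟩
        intro u hu w hw
        rw [hL2, Option.mem_def, Option.some.injEq] at hu
        rw [hM1, Option.mem_def, Option.some.injEq] at hw
        rw [← hu, ← hw]
        exact h2
      · rw [← List.cons_append, List.nodup_append]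
        refine ⟨(List.nodup_cons.1 hLn).2, hMn, ?_⟩
        intro u hu w hw e
        rw [← e] at hw
        exact (hMX u).1 hw ((hLX u).1 (List.mem_cons_of_mem _ hu))
      · intro w hw
        rw [← List.cons_append, List.mem_append]
        by_cases hwX : w ∈ X
        · left
          have := (hLX w).2 hwX
          rw [List.mem_cons] at this
          exact this.resolve_left hw
        · right; exact (hMX w).2 hwX
      · rw [← List.cons_append, List.mem_append, not_or]
        refine ⟨(List.nodup_cons.1 hLn).1, ?_⟩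
        intro h
        exact (hMX c).1 h ((hLX c).1 List.mem_cons_self)
      · exact (List.isChain_cons_cons.1 hL).1
      · intro y hy
        rw [← List.cons_append, List.getLast?_append, hM2, Option.some_or, Option.mem_def,
          Option.some.injEq] at hy
        rw [← hy]; exact h1.symm
      · simp [hMne]

end StGlue

end Vale.Agent.P039
end

section

/-! Gluing Hamiltonian cycles along a cut with three edges. -/

namespace Vale.Agent.P039

variable {V : Type*}

/-- the third element of a set with three elements -/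
theorem StGlue.third {A : Set V} (hA : A.ncard = 3) {a₁ a₂ : V} (h1 : a₁ ∈ A) (h2 : a₂ ∈ A)
    (h : a₁ ≠ a₂) : ∃ a₃ ∈ A, ∀ w ∈ A, w ≠ a₃ → w = a₁ ∨ w = a₂ := by
  obtain ⟨x, y, z, hxy, hxz, hyz, rfl⟩ := Set.ncard_eq_three.1 hA
  simp only [Set.mem_insert_iff, Set.mem_singleton_iff] at h1 h2 ⊢
  rcases h1 with rfl | rfl | rfl <;> rcases h2 with rfl | rfl | rfl
  · exact absurd rfl h
  · exact ⟨z, by simp, by tauto⟩
  · exact ⟨y, by simp, by tauto⟩
  · exact ⟨z, by simp, by tauto⟩
  · exact absurd rfl h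
  · exact ⟨x, by simp, by tauto⟩
  · exact ⟨y, by simp, by tauto⟩
  · exact ⟨x, by simp, by tauto⟩
  · exact absurd rfl h

/-- Exactly three edges leave `X`; both contractions have three neighbours at the new vertex. If
the contraction of the complement is Hamiltonian and the contraction of `X` has, for each edge at
the new vertex, a Hamiltonian cycle avoiding this edge, then `G` is Hamiltonian. -/
theorem ham_glue [Fintype V] [DecidableEq V] (G : SimpleGraph V) (X : Set V)
    (hcut : cut G X = 3)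
    (h1 : ((side G X).neighborSet none).ncard = 3)
    (h2 : ((side G Xᶜ).neighborSet none).ncard = 3)
    [Fintype (Option X)] [DecidableEq (Option X)]
    [Fintype (Option (Xᶜ : Set V))] [DecidableEq (Option (Xᶜ : Set V))]
    (hX : (side G X).IsHamiltonian)
    (hY : ∀ u, (side G Xᶜ).Adj none u →
      ((side G Xᶜ).deleteEdges {s(none, u)}).IsHamiltonian) : G.IsHamiltonian := by
  have hinj := StGlue.fst_injOn hcut h1
  have hA : (StGlue.ends G X).ncard = 3 := by rw [StGlue.ncard_ends, h1]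
  have n1 : Nontrivial (Option X) := by
    have hne : ((side G X).neighborSet none).Nonempty := by
      apply Set.nonempty_of_ncard_ne_zero; omega
    obtain ⟨x, hx⟩ := hne
    exact ⟨none, x, (SimpleGraph.mem_neighborSet _ _ _ |>.1 hx).ne⟩
  have n2 : Nontrivial (Option (Xᶜ : Set V)) := by
    have hne : ((side G Xᶜ).neighborSet none).Nonempty := by
      apply Set.nonempty_of_ncard_ne_zero; omega
    obtain ⟨x, hx⟩ := hne
    exact ⟨none, x, (SimpleGraph.mem_neighborSet _ _ _ |>.1 hx).ne⟩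
  obtain ⟨a₁, a₂, L, hL, hLn, hLX, hL1, hL2, ha, had1, had2⟩ := StGlue.list_of_ham le_rfl hX
  rw [StGlue.side_none_some] at had1 had2
  obtain ⟨a₃, ha₃, hthird⟩ := StGlue.third hA (a₁ := a₁) (a₂ := a₂) ⟨a₁.2, had1⟩ ⟨a₂.2, had2⟩
    (fun e => ha (Subtype.ext e))
  obtain ⟨ha₃X, b₃, hb₃, hab₃⟩ := ha₃
  have hadj : (side G Xᶜ).Adj none (some ⟨b₃, hb₃⟩) := by
    rw [StGlue.side_none_some]
    exact ⟨a₃, fun h => h ha₃X, hab₃.symm⟩
  obtain ⟨c, c', M, hM, hMn, hMX, hM1, hM2, hcc, hc, hc'⟩ :=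
    StGlue.list_of_ham (SimpleGraph.deleteEdges_le _) (hY _ hadj)
  rw [SimpleGraph.deleteEdges_adj] at hc hc'
  have hMX' : ∀ w, w ∈ M ↔ w ∉ X := hMX
  -- the neighbours of `c` and `c'` in `X`
  have key : ∀ u : (Xᶜ : Set V), ((side G Xᶜ).Adj none (some u) ∧
      s(none, some u) ∉ ({s(none, some ⟨b₃, hb₃⟩)} : Set (Sym2 (Option (Xᶜ : Set V))))) →
      ∃ p, p ∈ X ∧ G.Adj p u ∧ (p = a₁ ∨ p = a₂) := by
    rintro u ⟨hu1, hu2⟩
    rw [StGlue.side_none_some] at hu1
    obtain ⟨p, hp, hup⟩ := hu1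
    have hpX : p ∈ X := not_not.1 hp
    refine ⟨p, hpX, hup.symm, hthird p ⟨hpX, u, u.2, hup.symm⟩ ?_⟩
    rintro rfl
    apply hu2
    have h3 := @hinj (p, (u : V)) ⟨hup.symm, hpX, u.2⟩ (p, b₃) ⟨hab₃, hpX, hb₃⟩ rfl
    have h4 : (u : V) = b₃ := congrArg Prod.snd h3
    have h5 : u = ⟨b₃, hb₃⟩ := Subtype.ext h4
    rw [h5]; rfl
  obtain ⟨p, hpX, hpc, hp⟩ := key c hc
  obtain ⟨p', hpX', hpc', hp'⟩ := key c' hc'
  have hpp : p ≠ p' := by
    rintro rfl
    have h3 := @hinj (p, (c : V)) ⟨hpc, hpX, c.2⟩ (p, (c' : V)) ⟨hpc', hpX, c'.2⟩ rfl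
    exact hcc (Subtype.ext (congrArg Prod.snd h3))
  have haV : (a₁ : V) ≠ a₂ := fun e => ha (Subtype.ext e)
  rcases hp with rfl | rfl
  · have hp2 : p' = a₂ := hp'.resolve_left (fun h => hpp h.symm)
    subst hp2
    refine StGlue.ham_of_two L M.reverse a₁ a₂ c c' hL ?_ hLn (List.nodup_reverse.2 hMn) hLX ?_
      hL1 hL2 ?_ ?_ haV hpc hpc'
    · rw [List.isChain_reverse]
      exact hM.imp fun _ _ h => h.symm
    · intro w; rw [List.mem_reverse]; exact hMX' w
    · rw [List.head?_reverse]; exact hM2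
    · rw [List.getLast?_reverse]; exact hM1
  · have hp2 : p' = a₁ := hp'.resolve_right (fun h => hpp h.symm)
    subst hp2
    exact StGlue.ham_of_two L M a₁ a₂ c' c hL hM hLn hMn hLX hMX' hL1 hL2 hM1 hM2 haV hpc' hpc

/-- if both contractions are cubic, the graph is cubic -/
theorem cubic_of_glue [Finite V] (G : SimpleGraph V) (X : Set V) (hcut : cut G X = 3)
    (h1 : ∀ v, ((side G X).neighborSet v).ncard = 3)
    (h2 : ∀ v, ((side G Xᶜ).neighborSet v).ncard = 3) (v : V) :
    (G.neighborSet v).ncard = 3 := by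
  by_cases hv : v ∈ X
  · have := StGlue.ncard_neighborSet (StGlue.fst_injOn hcut (h1 none)) ⟨v, hv⟩
    rw [h1] at this
    exact this
  · have hcut' : cut G Xᶜ = 3 := by rw [StGlue.cut_compl, hcut]
    have := StGlue.ncard_neighborSet (StGlue.fst_injOn hcut' (h2 none)) ⟨v, hv⟩
    rw [h2] at this
    exact this

end Vale.Agent.P039
end

section

/-! Composite graphs are Hamiltonian. -/

namespace Vale.Agent.P039

theorem composite_aux {V : Type} {G : SimpleGraph V} (h : Composite G) : Finite V →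
    (∀ v, (G.neighborSet v).ncard = 3) ∧
      ∀ [Fintype V] [DecidableEq V], G.IsHamiltonian := by
  induction h with
  | splitting G c S hcub hpl hs =>
    intro _
    refine ⟨hcub, ?_⟩
    intro _ _
    exact Sk.ham_of_splitting G hcub hpl c hs.proper S hs.inside hs.outside
  | glue G X hcut hc hfull ih =>
    intro hfin
    obtain ⟨h1, h2⟩ := ih inferInstance
    refine ⟨cubic_of_glue G X hcut h1 hfull.1, ?_⟩
    intro _ _
    classical
    exact ham_glue G X hcut (h1 none) (hfull.1 none) h2 fun u hu => avoid_of_full _ _ _ hfull hu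

theorem ham_of_composite {V : Type} [Fintype V] [DecidableEq V] (G : SimpleGraph V)
    (h : Composite G) : G.IsHamiltonian :=
  (composite_aux h inferInstance).2

end Vale.Agent.P039
end
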